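import Vale.Agent.P354RC.Pull

/-!
The components of a vacuum metric and of its connection in the coordinates of R4.
-/

set_option linter.all false
set_option maxSynthPendingDepth 3

open scoped ContDiff
open Set Filter Topology

namespace Vale.Agent.P354XD

open Vale.Agent.P354n (R4)
open Vale.Agent.P354R Vale.Agent.P354RC

/-- The field of bilinear forms of g. -/
noncomputable def tb (g : R4 → R4 → R4 → ℝ) (y : R4) : B2 :=
  ∑ i, ∑ j, g y (bs i) (bs j) • (cv i).smulRight (cv j)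

/-- The components of the metric and the Christoffel symbols. -/
def gc (g : R4 → R4 → R4 → ℝ) (a b : Fin 4) (y : R4) : ℝ := g y (bs a) (bs b)
noncomputable def Gc (g : R4 → R4 → R4 → ℝ) (a b d : Fin 4) (y : R4) : ℝ :=
  cv d (Gm (tb g) y (bs a) (bs b))

/-- The derivative along a coordinate. -/
noncomputable def db (a : Fin 4) (f : R4 → ℝ) (y : R4) : ℝ := fderiv ℝ f y (bs a)

/-- g is a smooth vacuum metric near y. -/
def VacAt (g : R4 → R4 → R4 → ℝ) (y : R4) : Prop :=
  ∃ D, IsOpen D ∧ y ∈ D ∧ Met g D ∧ Vac g D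

variable {g : R4 → R4 → R4 → ℝ} {D : Set R4} {y : R4}

theorem tb_bs (a b : Fin 4) : tb g y (bs a) (bs b) = g y (bs a) (bs b) := by
  simp [tb, cv_bs]

theorem rp_tb (hD : IsOpen D) (m : Met g D) : Rp g (tb g) D := by
  obtain ⟨h, r⟩ := rp_of_met hD m
  have e : ∀ y ∈ D, tb g y = h y := fun y hy => by
    refine ContinuousLinearMap.ext fun a => ContinuousLinearMap.ext fun b => ?_
    conv_rhs => rw [← sum_bs a, ← sum_bs b]
    simp only [tb, ContinuousLinearMap.sum_apply, ContinuousLinearMap.smul_apply,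
      ContinuousLinearMap.smulRight_apply, map_sum, map_smul, smul_eq_mul, r.eq y hy,
      Finset.mul_sum]
    rw [Finset.sum_comm]
    exact Finset.sum_congr rfl fun _ _ => Finset.sum_congr rfl fun _ _ => by ring
  exact ⟨hD, fun y hy a b => by rw [e y hy, r.eq y hy], r.sm.congr e,
    fun y hy a b => by rw [e y hy, r.symm y hy], fun y hy a ha => r.nd y hy a (e y hy ▸ ha)⟩

section
variable {h : R4 → B2} (r : Rp g h D) (hy : y ∈ D)
include r hy

theorem gm_symm (a b : R4) : Gm h y a b = Gm h y b a :=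
  r.ext hy fun c => by rw [r.gm hy, r.gm hy, C1_ap, C1_ap, r.dsym hy c a b]; ring

theorem dh_eq (a u w : R4) : fderiv ℝ h y a u w = h y (Gm h y a u) w + h y u (Gm h y a w) := by
  rw [r.symm y hy u, r.gm hy, r.gm hy, C1_ap, C1_ap, r.dsym hy a w u, r.dsym hy w a u,
    r.dsym hy u a w]
  ring

theorem dC_eq (a b c w : R4) : dC h y a b c w = h y (Gm h y b c) (Gm h y a w) +
    h y (fderiv ℝ (fun z => Gm h z b c) y a + Gm h y a (Gm h y b c)) w := by
  have k := r.gm_cd hy (contDiffAt_const (c := b)) (contDiffAt_const (c := c))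
  have e : (fun z => C1 h z b c w) =ᶠ[𝓝 y] fun z => h z (Gm h z b c) w := by
    filter_upwards [r.op.mem_nhds hy] with z hz using (r.gm hz b c w).symm
  rw [← (fd_C1 (r.at hy) a b c w).2, e.fderiv_eq, fd_ap0 ((r.at hy).clm_apply k),
    fd_ap (r.at hy) k, ContinuousLinearMap.add_apply, dh_eq r hy, map_add,
    ContinuousLinearMap.add_apply]
  ring

end

namespace VacAt
variable (v : VacAt g y)
include v

theorem ev : ∀ᶠ z in 𝓝 y, VacAt g z := by
  obtain ⟨D, a, b, c⟩ := v
  filter_upwards [a.mem_nhds b] with z hz using ⟨D, a, hz, c⟩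

theorem sm_g (a b : Fin 4) : ContDiffAt ℝ ∞ (gc g a b) y := by
  obtain ⟨D, h1, h2, h3, -⟩ := v
  exact (h3.smooth _ _).contDiffAt (h1.mem_nhds h2)

theorem sm_G (a b d : Fin 4) : ContDiffAt ℝ ∞ (Gc g a b d) y := by
  obtain ⟨D, h1, h2, h3, -⟩ := v
  exact (cv d).contDiff.contDiffAt.comp y
    ((rp_tb h1 h3).gm_cd h2 contDiffAt_const contDiffAt_const)

theorem g_symm (a b : Fin 4) : gc g a b y = gc g b a y := by
  obtain ⟨D, h1, h2, h3, -⟩ := v
  exact h3.symm y h2 _ _

theorem G_symm (a b d : Fin 4) : Gc g a b d y = Gc g b a d y := by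
  obtain ⟨D, h1, h2, h3, -⟩ := v
  rw [Gc, gm_symm (rp_tb h1 h3) h2, Gc]

theorem compat (a b d : Fin 4) :
    db a (gc g b d) y = ∑ f, (Gc g a b f y * gc g f d y + Gc g a d f y * gc g b f y) := by
  obtain ⟨D, h1, h2, h3, -⟩ := v
  have r := rp_tb h1 h3
  have e : gc g b d = fun z => tb g z (bs b) (bs d) := funext fun z => (tb_bs b d).symm
  rw [db, e, fd_ap0 ((r.at h2).clm_apply contDiffAt_const), fd_ap0 (r.at h2), dh_eq r h2,
    ← sum_bs (Gm _ y (bs a) (bs b)), ← sum_bs (Gm _ y (bs a) (bs d))]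
  simp only [map_sum, map_smul, ContinuousLinearMap.sum_apply, ContinuousLinearMap.smul_apply,
    smul_eq_mul, tb_bs, Finset.sum_add_distrib]
  rfl

theorem ric (b d : Fin 4) : ∑ a, (db a (Gc g b d a) y - db b (Gc g a d a) y +
    ∑ f, (Gc g b d f y * Gc g a f a y - Gc g a d f y * Gc g b f a y)) = 0 := by
  obtain ⟨D, h1, h2, h3, h4⟩ := v
  have r := rp_tb h1 h3
  rw [← r.vac.1 h4 y h2 (bs b) (bs d), Ric]
  refine Finset.sum_congr rfl fun a _ => ?_
  have e : ∀ u, tb g y u ((tb g y).inverse (cv a)) = cv a u := fun u => by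
    rw [r.symm y h2, r.inv h2]
  have e1 : ∀ i j k, db i (Gc g j k a) y =
      cv a (fderiv ℝ (fun z => Gm (tb g) z (bs j) (bs k)) y (bs i)) := fun i j k => by
    have := fd_ap (contDiffAt_const (c := cv a))
      (r.gm_cd h2 (contDiffAt_const (c := bs j)) (contDiffAt_const (c := bs k))) (bs i)
    exact this.trans (by simp)
  have e2 : ∀ i u, cv a (Gm (tb g) y (bs i) u) = ∑ f, cv f u * Gc g i f a y := fun i u => by
    conv_lhs => rw [← sum_bs u]
    simp only [Fin.sum_univ_four, Gm_add2, Gm_smul2, map_add, map_smul, smul_eq_mul, Gc]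
  rw [Rm, dC_eq r h2, dC_eq r h2, e, e, map_add, map_add, e1, e1, e2 a (Gm _ y (bs b) (bs d)),
    e2 b (Gm _ y (bs a) (bs d)), Finset.sum_sub_distrib]
  simp only [Gc]
  ring

end VacAt

end Vale.Agent.P354XD
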