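import Vale.Agent.P354XD.Hp
import Vale.Agent.P354XD.Base
import Vale.Agent.P354XG.Ring

/-!
The chart on germs of smooth families, the pull back of functions on the base, and the geometry of
a family of vacuum metrics.
-/

set_option linter.all false

open scoped ContDiff
open Set Filter Topology Complex

namespace Vale.Agent.P354XD

open Vale.Agent.P354n (R4)
open Vale.Agent.P354RC (bs cv sum_bs)
open Vale.Agent.P354XG Vale.Agent.P354XR

section rp
variable {J E : Type} [NormedAddCommGroup E] [NormedSpace ℝ E] {G : Filter (J × E)} [Loc G]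
  {a b : Sm G} {f g : J × E → ℂ}

/-- f represents a. -/
def Rs (a : Sm G) (f : J × E → ℂ) : Prop := rep a =ᶠ[G] f

theorem rs_rep (a : Sm G) : Rs a (rep a) := EventuallyEq.rfl
theorem rs_mk (hf : SmF G f) : Rs (mk f hf) f := rep_mk f hf
theorem Rs.sm (h : Rs a f) : SmF G f := (rep_sm a).congr h
theorem Rs.congr (h : Rs a f) (e : f =ᶠ[G] g) : Rs a g := EventuallyEq.trans h e
theorem Rs.ext (h : Rs a f) (h' : Rs b g) (e : f =ᶠ[G] g) : a = b :=
  ext_rep ((EventuallyEq.trans h e).trans (EventuallyEq.symm h'))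
theorem Rs.eq (h : Rs a f) (h' : Rs a g) : f =ᶠ[G] g := (EventuallyEq.symm h).trans h'
theorem Rs.add (h : Rs a f) (h' : Rs b g) : Rs (a + b) fun p => f p + g p :=
  (rep_add a b).trans (EventuallyEq.add h h')
theorem Rs.mul (h : Rs a f) (h' : Rs b g) : Rs (a * b) fun p => f p * g p :=
  (rep_mul a b).trans (EventuallyEq.mul h h')
theorem Rs.neg (h : Rs a f) : Rs (-a) fun p => -f p := (rep_neg a).trans (EventuallyEq.neg h)
theorem Rs.sub (h : Rs a f) (h' : Rs b g) : Rs (a - b) fun p => f p - g p :=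
  (rep_sub a b).trans (EventuallyEq.sub h h')
theorem rs_alg (z : ℂ) : Rs (algebraMap ℂ (Sm G) z) fun _ => z := rep_alg z
theorem rs_zero : Rs (0 : Sm G) fun _ => 0 := rep_zero
theorem rs_one : Rs (1 : Sm G) fun _ => 1 := rep_one
theorem rs_num (n : ℕ) [n.AtLeastTwo] : Rs (ofNat(n) : Sm G) fun _ => ofNat(n) := by
  rw [← map_ofNat (algebraMap ℂ (Sm G))]; exact rs_alg _
theorem Rs.pow (h : Rs a f) (n : ℕ) : Rs (a ^ n) fun p => f p ^ n := by
  induction n with
  | zero => simpa using rs_one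
  | succ n ih => simpa only [pow_succ] using ih.mul h
theorem Rs.cj (h : Rs a f) : Rs (cj a) fun p => starRingEnd ℂ (f p) :=
  (rep_cj a).trans (EventuallyEq.fun_comp h _)
theorem Rs.pd (h : Rs a f) (v : E) : Rs (pd v a) (pdF v f) := (rep_pd v a).trans (pdF_congr h v)
theorem Rs.sum {ι : Type} (s : Finset ι) {a : ι → Sm G} {f : ι → J × E → ℂ}
    (h : ∀ i, Rs (a i) (f i)) : Rs (∑ i ∈ s, a i) fun p => ∑ i ∈ s, f i p := by
  classical
  induction s using Finset.induction_on with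
  | empty => simpa using rs_zero
  | insert i s hi ih => simpa only [Finset.sum_insert hi] using (h i).add ih
theorem Rs.unit (h : Rs a f) (h0 : ∀ᶠ p in G, f p ≠ 0) : IsUnit a :=
  isUnit_of_ne ((h0.and h).mono fun _ e => e.2 ▸ e.1)
theorem Rs.of_mul (h : Rs a f) (e : a * b = 1) : Rs b fun p => (f p)⁻¹ := by
  have := (h.mul (rs_rep b)).eq (e ▸ rs_one)
  exact this.mono fun p hp => eq_inv_of_mul_eq_one_right hp
theorem Rs.inv (h : Rs a f) (h0 : ∀ᶠ p in G, f p ≠ 0) : Rs (Ring.inverse a) fun p => (f p)⁻¹ :=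
  h.of_mul (Ring.mul_inverse_cancel a (h.unit h0))

open Classical in
/-- The germ of a function, zero if it is not smooth. -/
noncomputable def gm (G : Filter (J × E)) [Loc G] (f : J × E → ℂ) : Sm G :=
  if h : SmF G f then mk f h else 0

theorem rs_gm (hf : SmF G f) : Rs (gm G f) f := by
  rw [gm, dif_pos hf]; exact rs_mk hf

end rp

/-- The coordinates as linear maps. -/
noncomputable def zc : Fin 6 → E6 →L[ℝ] ℂ :=
  ![ofRealCLM.comp (.fst ℝ ℝ _), ofRealCLM.comp ((ContinuousLinearMap.fst ℝ ℝ _).comp (.snd ℝ ℝ _)),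
    ((ContinuousLinearMap.fst ℝ ℂ ℂ).comp (.snd ℝ ℝ _)).comp (.snd ℝ ℝ _),
    ((ContinuousLinearMap.snd ℝ ℂ ℂ).comp (.snd ℝ ℝ _)).comp (.snd ℝ ℝ _),
    (conjCLE : ℂ →L[ℝ] ℂ).comp
      (((ContinuousLinearMap.fst ℝ ℂ ℂ).comp (.snd ℝ ℝ _)).comp (.snd ℝ ℝ _)),
    (conjCLE : ℂ →L[ℝ] ℂ).comp
      (((ContinuousLinearMap.snd ℝ ℂ ℂ).comp (.snd ℝ ℝ _)).comp (.snd ℝ ℝ _))]

/-- The derivation number i is the sum of two directional derivatives with these coefficients. -/
noncomputable def d1 : Fin 6 → ℂ := ![1, 1, 1 / 2, 1 / 2, 1 / 2, 1 / 2]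
noncomputable def d2 : Fin 6 → ℂ := ![0, 0, -I / 2, -I / 2, I / 2, I / 2]
def v1 : Fin 6 → E6 := ![(1, 0, 0, 0), (0, 1, 0, 0), (0, 0, 1, 0), (0, 0, 0, 1), (0, 0, 1, 0),
  (0, 0, 0, 1)]
def v2 : Fin 6 → E6 := ![0, 0, (0, 0, I, 0), (0, 0, 0, I), (0, 0, I, 0), (0, 0, 0, I)]

/-- The square of the norm of the spinor, and the projection to the base. -/
def nq (x : E6) : ℝ := normSq x.2.2.1 + normSq x.2.2.2
noncomputable def pj (x : E6) : R4 :=
  (x.1, x.2.1 * (2 * (starRingEnd ℂ x.2.2.1 * x.2.2.2).re / nq x),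
    x.2.1 * (2 * (starRingEnd ℂ x.2.2.1 * x.2.2.2).im / nq x),
    x.2.1 * ((normSq x.2.2.1 - normSq x.2.2.2) / nq x))

theorem nq_pos {x : E6} (h : x.2.2 ≠ 0) : 0 < nq x := by
  by_contra k
  have a := normSq_nonneg x.2.2.1
  have b := normSq_nonneg x.2.2.2
  rw [nq, not_lt] at k
  exact h (Prod.ext (normSq_eq_zero.1 (by linarith)) (normSq_eq_zero.1 (by linarith)))

theorem cd_pj {x : E6} (h : x.2.2 ≠ 0) : ContDiffAt ℝ ∞ pj x := by
  have e : ∀ φ : ℂ →L[ℝ] ℝ, ContDiff ℝ ∞ (fun x : E6 => φ x.2.2.1) ∧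
      ContDiff ℝ ∞ fun x : E6 => φ x.2.2.2 := fun φ =>
    ⟨φ.contDiff.comp (by fun_prop), φ.contDiff.comp (by fun_prop)⟩
  have a1 : ContDiff ℝ ∞ fun x : E6 => x.2.2.1.re := (e reCLM).1
  have a2 : ContDiff ℝ ∞ fun x : E6 => x.2.2.2.re := (e reCLM).2
  have a3 : ContDiff ℝ ∞ fun x : E6 => x.2.2.1.im := (e imCLM).1
  have a4 : ContDiff ℝ ∞ fun x : E6 => x.2.2.2.im := (e imCLM).2
  have n := (nq_pos h).ne'
  unfold pj
  unfold nq at n ⊢
  simp only [normSq_apply, mul_re, mul_im, conj_re, conj_im] at n ⊢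
  fun_prop (disch := exact n)

variable {J : Type} (G : Filter (J × E6)) [Loc G]

noncomputable def zz (i : Fin 6) : Sm G :=
  fn (zc i) (Eventually.of_forall fun _ => (zc i).contDiff.contDiffAt)

/-- The chart. -/
noncomputable def hp : Hp (Sm G) where
  c := cj
  d i := algebraMap ℂ (Sm G) (d1 i) • pd (v1 i) + algebraMap ℂ (Sm G) (d2 i) • pd (v2 i)
  z := zz G
  ri := Ring.inverse (zz G 1)
  Ni := Ring.inverse (zz G 2 * zz G 4 + zz G 3 * zz G 5)

/-- The filter lives in r ≠ 0, xi ≠ 0. -/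
def Off : Prop := ∀ᶠ p in G, p.2.2.1 ≠ 0 ∧ p.2.2.2 ≠ 0

/-- Families of functions on the base which are smooth near the projection. -/
def SmB (f : J → R4 → ℝ) : Prop := ∀ᶠ p in G, ContDiffAt ℝ ∞ (f p.1) (pj p.2)

/-- The pull back of a family of functions on the base. -/
noncomputable def pb (f : J → R4 → ℝ) : Sm G := gm G fun p => (f p.1 (pj p.2) : ℂ)

/-- The geometry of the family k g of metrics. -/
noncomputable def geo (k : ℝ) (g : J → R4 → R4 → R4 → ℝ) : Geo (Sm G) :=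
  (hp G).geo (fun a b => algebraMap ℂ (Sm G) k * pb G fun j => gc (g j) a b)
    fun a b d => pb G fun j => Gc (g j) a b d

variable {G}

theorem hp_d (i : Fin 6) (f : Sm G) : (hp G).d i f =
    algebraMap ℂ (Sm G) (d1 i) * pd (v1 i) f + algebraMap ℂ (Sm G) (d2 i) * pd (v2 i) f := by
  simp [hp, Algebra.smul_def]

theorem rs_z (i : Fin 6) : Rs ((hp G).z i) fun p => zc i p.2 :=
  rs_mk (f := fun p => zc i p.2) (Eventually.of_forall fun _ => (zc i).contDiff.contDiffAt)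

theorem rs_N : Rs (hp G).N fun p => (nq p.2 : ℂ) :=
  (((rs_z 2).mul (rs_z 4)).add ((rs_z 3).mul (rs_z 5))).congr
    (Eventually.of_forall fun p => by simp [zc, nq, mul_conj])

variable (h : Off G)
include h

theorem Off.nq : ∀ᶠ p in G, (nq p.2 : ℂ) ≠ 0 :=
  h.mono fun _ e => ofReal_ne_zero.2 (nq_pos e.2).ne'

theorem Off.r : ∀ᶠ p in G, zc 1 p.2 ≠ 0 := h.mono fun _ e => ofReal_ne_zero.2 e.1

theorem hp_is : (hp G).Is where
  cc := cj_cj
  calg := cj_alg
  c0 f := by simp [hp_d, hp, d1, d2, cj_pd]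
  c1 f := by simp [hp_d, hp, d1, d2, cj_pd]
  c2 f := by
    simp only [hp_d]
    simp only [hp, map_add, map_mul, cj_alg, cj_pd]
    simp [d1, d2, v1, v2, map_ofNat]
  c3 f := by
    simp only [hp_d]
    simp only [hp, map_add, map_mul, cj_alg, cj_pd]
    simp [d1, d2, v1, v2, map_ofNat]
  z0 := (rs_z 0).cj.ext (rs_z 0) (Eventually.of_forall fun p => by simp [zc])
  z1 := (rs_z 1).cj.ext (rs_z 1) (Eventually.of_forall fun p => by simp [zc])
  z2 := (rs_z 2).cj.ext (rs_z 4) (Eventually.of_forall fun p => by simp [zc])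
  z3 := (rs_z 3).cj.ext (rs_z 5) (Eventually.of_forall fun p => by simp [zc])
  comm i j f := by
    simp only [hp_d, D_add, D_mul, D_alg, pd_comm (v1 i), pd_comm (v2 i)]
    ring
  dz i j := by
    have e : d1 i * zc j (v1 i) + d2 i * zc j (v2 i) = if i = j then 1 else 0 := by
      fin_cases i <;> fin_cases j <;> simp [d1, d2, v1, v2, zc] <;> ring_nf <;> simp <;> norm_num
    rw [hp_d]
    simp only [hp, zz, pd_clm, ← map_mul, ← map_add, e]
    split_ifs <;> simp
  hr := Ring.mul_inverse_cancel _ ((rs_z 1).unit h.r)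
  hN := Ring.mul_inverse_cancel _ (rs_N.unit h.nq)

theorem rs_Ni : Rs (hp G).Ni fun p => (nq p.2 : ℂ)⁻¹ := rs_N.of_mul (hp_is h).hN
theorem rs_ri : Rs (hp G).ri fun p => (zc 1 p.2)⁻¹ := (rs_z 1).of_mul (hp_is h).hr

theorem rs_co (a : Fin 4) : Rs ((hp G).co a) fun p => (cv a (pj p.2) : ℂ) := by
  have o := rs_one (G := G)
  have z := rs_zero (G := G)
  have n := rs_Ni h
  fin_cases a
  · exact (((rs_z 0).mul o).add ((rs_z 1).mul z)).congr
      (Eventually.of_forall fun p => by simp [zc, cv, pj])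
  · exact (((rs_z 0).mul z).add ((rs_z 1).mul ((((rs_z 4).mul (rs_z 3)).add
      ((rs_z 2).mul (rs_z 5))).mul n))).congr (Eventually.of_forall fun p => by
        simp [zc, cv, pj, div_eq_mul_inv]
        left; left; apply Complex.ext <;> simp <;> ring)
  · exact (((rs_z 0).mul z).add ((rs_z 1).mul (((rs_alg I).mul (((rs_z 4).mul (rs_z 3)).sub
      ((rs_z 2).mul (rs_z 5)))).mul n).neg)).congr (Eventually.of_forall fun p => by
        simp [zc, cv, pj, div_eq_mul_inv]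
        rw [← mul_neg, ← neg_mul]
        congr 2
        apply Complex.ext <;> simp <;> ring)
  · exact (((rs_z 0).mul z).add ((rs_z 1).mul ((((rs_z 2).mul (rs_z 4)).sub
      ((rs_z 3).mul (rs_z 5))).mul n))).congr (Eventually.of_forall fun p => by
        simp [zc, cv, pj, div_eq_mul_inv, mul_conj])

variable {f : J → R4 → ℝ}

theorem rs_pb (hf : SmB G f) : Rs (pb G f) fun p => (f p.1 (pj p.2) : ℂ) :=
  rs_gm ((hf.and h).mono fun p e =>
    ofRealCLM.contDiff.contDiffAt.comp p.2 (e.1.comp p.2 (cd_pj e.2.2)))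

omit h in
theorem SmB.db (hf : SmB G f) (a : Fin 4) : SmB G fun j => db a (f j) :=
  hf.mono fun _ e => (P354RC.at_fd e).clm_apply contDiffAt_const

theorem cj_pb (hf : SmB G f) : cj (pb G f) = pb G f :=
  (rs_pb h hf).cj.ext (rs_pb h hf) (Eventually.of_forall fun p => conj_ofReal _)

/-- The chain rule. -/
theorem pd_pb (hf : SmB G f) (v : E6) :
    pd v (pb G f) = ∑ a, pb G (fun j => db a (f j)) * pd v ((hp G).co a) := by
  refine ((rs_pb h hf).pd v).ext
    (Rs.sum _ fun a => (rs_pb h (hf.db a)).mul ((rs_co h a).pd v)) ?_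
  filter_upwards [hf, h] with p e1 e2
  have k := ((cd_pj e2.2).differentiableAt (by simp)).hasFDerivAt
  have k1 : fderiv ℝ (sl (fun p => (f p.1 (pj p.2) : ℂ)) p.1) p.2 = _ :=
    (ofRealCLM.hasFDerivAt.comp p.2 ((P354RC.at_df e1).hasFDerivAt.comp p.2 k)).fderiv
  have k2 : ∀ a, fderiv ℝ (sl (fun p : J × E6 => (cv a (pj p.2) : ℂ)) p.1) p.2 = _ := fun a =>
    (ofRealCLM.hasFDerivAt.comp p.2 ((cv a).hasFDerivAt.comp p.2 k)).fderiv
  simp only [pdF, k1, k2, db, ContinuousLinearMap.comp_apply, ofRealCLM_apply]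
  conv_lhs => rw [← sum_bs (fderiv ℝ pj p.2 v)]
  simp only [map_sum, map_smul, smul_eq_mul, ofReal_sum, ofReal_mul, mul_comm]

theorem d_pb (hf : SmB G f) (i : Fin 6) :
    (hp G).d i (pb G f) = ∑ a, pb G (fun j => db a (f j)) * (hp G).d i ((hp G).co a) := by
  simp only [hp_d, pd_pb h hf, Fin.sum_univ_four]
  ring

theorem V_pb (hf : SmB G f) (e1 e2 e3 e4 e5 e6 : Sm G) :
    (hp G).kc.V e1 e2 e3 e4 e5 e6 (pb G f) =
      ∑ a, pb G (fun j => db a (f j)) * (hp G).kc.V e1 e2 e3 e4 e5 e6 ((hp G).co a) := by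
  simp only [KC.V_ap, Hp.kc, Hp.P_ap, Hp.Q_ap, Hp.H_ap, Hp.B_ap, d_pb h hf, Fin.sum_univ_four]
  ring

theorem L_pb (hf : SmB G f) (a : Fin 4) : (hp G).L a (pb G f) = pb G fun j => db a (f j) := by
  have e := (hp_is h).L_co a
  rw [Hp.L] at e ⊢
  simp [V_pb h hf, e]

theorem H_pb (hf : SmB G f) : (hp G).H (pb G f) = 0 := by
  have e := V_pb h hf 0 0 0 0 1 0
  simpa [KC.V_ap, Hp.kc, (hp_is h).tco] using e

/-- The geometry of a family of vacuum metrics. -/
theorem geo_is (k : ℝ) {g : J → R4 → R4 → R4 → ℝ} (hg : ∀ᶠ p in G, VacAt (g p.1) (pj p.2)) :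
    (geo G k g).Is := by
  have s1 : ∀ a b, SmB G fun j => gc (g j) a b := fun a b => hg.mono fun _ v => v.sm_g a b
  have s2 : ∀ a b d, SmB G fun j => Gc (g j) a b d := fun a b d => hg.mono fun _ v => v.sm_G a b d
  have r1 := fun a b => rs_pb h (s1 a b)
  have r2 := fun a b d => rs_pb h (s2 a b d)
  refine (hp_is h).geo_is (fun a b => ?_) (fun a b d => cj_pb h (s2 a b d)) (fun a b => ?_)
    (fun a b d => H_pb h (s2 a b d)) (fun a b => ?_) (fun a b d => ?_) (fun a b d => ?_)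
    fun b d => ?_
  · show cj _ = _
    rw [map_mul, cj_alg, conj_ofReal, cj_pb h (s1 a b)]
  · rw [D_mul, D_alg, H_pb h (s1 a b), mul_zero, mul_zero, add_zero]
  · rw [(r1 a b).ext (r1 b a) (hg.mono fun _ v => congrArg ofReal (v.g_symm a b))]
  · exact (r2 a b d).ext (r2 b a d) (hg.mono fun _ v => congrArg ofReal (v.G_symm a b d))
  · rw [D_mul, D_alg, L_pb h (s1 b d), (rs_pb h ((s1 b d).db a)).ext (Rs.sum Finset.univ fun f =>
      ((r2 a b f).mul (r1 f d)).add ((r2 a d f).mul (r1 b f)))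
      (hg.mono fun _ v => by beta_reduce; exact_mod_cast v.compat a b d)]
    simp only [Fin.sum_univ_four]
    ring
  · simp only [Geo.R, Hp.geo, L_pb h (s2 _ _ _)]
    exact (Rs.sum Finset.univ fun a => ((rs_pb h ((s2 b d a).db a)).sub
      (rs_pb h ((s2 a d a).db b))).add (Rs.sum Finset.univ fun f =>
        ((r2 b d f).mul (r2 a f a)).sub ((r2 a d f).mul (r2 b f a)))).ext rs_zero
      (hg.mono fun _ v => by beta_reduce; exact_mod_cast v.ric b d)

end Vale.Agent.P354XD
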