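import Vale.Agent.P354XD.VD
import Vale.Agent.P354YA.Boot

/-!
SMV and SMD.
-/

set_option linter.all false

namespace Vale.Agent.P354XD

open Vale.Agent.P354XE (Tw gin)
open Vale.Agent.P354XG Vale.Agent.P354YA

theorem rm_nonneg {M a : ℝ} (h : |a| < M) : 0 ≤ P354I.rm M a :=
  sub_nonneg.2 (Real.sqrt_le_iff.2 ⟨((abs_nonneg a).trans_lt h).le, by nlinarith [sq_nonneg a]⟩)

theorem an_one {x : E6} (h : nq x = 1) : P354Z.An x := ⟨by rw [h]; norm_num, by rw [h]; norm_num⟩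

theorem smv : SMV := fun M a r1 Rs h h1 => by
  obtain ⟨e, he, k⟩ := ku_of M a r1 Rs ((abs_nonneg a).trans_lt h).ne' ((rm_nonneg h).trans_lt h1)
  exact ⟨e, he, fun g x a1 a2 a3 a4 a5 => k g x e (abs_of_pos he).le a4 a2 a3 (an_one a1) a5⟩

theorem smd : SMD := fun M a r1 Rs n h h1 => by
  obtain ⟨m, C, e, he, k⟩ := eta_le M a r1 Rs ((abs_nonneg a).trans_lt h).ne'
    ((rm_nonneg h).trans_lt h1) n
  refine ⟨m, |C| + 1, e, he, fun g x d a1 a2 a3 a4 a5 a6 => ?_⟩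
  have d0 : 0 ≤ d := by
    have := (norm_nonneg _).trans (a6 0 (Nat.zero_le _) (P354RC.bs 0) (P354RC.bs 0))
    rwa [norm_bs, mul_one, mul_one] at this
  refine (k g x d ((abs_of_nonneg d0).trans_le a5) a4 a2 a3 (an_one a1) a6).trans ?_
  rw [mul_pow]
  exact mul_le_mul_of_nonneg_right (by nlinarith [le_abs_self C, abs_nonneg C]) (sq_nonneg d)

end Vale.Agent.P354XD
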