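import Vale.Agent.P354XG.Inst

/-!
Changes of the null frame: null rotations, boosts and spins, the laws for the Weyl scalars, the
transverse frame.
-/

set_option linter.all false

namespace Vale.Agent.P354XD

open Vale.Agent.P354XG Vale.Agent.P354XG.Geo

variable {A : Type*} [CommRing A] [Algebra ℂ A] {S : Geo A}

/-- Four vectors. -/
structure Fr (A : Type*) where
  l : Vec A
  n : Vec A
  m : Vec A
  mb : Vec A

namespace Fr

variable (S) (F : Fr A)

def Nl : Prop := Null S F.l F.n F.m F.mb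
def WN : Prop := WNull S F.l F.n F.m F.mb
noncomputable def ghp : GHP A := S.ghp F.l F.n F.m F.mb

/-- The Weyl scalars. -/
def p0 : A := -S.W F.l F.m F.l F.m
def p1 : A := -S.W F.l F.n F.l F.m
def p2 : A := S.W F.n F.mb F.l F.m
def p3 : A := -S.W F.n F.l F.n F.mb
def p4 : A := -S.W F.n F.mb F.n F.mb

theorem ghp_P : (F.ghp S).P0 = F.p0 S ∧ (F.ghp S).P1 = F.p1 S ∧ (F.ghp S).P2 = F.p2 S ∧
    (F.ghp S).P3 = F.p3 S ∧ (F.ghp S).P4 = F.p4 S := ⟨rfl, rfl, rfl, rfl, rfl⟩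

/-- The null rotation which fixes n. -/
def rn (a : A) : Fr A where
  l := F.l + S.c a • F.m + a • F.mb + (a * S.c a) • F.n
  n := F.n
  m := F.m + a • F.n
  mb := F.mb + S.c a • F.n

/-- The null rotation which fixes l. -/
def rl (b : A) : Fr A where
  l := F.l
  n := F.n + S.c b • F.mb + b • F.m + (b * S.c b) • F.l
  m := F.m + S.c b • F.l
  mb := F.mb + b • F.l

/-- The boost by al with inverse be and the spin q. -/
def bo (al be q : A) : Fr A where
  l := al • F.l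
  n := be • F.n
  m := q • F.m
  mb := S.c q • F.mb

variable {S F}

theorem cv_add (X Y : Vec A) : S.cv (X + Y) = S.cv X + S.cv Y := funext fun _ => map_add _ _ _
theorem cv_smul (s : A) (X : Vec A) : S.cv (s • X) = S.c s • S.cv X :=
  funext fun _ => map_mul _ _ _
theorem dv_add (D : Der A) (X Y : Vec A) : dv D (X + Y) = dv D X + dv D Y :=
  funext fun _ => map_add _ _ _
theorem dv_smul (D : Der A) (s : A) (X : Vec A) : dv D (s • X) = D s • X + s • dv D X := by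
  funext d
  simp only [dv, Pi.smul_apply, Pi.add_apply, smul_eq_mul, D_mul]; ring

theorem WN.nl (N : F.WN S) : F.Nl S := N.toNull
theorem WN.is (h : S.Is) (N : F.WN S) : (F.ghp S).Is := WNull.is h N

namespace Nl
variable (h : S.Is) (N : F.Nl S)
include h N

theorem tab : Tab S F.l F.n F.m F.mb (F.p0 S) (F.p1 S) (F.p2 S) (F.p3 S) (F.p4 S) := Null.tab h N

theorem rn (a : A) : (F.rn S a).Nl S := by
  have N : Null S F.l F.n F.m F.mb := N
  constructor
  case c_n => exact N.c_n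
  case nn => exact N.nn
  case c_l =>
    simp only [Fr.rn, cv_add, cv_smul, map_mul, h.cc, N.c_l, N.c_n, N.c_m, N.c_mb h]; module
  case c_m => simp only [Fr.rn, cv_add, cv_smul, N.c_n, N.c_m]
  all_goals
    simp only [Fr.rn, dot_add_left, dot_add_right, dot_smul_left, dot_smul_right, N.ll, N.nn, N.mm, N.ln, N.lm,
      N.nm, N.mmb, N.mbmb h, N.lmb h, N.nmb h, N.nl h, N.ml h, N.mn h, N.mbl h, N.mbn h, N.mbm h]
    ring

theorem rl (b : A) : (F.rl S b).Nl S := by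
  have N : Null S F.l F.n F.m F.mb := N
  constructor
  case c_l => exact N.c_l
  case ll => exact N.ll
  case c_n =>
    simp only [Fr.rl, cv_add, cv_smul, map_mul, h.cc, N.c_l, N.c_n, N.c_m, N.c_mb h]; module
  case c_m => simp only [Fr.rl, cv_add, cv_smul, h.cc, N.c_l, N.c_m]
  all_goals
    simp only [Fr.rl, dot_add_left, dot_add_right, dot_smul_left, dot_smul_right, N.ll, N.nn, N.mm, N.ln, N.lm,
      N.nm, N.mmb, N.mbmb h, N.lmb h, N.nmb h, N.nl h, N.ml h, N.mn h, N.mbl h, N.mbn h, N.mbm h]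
    ring

theorem bo {al be q : A} (h1 : al * be = 1) (h2 : S.c al = al) (h3 : q * S.c q = 1) :
    (F.bo S al be q).Nl S := by
  have N : Null S F.l F.n F.m F.mb := N
  have h4 : S.c be = be := by
    have := congrArg S.c h1
    rw [map_mul, map_one, h2] at this
    linear_combination be * this - S.c be * h1
  constructor
  case c_l => simp only [Fr.bo, cv_smul, h2, N.c_l]
  case c_n => simp only [Fr.bo, cv_smul, h4, N.c_n]
  case c_m => simp only [Fr.bo, cv_smul, N.c_m]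
  all_goals simp only [Fr.bo, dot_add_left, dot_add_right, dot_smul_left, dot_smul_right, N.ll, N.nn, N.mm, N.ln, N.lm,
      N.nm, N.mmb, N.mbmb h, N.lmb h, N.nmb h, N.nl h, N.ml h, N.mn h, N.mbl h, N.mbn h, N.mbm h, mul_zero]
  · linear_combination -h1
  · linear_combination h3

theorem p_rn (a : A) :
    (F.rn S a).p0 S = F.p0 S + 4 * a * F.p1 S + 6 * a ^ 2 * F.p2 S + 4 * a ^ 3 * F.p3 S +
      a ^ 4 * F.p4 S ∧
    (F.rn S a).p1 S = F.p1 S + 3 * a * F.p2 S + 3 * a ^ 2 * F.p3 S + a ^ 3 * F.p4 S ∧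
    (F.rn S a).p2 S = F.p2 S + 2 * a * F.p3 S + a ^ 2 * F.p4 S ∧
    (F.rn S a).p3 S = F.p3 S + a * F.p4 S ∧ (F.rn S a).p4 S = F.p4 S := by
  have T := N.tab h
  generalize F.p0 S = x0, F.p1 S = x1, F.p2 S = x2, F.p3 S = x3, F.p4 S = x4 at T ⊢
  refine ⟨?_, ?_, ?_, ?_, ?_⟩ <;>
    simp only [p0, p1, p2, p3, p4, Fr.rn, W_add1, W_add2, W_add3, W_add4, W_smul1, W_smul2, W_smul3, W_smul4, h.W_diag12,
      h.W_diag34, T.s1, T.s2, T.s3, T.s4, T.s5, T.s6, T.t1, T.t2, T.t3, T.t4, T.t5, T.t6, T.a1,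
      T.a2, T.a3, T.a4, T.a5, T.a6, T.b1, T.b2, T.b3, T.b4, T.b5, T.b6, T.c1, T.c2, T.c3, T.c4,
      T.c5, T.c6, T.d1, T.d2, T.d3, T.d4, T.d5, T.d6, T.e1, T.e2, T.e3, T.e4, T.e5, T.e6, T.f1,
      T.f2, T.f3, T.f4, T.f5, T.f6] <;> ring

theorem p_rl (b : A) :
    (F.rl S b).p0 S = F.p0 S ∧ (F.rl S b).p1 S = F.p1 S + b * F.p0 S ∧
    (F.rl S b).p2 S = F.p2 S + 2 * b * F.p1 S + b ^ 2 * F.p0 S ∧
    (F.rl S b).p3 S = F.p3 S + 3 * b * F.p2 S + 3 * b ^ 2 * F.p1 S + b ^ 3 * F.p0 S ∧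
    (F.rl S b).p4 S = F.p4 S + 4 * b * F.p3 S + 6 * b ^ 2 * F.p2 S + 4 * b ^ 3 * F.p1 S +
      b ^ 4 * F.p0 S := by
  have T := N.tab h
  generalize F.p0 S = x0, F.p1 S = x1, F.p2 S = x2, F.p3 S = x3, F.p4 S = x4 at T ⊢
  refine ⟨?_, ?_, ?_, ?_, ?_⟩ <;>
    simp only [p0, p1, p2, p3, p4, Fr.rl, W_add1, W_add2, W_add3, W_add4, W_smul1, W_smul2, W_smul3, W_smul4, h.W_diag12,
      h.W_diag34, T.s1, T.s2, T.s3, T.s4, T.s5, T.s6, T.t1, T.t2, T.t3, T.t4, T.t5, T.t6, T.a1,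
      T.a2, T.a3, T.a4, T.a5, T.a6, T.b1, T.b2, T.b3, T.b4, T.b5, T.b6, T.c1, T.c2, T.c3, T.c4,
      T.c5, T.c6, T.d1, T.d2, T.d3, T.d4, T.d5, T.d6, T.e1, T.e2, T.e3, T.e4, T.e5, T.e6, T.f1,
      T.f2, T.f3, T.f4, T.f5, T.f6] <;> ring

end Nl

theorem p_bo {al be q : A} (h1 : al * be = 1) (h3 : q * S.c q = 1) :
    (F.bo S al be q).p0 S = (al * q) ^ 2 * F.p0 S ∧ (F.bo S al be q).p1 S = al * q * F.p1 S ∧
    (F.bo S al be q).p2 S = F.p2 S ∧ (F.bo S al be q).p3 S = be * S.c q * F.p3 S ∧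
    (F.bo S al be q).p4 S = (be * S.c q) ^ 2 * F.p4 S := by
  simp only [p0, p1, p2, p3, p4, Fr.bo, W_smul1, W_smul2, W_smul3, W_smul4]
  refine ⟨by ring, ?_, ?_, ?_, by ring⟩
  · linear_combination -(al * q * S.W F.l F.n F.l F.m) * h1
  · linear_combination S.W F.n F.mb F.l F.m * (q * S.c q * h1 + h3)
  · linear_combination -(be * S.c q * S.W F.n F.l F.n F.mb) * h1

namespace WN
variable (h : S.Is) (N : F.WN S)
include h N

theorem rn {a : A} (h1 : S.H a = 2 * a) (h2 : S.Hb a = 0) : (F.rn S a).WN S := by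
  have e1 : S.H (S.c a) = 0 := by rw [← h.c_Hb, h2, map_zero]
  have e2 := N.H_mb h
  have e3 := N.Hb_n h
  refine ⟨N.nl.rn h a, ?_, N.H_n, ?_, ?_⟩ <;>
    simp only [Fr.rn, dv_add, dv_smul, D_mul, h1, h2, e1, e2, e3, N.H_l, N.H_n, N.H_m, N.Hb_m] <;>
    module

theorem rl {b : A} (h1 : S.H b = -(2 * b)) (h2 : S.Hb b = 0) : (F.rl S b).WN S := by
  have e1 : S.H (S.c b) = 0 := by rw [← h.c_Hb, h2, map_zero]
  have e4 : S.Hb (S.c b) = -(2 * S.c b) := by rw [← h.c_H, h1, map_neg, map_mul, map_ofNat]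
  have e2 := N.H_mb h
  have e3 := N.Hb_l h
  refine ⟨N.nl.rl h b, N.H_l, ?_, ?_, ?_⟩ <;>
    simp only [Fr.rl, dv_add, dv_smul, D_mul, h1, e1, e2, e3, e4, N.H_l, N.H_n, N.H_m, N.Hb_m] <;>
    module

theorem bo {al be q : A} (h1 : al * be = 1) (h2 : S.c al = al) (h3 : q * S.c q = 1)
    (h4 : S.H al = 0) (h5 : S.H q = 0) (h6 : S.Hb q = 0) : (F.bo S al be q).WN S := by
  have e : S.H be = 0 := by
    have := congrArg S.H h1
    rw [D_mul, D_one, h4] at this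
    linear_combination be * this - S.H be * h1
  refine ⟨N.nl.bo h h1 h2 h3, ?_, ?_, ?_, ?_⟩ <;>
    simp only [Fr.bo, dv_smul, h4, h5, h6, e, N.H_l, N.H_n, N.H_m, N.Hb_m] <;> module

/-- The weights of the Weyl scalars. -/
theorem wts : S.H (F.p0 S) = 4 * F.p0 S ∧ S.H (F.p1 S) = 2 * F.p1 S ∧ S.H (F.p2 S) = 0 ∧
    S.H (F.p3 S) = -(2 * F.p3 S) ∧ S.H (F.p4 S) = -(4 * F.p4 S) ∧ S.Hb (F.p0 S) = 0 ∧
    S.Hb (F.p1 S) = 0 ∧ S.Hb (F.p2 S) = 0 ∧ S.Hb (F.p3 S) = 0 ∧ S.Hb (F.p4 S) = 0 :=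
  have g := N.is h
  ⟨g.H_P0, g.H_P1, g.H_P2, g.H_P3, g.H_P4, g.Hb_P0, g.Hb_P1, g.Hb_P2, g.Hb_P3, g.Hb_P4⟩

end WN

/-- Two null frames differ by two null rotations, a boost and a spin. -/
theorem decomp (h : S.Is) {F' : Fr A} (N : F.Nl S) (N' : F'.Nl S) {be a qi : A}
    (h1 : -S.dot F'.l F.n * be = 1) (ha : a = be * S.dot F'.l F.m)
    (h2 : S.dot F'.m (F.rn S a).mb * qi = 1) :
    S.dot F'.m (F.rn S a).mb * S.c (S.dot F'.m (F.rn S a).mb) = 1 ∧
    F' = ((F.rn S a).rl S (S.c (-(qi * S.dot F'.m F.n)))).bo S (-S.dot F'.l F.n) be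
      (S.dot F'.m (F.rn S a).mb) := by
  have M : Null S F.l F.n F.m F.mb := N
  have M' : Null S F'.l F'.n F'.m F'.mb := N'
  have N1 : Null S (F.rn S a).l F.n (F.rn S a).m (F.rn S a).mb := N.rn h a
  have c1 : S.c (S.dot F'.l F.n) = S.dot F'.l F.n := by rw [h.c_dot, M'.c_l, M.c_n]
  have c2 : S.c be = be := by
    have := congrArg S.c h1
    rw [map_mul, map_one, map_neg, c1] at this
    linear_combination be * this - S.c be * h1
  have c3 : S.c a = be * S.dot F'.l F.mb := by rw [ha, map_mul, c2, h.c_dot, M'.c_l, M.c_m]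
  have e1 : F'.l = (-S.dot F'.l F.n) • (F.rn S a).l := by
    have s := M.span h F'.l
    have z := M'.ll
    nth_rewrite 2 [s] at z
    simp only [dot_add_right, dot_smul_right] at z
    have z' : S.dot F'.l F.n * S.dot F'.l F.l = S.dot F'.l F.mb * S.dot F'.l F.m := by
      rw [← sub_eq_zero]; apply h.half; linear_combination -z
    nth_rewrite 1 [s]
    simp only [Fr.rn, c3]
    rw [ha]
    match_scalars
    · ring
    · linear_combination (S.dot F'.l F.l - S.dot F'.l F.mb * S.dot F'.l F.m * be) * h1 + be * z'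
    · linear_combination -S.dot F'.l F.mb * h1
    · linear_combination -S.dot F'.l F.m * h1
  generalize hal : -S.dot F'.l F.n = al at *
  generalize hF : F.rn S a = E at *
  have en : E.n = F.n := by rw [← hF]; rfl
  have z1 : S.dot F'.m E.l = 0 := by
    have := M'.ml h
    rw [e1, dot_smul_right] at this
    linear_combination be * this - S.dot F'.m E.l * h1
  have s := N1.span h F'.m
  have z2 : S.dot F'.m E.m = 0 := by
    have z := M'.mm
    nth_rewrite 2 [s] at z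
    simp only [dot_add_right, dot_smul_right, z1] at z
    apply h.half
    linear_combination qi * z - 2 * S.dot F'.m E.m * h2
  generalize hq : S.dot F'.m E.mb = q at *
  generalize hp : S.dot F'.m F.n = p at *
  have e2 : F'.m = q • (E.m + (-(qi * p)) • E.l) := by
    rw [s, z1, z2]
    match_scalars
    · linear_combination p * h2
    · ring
    · ring
    · ring
  have e3 : F'.mb = S.c q • (E.mb + S.c (-(qi * p)) • E.l) := by
    rw [← M'.c_m, e2, cv_smul, cv_add, cv_smul, N1.c_m, N1.c_l]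
  have q1 : q * S.c q = 1 := by
    have := M'.mmb
    rw [e2, e3] at this
    simp only [dot_add_left, dot_add_right, dot_smul_left, dot_smul_right, N1.ll, N1.mmb, N1.ml h,
      N1.lmb h] at this
    linear_combination this
  refine ⟨q1, ?_⟩
  have N2 : Null S _ _ _ _ := ((show E.Nl S by rw [Nl, en]; exact N1).rl h (S.c (-(qi * p)))).bo h h1
    (by rw [← hal, map_neg, c1]) q1
  have f1 : F'.l = ((E.rl S (S.c (-(qi * p)))).bo S al be q).l := e1
  have f2 : F'.m = ((E.rl S (S.c (-(qi * p)))).bo S al be q).m := by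
    rw [e2]; simp only [Fr.bo, Fr.rl, h.cc]
  have f3 : F'.mb = ((E.rl S (S.c (-(qi * p)))).bo S al be q).mb := e3
  generalize (E.rl S (S.c (-(qi * p)))).bo S al be q = Y at *
  have f4 : F'.n = Y.n := by
    have t := N2.span h F'.n
    rw [← f1, ← f2, ← f3, M'.nl h, M'.nm, M'.nmb h] at t
    have z := M'.nn
    nth_rewrite 2 [t] at z
    simp only [dot_add_right, dot_smul_right, M'.nl h, M'.nm, M'.nmb h] at z
    have z' : S.dot F'.n Y.n = 0 := by apply h.half; linear_combination z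
    rw [t, z']; module
  cases F'; cases Y
  simp only [Fr.mk.injEq]
  exact ⟨f1, f4, f2, f3⟩

section tr
variable (x0 x1 x2 x3 x4 nu Di y wi : A)

/-- The cubic equation for the eigenvalue: nu is close to 3 p2. -/
def cub : A := (3 * x2 - nu) * (nu ^ 2 - x0 * x4) + 2 * (x1 ^ 2 * x4 + x3 ^ 2 * x0) -
  4 * nu * x1 * x3

/-- The parameters of the two rotations; Di is the inverse of nu ^ 2 - p0 p4, y the normalisation
and wi the inverse of 1 + y. -/
def tb : A := y * (x1 * x4 - nu * x3) * Di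
def ta : A := 2 * y * (x0 * x3 - nu * x1) * Di * wi

/-- The equations for nu, Di, y, wi. -/
structure Tr : Prop where
  cub : cub x0 x1 x2 x3 x4 nu = 0
  hD : (nu ^ 2 - x0 * x4) * Di = 1
  hy : y ^ 2 * (1 - 4 * (x1 * x4 - nu * x3) * (x0 * x3 - nu * x1) * Di ^ 2) = 1
  hw : (1 + y) * wi = 1

variable {x0 x1 x2 x3 x4 nu Di y wi}

theorem Tr.alg (t : Tr x0 x1 x2 x3 x4 nu Di y wi) {a b : A} (ha : a = ta x0 x1 x3 nu Di y wi)
    (hb : b = tb x1 x3 x4 nu Di y) :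
    x1 + 3 * a * x2 + 3 * a ^ 2 * x3 + a ^ 3 * x4 +
      b * (x0 + 4 * a * x1 + 6 * a ^ 2 * x2 + 4 * a ^ 3 * x3 + a ^ 4 * x4) = 0 ∧
    x3 + a * x4 + 3 * b * (x2 + 2 * a * x3 + a ^ 2 * x4) +
      3 * b ^ 2 * (x1 + 3 * a * x2 + 3 * a ^ 2 * x3 + a ^ 3 * x4) +
      b ^ 3 * (x0 + 4 * a * x1 + 6 * a ^ 2 * x2 + 4 * a ^ 3 * x3 + a ^ 4 * x4) = 0 ∧
    2 * (x2 + 2 * a * x3 + a ^ 2 * x4 + 2 * b * (x1 + 3 * a * x2 + 3 * a ^ 2 * x3 + a ^ 3 * x4) +
      b ^ 2 * (x0 + 4 * a * x1 + 6 * a ^ 2 * x2 + 4 * a ^ 3 * x3 + a ^ 4 * x4)) = nu - x2 := by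
  obtain ⟨h1, h2, h3, h4⟩ := t
  simp only [Fr.cub] at h1
  have e1 : 1 + 2 * a * b = y := by
    rw [ha, hb, ta, tb]
    linear_combination (-wi) * h3 + (y - 1) * h4
  have e2 : a * (1 + a * b) = y * (x0 * x3 - nu * x1) * Di := by
    have : a * (1 + y) = 2 * (y * (x0 * x3 - nu * x1) * Di) := by
      rw [ha, ta]; linear_combination 2 * y * (x0 * x3 - nu * x1) * Di * h4
    have t := two_hf (A := A)
    linear_combination hf A * this + hf A * a * e1 -
      (a * (1 + a * b) - y * (x0 * x3 - nu * x1) * Di) * t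
  have r1 : x0 * b + x1 * (1 + 2 * a * b) + nu * (a * (1 + a * b)) = 0 := by
    rw [e1, e2, hb, tb]; linear_combination (-y * x1) * h2
  have r3 : nu * b + x3 * (1 + 2 * a * b) + x4 * (a * (1 + a * b)) = 0 := by
    rw [e1, e2, hb, tb]; linear_combination (-y * x3) * h2
  have r2 : 2 * x1 * b + (3 * x2 - nu) * (1 + 2 * a * b) + 2 * x3 * (a * (1 + a * b)) = 0 := by
    rw [e1, e2, hb, tb]; linear_combination y * Di * h1 - y * (3 * x2 - nu) * h2
  refine ⟨?_, ?_, ?_⟩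
  · linear_combination r1 + a * r2 + a ^ 2 * r3
  · linear_combination b ^ 2 * r1 + b * (1 + a * b) * r2 + (1 + a * b) ^ 2 * r3
  · linear_combination 2 * b * r1 + (1 + 2 * a * b) * r2 + 2 * a * (1 + a * b) * r3

/-- The weights of the parameters for a derivation D for which p k has the weight (2 - k) w. -/
theorem Tr.wt (t : Tr x0 x1 x2 x3 x4 nu Di y wi) (D : Der A) {w : A}
    (hu : IsUnit (2 * nu * (3 * x2 - nu) - (nu ^ 2 - x0 * x4) - 4 * x1 * x3))
    (d0 : D x0 = 2 * w * x0) (d1 : D x1 = w * x1) (d2 : D x2 = 0) (d3 : D x3 = -(w * x3))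
    (d4 : D x4 = -(2 * w * x4)) : D nu = 0 ∧ D y = 0 ∧
      D (ta x0 x1 x3 nu Di y wi) = w * ta x0 x1 x3 nu Di y wi ∧
      D (tb x1 x3 x4 nu Di y) = -(w * tb x1 x3 x4 nu Di y) := by
  have e1 : D nu = 0 := by
    have := congrArg D t.cub
    simp only [Fr.cub, D_add, D_sub, D_mul, D_sq, D_num, D_zero, d0, d1, d2, d3, d4] at this
    apply hu.mul_right_eq_zero.1
    linear_combination this
  have e2 : D Di = 0 := by
    have := congrArg D t.hD
    simp only [D_sub, D_mul, D_sq, D_one, d0, d4, e1] at this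
    linear_combination Di * this - D Di * t.hD
  have e3 : D y = 0 := by
    have := congrArg D t.hy
    simp only [D_sub, D_mul, D_sq, D_one, D_num, d0, d1, d3, d4, e1, e2] at this
    linear_combination hf A * y * this - D y * t.hy -
      (y ^ 2 * (1 - 4 * (x1 * x4 - nu * x3) * (x0 * x3 - nu * x1) * Di ^ 2) * D y) *
        two_hf (A := A)
  have e4 : D wi = 0 := by
    have := congrArg D t.hw
    simp only [D_add, D_mul, D_one, e3] at this
    linear_combination wi * this - D wi * t.hw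
  refine ⟨e1, e3, ?_, ?_⟩ <;>
    simp only [ta, tb, D_sub, D_mul, D_num, d0, d1, d3, d4, e1, e2, e3, e4] <;> ring

variable (S F nu Di y wi) in
/-- The transverse frame. -/
def tr : Fr A := (F.rn S (ta (F.p0 S) (F.p1 S) (F.p3 S) nu Di y wi)).rl S
  (tb (F.p1 S) (F.p3 S) (F.p4 S) nu Di y)

theorem Nl.tr (h : S.Is) (N : F.Nl S)
    (t : Tr (F.p0 S) (F.p1 S) (F.p2 S) (F.p3 S) (F.p4 S) nu Di y wi) :
    (F.tr S nu Di y wi).Nl S ∧ (F.tr S nu Di y wi).p1 S = 0 ∧ (F.tr S nu Di y wi).p3 S = 0 ∧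
      2 * (F.tr S nu Di y wi).p2 S = nu - F.p2 S := by
  refine ⟨(N.rn h _).rl h _, ?_⟩
  simp only [Fr.tr, (N.rn h _).p_rl h, N.p_rn h]
  exact t.alg rfl rfl

theorem WN.tr (h : S.Is) (N : F.WN S)
    (t : Tr (F.p0 S) (F.p1 S) (F.p2 S) (F.p3 S) (F.p4 S) nu Di y wi)
    (hu : IsUnit (2 * nu * (3 * F.p2 S - nu) - (nu ^ 2 - F.p0 S * F.p4 S) -
      4 * F.p1 S * F.p3 S)) : (F.tr S nu Di y wi).WN S := by
  obtain ⟨a0, a1, a2, a3, a4, b0, b1, b2, b3, b4⟩ := N.wts h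
  have e := t.wt S.H (w := 2) hu (by rw [a0]; ring) a1 a2 a3 (by rw [a4]; ring)
  have e' := t.wt S.Hb (w := 0) hu (by rw [b0]; ring) (by rw [b1]; ring) b2 (by rw [b3]; ring)
    (by rw [b4]; ring)
  exact (N.rn h e.2.2.1 (by rw [e'.2.2.1, zero_mul])).rl h e.2.2.2
    (by rw [e'.2.2.2, zero_mul, neg_zero])

end tr

end Fr
end Vale.Agent.P354XD
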