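import Vale.Agent.P354XD.Hen
import Vale.Agent.P354XD.Fun
import Vale.Agent.P354XG.Dom

/-!
Simple roots can be lifted in the ring of bounded families.
-/

set_option linter.all false

open scoped ContDiff
open Set Filter Topology

namespace Vale.Agent.P354XD

open Vale.Agent.P354XG

/-- The universal root. -/
theorem ex_psi : ∃ ψ : ℂ × ℂ → ℂ, ∃ δ > 0, ∀ w : ℂ × ℂ, ‖w.1‖ < δ → ‖w.2‖ < δ →
    ContDiffAt ℝ ∞ ψ w ∧ 1 + ψ w + w.1 * ψ w ^ 2 + w.2 * ψ w ^ 3 = 0 ∧ ‖ψ w‖ ≤ 2 := by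
  let f : (ℂ × ℂ) × ℂ → ℂ := fun u => 1 + u.2 + u.1.1 * u.2 ^ 2 + u.1.2 * u.2 ^ 3
  have hf : ContDiffAt ℂ ω f (0, -1) := by fun_prop
  have hi : (fderiv ℂ f (0, -1) ∘L .inr ℂ (ℂ × ℂ) ℂ).IsInvertible := by
    have d1 := (hf.differentiableAt (by simp)).hasFDerivAt.comp (-1 : ℂ)
      (hasFDerivAt_prodMk_right (𝕜 := ℂ) (0 : ℂ × ℂ) (-1 : ℂ))
    have d2 : HasFDerivAt (f ∘ fun z => ((0 : ℂ × ℂ), z)) (ContinuousLinearMap.id ℂ ℂ) (-1) := by
      have : (f ∘ fun z => ((0 : ℂ × ℂ), z)) = fun z => 1 + z := by funext z; simp [f]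
      rw [this]
      exact (hasFDerivAt_id _).const_add 1
    rw [d1.unique d2]
    exact ⟨ContinuousLinearEquiv.refl ℂ ℂ, rfl⟩
  have c := hf.contDiffAt_implicitFunction (by simp) hi
  have e1 := c.eventually (by simp)
  have e2 := hf.eventually_apply_implicitFunction (by simp) hi
  have e0 := hf.implicitFunction_apply_self (by simp) hi
  generalize hf.implicitFunction (by simp) hi = ψ at c e1 e2 e0
  have e3 : ∀ᶠ w in 𝓝 (0 : ℂ × ℂ), ‖ψ w‖ < 2 :=
    c.continuousAt.norm.eventually_lt_const (by simp only [e0]; norm_num)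
  obtain ⟨δ, hδ, h⟩ := Metric.eventually_nhds_iff.1 ((e1.and e2).and e3)
  refine ⟨ψ, δ, hδ, fun w h1 h2 => ?_⟩
  obtain ⟨⟨a1, a2⟩, a3⟩ := @h w (by rw [dist_zero_right, Prod.norm_def]; exact max_lt h1 h2)
  exact ⟨(a1.restrict_scalars ℝ).of_le le_top, by simpa [f] using a2, a3.le⟩

variable {J E : Type} [NormedAddCommGroup E] [NormedSpace ℝ E] {F : Filter J} {K : J → Set E}
  {μ : ℕ → J → ℝ} {a b : Sm (nb F K)}

/-- The values tend to zero along F, uniformly on the sets K j. -/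
def Sml (a : Sm (nb F K)) : Prop := ∀ ε > 0, ∀ᶠ j in F, ∀ x ∈ K j, ‖rep a (j, x)‖ ≤ ε

theorem Rs.on {f : J × E → ℂ} (h : Rs a f) : ∀ᶠ j in F, ∀ x ∈ K j, rep a (j, x) = f (j, x) :=
  ev_nb_on h

theorem sml_zero : Sml (0 : Sm (nb F K)) := fun ε hε =>
  rs_zero.on.mono fun j h x hx => by rw [h x hx, norm_zero]; exact hε.le

theorem Sml.add (ha : Sml a) (hb : Sml b) : Sml (a + b) := fun ε hε => by
  filter_upwards [ha (ε / 2) (half_pos hε), hb (ε / 2) (half_pos hε),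
    ((rs_rep a).add (rs_rep b)).on] with j h1 h2 h3 x hx
  rw [h3 x hx]
  linarith [norm_add_le (rep a (j, x)) (rep b (j, x)), h1 x hx, h2 x hx]

theorem Sml.neg (ha : Sml a) : Sml (-a) := fun ε hε => by
  filter_upwards [ha ε hε, (rs_rep a).neg.on] with j h1 h3 x hx
  rw [h3 x hx, norm_neg]; exact h1 x hx

theorem Sml.cj (ha : Sml a) : Sml (cj a) := fun ε hε => by
  filter_upwards [ha ε hε, (rs_rep a).cj.on] with j h1 h3 x hx
  rw [h3 x hx, Complex.norm_conj]; exact h1 x hx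

theorem Sml.bmul (hb : Dom0 (w1 J) b) (ha : Sml a) : Sml (b * a) := fun ε hε => by
  obtain ⟨k, C, hC, h⟩ := hb
  filter_upwards [h, ha (ε / (C + 1)) (by positivity), ((rs_rep b).mul (rs_rep a)).on] with
    j h1 h2 h3 x hx
  rw [h3 x hx, norm_mul]
  have e1 : ‖rep b (j, x)‖ ≤ C + 1 := by have := h1 x hx; rw [w1] at this; linarith
  calc _ ≤ (C + 1) * (ε / (C + 1)) := mul_le_mul e1 (h2 x hx) (norm_nonneg _) (by positivity)
    _ = ε := by field_simp

theorem Sml.ev (ha : Sml a) {δ : ℝ} (hδ : 0 < δ) : ∀ᶠ p in nb F K, ‖rep a p‖ < δ :=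
  ev_of_on (P := fun z => ‖z‖ < δ) (isOpen_lt continuous_norm continuous_const)
    ((ha (δ / 2) (half_pos hδ)).mono fun j h x hx => (h x hx).trans_lt (half_lt_self hδ))

theorem Sml.low (ha : Sml a) : Low (1 + a) := by
  refine ⟨1 / 2, by norm_num, ?_⟩
  filter_upwards [ha (1 / 2) (by norm_num), (rs_one.add (rs_rep a)).on] with j h1 h2 x hx
  rw [h2 x hx]
  have := norm_sub_norm_le (1 : ℂ) (-rep a (j, x))
  rw [sub_neg_eq_add, norm_neg, norm_one] at this
  linarith [h1 x hx]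

theorem low_inv0 (h : Low a) : ∃ b, Dom0 (w1 J) b ∧ a * b = 1 := by
  obtain ⟨c, hc, h⟩ := h
  obtain ⟨b, hb⟩ := (isUnit_of_ne (a := a) (ev_of_on (P := fun z => z ≠ 0) isOpen_ne
    (h.mono fun j h x hx e => by
      have := h x hx
      rw [e, norm_zero] at this
      exact absurd this (not_le.2 hc)))).exists_right_inv
  refine ⟨b, ⟨0, c⁻¹, by positivity, ?_⟩, hb⟩
  filter_upwards [h, ((rs_rep a).of_mul hb).on] with j h1 h2 x hx
  rw [h2 x hx, w1, mul_one, norm_inv]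
  exact inv_anti₀ hc (h1 x hx)

theorem dom0_sml (h0 : ∀ k, Tendsto (μ k) F (𝓝 0)) (ha : Dom0 μ a) : Sml a := fun ε hε => by
  obtain ⟨k, C, hC, h⟩ := ha
  have := ((h0 k).const_mul C).eventually (ge_mem_nhds (show C * 0 < ε by rwa [mul_zero]))
  filter_upwards [h, this] with j h1 h2 x hx using (h1 x hx).trans h2

theorem dom_bd (h0 : ∀ k, Tendsto (μ k) F (𝓝 0)) (ha : Dom μ a) : Bd a :=
  ha.mono fun k => ⟨0, 1, zero_le_one, ((h0 k).eventually (ge_mem_nhds one_pos)).mono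
    fun j h => by rwa [w1, mul_one]⟩

theorem ex_root (ha : Bd a) (hb : Bd b) (sa : Sml a) (sb : Sml b) :
    ∃ z, Bd z ∧ 1 + z + a * z ^ 2 + b * z ^ 3 = 0 := by
  obtain ⟨ψ, δ, hδ, h⟩ := ex_psi
  have ev := ((sa.ev hδ).and (sb.ev hδ)).mono fun p hp => h (rep a p, rep b p) hp.1 hp.2
  have sm : SmF (nb F K) fun p => ψ (rep a p, rep b p) :=
    (ev.and ((rep_sm a).and (rep_sm b))).mono fun p hp =>
      ContDiffAt.comp (g := ψ) p.2 hp.1.1 (hp.2.1.prodMk hp.2.2)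
  have r := rs_mk sm
  have z0 : Dom0 (w1 J) (mk _ sm) := dom0_mk 0 2 zero_le_two
    ((ev_nb_on ev).mono fun j h x hx => by rw [w1, mul_one]; exact (h x hx).2.2)
  generalize mk _ sm = z at r z0
  have e : 1 + z + a * z ^ 2 + b * z ^ 3 = 0 :=
    (((rs_one.add r).add ((rs_rep a).mul (r.pow 2))).add ((rs_rep b).mul (r.pow 3))).ext rs_zero
      (ev.mono fun p hp => hp.2.1)
  have b2 : Bd (2 : Sm (nb F K)) := ofNat_mem (bdSub F K) 2
  have b3 : Bd (3 : Sm (nb F K)) := ofNat_mem (bdSub F K) 3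
  obtain ⟨W, w0, hW⟩ := low_inv0 ((sa.bmul (Dom0.bmul wgt_one b2.dom0 z0)).add
    (sb.bmul (Dom0.bmul wgt_one b3.dom0 (Dom0.bmul wgt_one z0 z0)))).low
  let R := Subring.closure (({z, W} : Set _) ∪ {a : Sm (nb F K) | Bd a})
  have mz : z ∈ R := Subring.subset_closure (Or.inl (Or.inl rfl))
  have mW : W ∈ R := Subring.subset_closure (Or.inl (Or.inr rfl))
  have mb : ∀ a, Bd a → a ∈ R := fun a h => Subring.subset_closure (Or.inr h)
  have dz : ∀ v, pd v z ∈ R := fun v => by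
    have := congrArg (pd v) e
    simp only [pow_succ, pow_zero, one_mul, D_add, D_mul, D_one, D_zero] at this
    rw [show pd v z = -(W * (pd v a * (z * z) + pd v b * (z * z * z))) by
      linear_combination W * this - pd v z * hW]
    exact neg_mem (mul_mem mW (add_mem (mul_mem (mb _ (ha.pd v)) (mul_mem mz mz))
      (mul_mem (mb _ (hb.pd v)) (mul_mem (mul_mem mz mz) mz))))
  refine ⟨z, bd_closure {z, W} ?_ ?_ z mz, e⟩
  · rintro s (rfl | rfl)
    exacts [z0, w0]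
  · rintro s (rfl | rfl) v
    · exact dz v
    · have := congrArg (pd v) hW
      simp only [D_add, D_mul, D_one, D_num] at this
      rw [show pd v s = -(s * s * (2 * (z * pd v a + a * pd v z) +
          3 * (z * z * pd v b + 2 * (b * z * pd v z)))) by
        linear_combination s * this - pd v s * hW]
      exact neg_mem (mul_mem (mul_mem mW mW) (add_mem (mul_mem (mb _ b2) (add_mem
        (mul_mem mz (mb _ (ha.pd v))) (mul_mem (mb _ ha) (dz v)))) (mul_mem (mb _ b3) (add_mem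
        (mul_mem (mul_mem mz mz) (mb _ (hb.pd v))) (mul_mem (mb _ b2)
          (mul_mem (mul_mem (mb _ hb) mz) (dz v)))))))

theorem ex_inv (ha : Bd a) (sa : Sml a) : ∃ b, Bd b ∧ (1 + a) * b = 1 :=
  sa.low.inv (add_mem (one_mem (bdSub F K)) ha)

variable (F K) in
/-- The small elements are the bounded families whose values tend to zero. -/
noncomputable def henS : Hen (cj : Sm (nb F K) →+* _) where
  B := bdSub F K
  I := { carrier := {a | Bd a ∧ Sml a}
         add_mem' := fun ha hb => ⟨ha.1.add wgt_one hb.1, ha.2.add hb.2⟩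
         zero_mem' := ⟨dom_zero wgt_one, sml_zero⟩
         neg_mem' := fun ha => ⟨ha.1.neg wgt_one, ha.2.neg⟩ }
  le _ h := h.1
  mul _ hb _ ha := ⟨Dom.bmul wgt_one hb ha.1, ha.2.bmul (Dom.dom0 hb)⟩
  cB _ h := Dom.cj h
  cI _ h := ⟨h.1.cj, h.2.cj⟩
  inv _ h := ex_inv h.1 h.2
  root _ ha _ hb := ex_root ha.1 hb.1 ha.2 hb.2

variable (K) in
/-- The small elements are the families which are dominated by a weight which tends to zero. -/
noncomputable def henD (hμ : Wgt μ) (h0 : ∀ k, Tendsto (μ k) F (𝓝 0)) :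
    Hen (cj : Sm (nb F K) →+* _) where
  B := bdSub F K
  I := { carrier := {a | Dom μ a}
         add_mem' := fun ha hb => Dom.add hμ ha hb
         zero_mem' := dom_zero hμ
         neg_mem' := fun ha => Dom.neg hμ ha }
  le _ h := dom_bd h0 h
  mul _ hb _ ha := Dom.bmul hμ hb ha
  cB _ h := Dom.cj h
  cI _ h := Dom.cj h
  inv _ h := ex_inv (dom_bd h0 h) (dom0_sml h0 (Dom.dom0 h))
  root _ ha _ hb := ex_root (dom_bd h0 ha) (dom_bd h0 hb) (dom0_sml h0 (Dom.dom0 ha))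
    (dom0_sml h0 (Dom.dom0 hb))

theorem henS_cg : (henS F K).Cg a b ↔ Bd b ∧ Bd (a - b) ∧ Sml (a - b) := Iff.rfl
theorem henD_cg (hμ : Wgt μ) (h0 : ∀ k, Tendsto (μ k) F (𝓝 0)) :
    (henD K hμ h0).Cg a b ↔ Bd b ∧ Dom μ (a - b) := Iff.rfl

end Vale.Agent.P354XD
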