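import Vale.Agent.P354XD.Uni
import Vale.Agent.P354XD.Ex

/-!
The explicit transverse frame in the ring of germs of families and at a point.
-/

set_option linter.all false

open scoped ContDiff
open Set Filter Topology Ring

namespace Vale.Agent.P354XD

open Vale.Agent.P354XG Vale.Agent.P354XG.Geo

theorem ex_psi2 : ∃ ψ : ℂ × ℂ → ℂ, ∃ δ > 0, ∀ w : ℂ × ℂ, ‖w.1‖ < δ → ‖w.2‖ < δ →
    ContDiffAt ℝ ∞ ψ w ∧ 1 + ψ w + w.1 * ψ w ^ 2 + w.2 * ψ w ^ 3 = 0 ∧ ‖ψ w‖ ≤ 2 ∧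
      starRingEnd ℂ (ψ w) = ψ (starRingEnd ℂ w.1, starRingEnd ℂ w.2) := by
  obtain ⟨ψ, δ, hδ, h⟩ := ex_psi
  refine ⟨ψ, min δ (1 / 32), lt_min hδ (by norm_num), fun w h1 h2 => ?_⟩
  rw [lt_min_iff] at h1 h2
  obtain ⟨a1, a2, a3⟩ := h w h1.1 h2.1
  obtain ⟨-, b2, b3⟩ := h (starRingEnd ℂ w.1, starRingEnd ℂ w.2)
    (by rw [Complex.norm_conj]; exact h1.1) (by rw [Complex.norm_conj]; exact h2.1)
  refine ⟨a1, a2, a3, ?_⟩
  have c2 := congrArg (starRingEnd ℂ) a2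
  simp only [map_add, map_mul, map_pow, map_one, map_zero] at c2 b2
  rw [← Complex.norm_conj] at a3 h1 h2
  generalize ψ (starRingEnd ℂ w.1, starRingEnd ℂ w.2) = z' at *
  generalize starRingEnd ℂ (ψ w) = z, starRingEnd ℂ w.1 = a, starRingEnd ℂ w.2 = b at *
  have e : (z - z') * (1 + (a * (z + z') + b * (z * z + z * z' + z' * z'))) = 0 := by
    linear_combination c2 - b2
  refine sub_eq_zero.1 ((mul_eq_zero.1 e).resolve_right fun e => ?_)
  have n1 : ‖a * (z + z')‖ ≤ 1 / 32 * (2 + 2) := by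
    rw [norm_mul]; exact mul_le_mul h1.2.le (norm_add_le_of_le a3 b3) (norm_nonneg _) (by norm_num)
  have m : ∀ {x y : ℂ}, ‖x‖ ≤ 2 → ‖y‖ ≤ 2 → ‖x * y‖ ≤ 2 * 2 := fun hx hy => by
    rw [norm_mul]; exact mul_le_mul hx hy (norm_nonneg _) (by norm_num)
  have n2 : ‖b * (z * z + z * z' + z' * z')‖ ≤ 1 / 32 * (2 * 2 + 2 * 2 + 2 * 2) := by
    rw [norm_mul]
    exact mul_le_mul h2.2.le (norm_add_le_of_le (norm_add_le_of_le (m a3 a3) (m a3 b3)) (m b3 b3))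
      (norm_nonneg _) (by norm_num)
  have := norm_add_le_of_le n1 n2
  rw [← neg_eq_of_add_eq_zero_right e, norm_neg, norm_one] at this
  norm_num at this

/-- The universal root map and the radius of its domain. -/
noncomputable def psi : ℂ × ℂ → ℂ := ex_psi2.choose
noncomputable def del : ℝ := ex_psi2.choose_spec.choose
theorem del_pos : 0 < del := ex_psi2.choose_spec.choose_spec.1
theorem psi_spec {a b : ℂ} (h : ‖a‖ < del ∧ ‖b‖ < del) : ContDiffAt ℝ ∞ psi (a, b) ∧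
    1 + psi (a, b) + a * psi (a, b) ^ 2 + b * psi (a, b) ^ 3 = 0 ∧ ‖psi (a, b)‖ ≤ 2 ∧
      starRingEnd ℂ (psi (a, b)) = psi (starRingEnd ℂ a, starRingEnd ℂ b) :=
  ex_psi2.choose_spec.choose_spec.2 (a, b) h.1 h.2

/-- A metric at a point. -/
noncomputable def pt (g : Fin 4 → Fin 4 → ℂ) : Geo ℂ := ⟨starRingEnd ℂ, 0, 0, 0, g, 0, 0, 0⟩

/-- The root map on numbers. -/
noncomputable def opsC : Ops (starRingEnd ℂ) where
  rt a b := psi (a, b)
  ok a b := ‖a‖ < del ∧ ‖b‖ < del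
  eq h := (psi_spec h).2.1
  cj h := (psi_spec h).2.2.2

section
variable {J E : Type} [NormedAddCommGroup E] [NormedSpace ℝ E] {G : Filter (J × E)} [Loc G]
  {a b d : Sm G} {f g e : J × E → ℂ}

theorem rs_rt (h : ∀ᶠ p in G, opsC.ok (rep a p) (rep b p)) :
    Rs (gm G fun p => psi (rep a p, rep b p)) fun p => psi (rep a p, rep b p) :=
  rs_gm ((h.and ((rep_sm a).and (rep_sm b))).mono fun p hp =>
    ContDiffAt.comp (g := psi) p.2 (psi_spec hp.1).1 (hp.2.1.prodMk hp.2.2))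

/-- The root map on germs. -/
noncomputable def opsS {c : Sm G →+* Sm G} (hc : c = cj) : Ops c where
  rt a b := gm G fun p => psi (rep a p, rep b p)
  ok a b := ∀ᶠ p in G, opsC.ok (rep a p) (rep b p)
  eq {a b} h := (((rs_one.add (rs_rt h)).add ((rs_rep a).mul ((rs_rt h).pow 2))).add
    ((rs_rep b).mul ((rs_rt h).pow 3))).ext rs_zero (h.mono fun p hp => opsC.eq hp)
  cj {a b} h := by
    subst hc
    have h' : ∀ᶠ p in G, opsC.ok (rep (cj a) p) (rep (cj b) p) := by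
      filter_upwards [h, rep_cj a, rep_cj b] with p h1 h2 h3
      simpa only [opsC, h2, h3, Complex.norm_conj] using h1
    refine (rs_rt h).cj.ext (rs_rt h') ?_
    filter_upwards [h, rep_cj a, rep_cj b] with p h1 h2 h3
    rw [h2, h3]; exact opsC.cj h1

variable {c : Sm G →+* Sm G} {hc : c = P354XG.cj}

theorem Rs.ok (h : Rs a f) (h' : Rs b g) :
    (opsS hc).ok a b ↔ ∀ᶠ p in G, opsC.ok (f p) (g p) :=
  eventually_congr ((h.and h').mono fun p hp => by rw [hp.1, hp.2])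

theorem Rs.rt (h : Rs a f) (h' : Rs b g) (k : (opsS hc).ok a b) :
    Rs ((opsS hc).rt a b) fun p => opsC.rt (f p) (g p) :=
  (rs_rt k).congr ((h.and h').mono fun p hp => by simp only [hp.1, hp.2, opsC])

theorem Rs.unit_iff (h : Rs a f) : IsUnit a ↔ ∀ᶠ p in G, IsUnit (f p) :=
  ⟨fun u => let ⟨b, e⟩ := u.exists_right_inv
    ((h.mul (rs_rep b)).eq (e ▸ rs_one)).mono fun _ hp => IsUnit.of_mul_eq_one _ hp,
   fun u => h.unit (u.mono fun _ => IsUnit.ne_zero)⟩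

theorem Rs.rinv (h : Rs a f) (u : IsUnit a) : Rs (inverse a) fun p => inverse (f p) := by
  simpa only [inverse_eq_inv'] using h.of_mul (mul_inverse_cancel a u)

theorem rs_hf : Rs (hf (Sm G)) fun _ => hf ℂ := rs_alg _

theorem Rs.hok (h : Rs a f) (h2 : Rs b g) (h3 : Rs d e) :
    (opsS hc).hok a b d ↔ ∀ᶠ p in G, opsC.hok (f p) (g p) (e p) :=
  (h2.mul h).ok ((h3.mul h).mul h)

theorem Rs.hs (h : Rs a f) (h2 : Rs b g) (h3 : Rs d e) (k : (opsS hc).hok a b d) :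
    Rs ((opsS hc).hs a b d) fun p => opsC.hs (f p) (g p) (e p) :=
  ((h2.mul h).rt ((h3.mul h).mul h) k).mul h

theorem Rs.sok (h : Rs a f) : (opsS hc).sok a ↔ ∀ᶠ p in G, opsC.sok (f p) :=
  (rs_hf.mul (rs_one.sub h)).hok rs_hf rs_zero

theorem Rs.sq (h : Rs a f) (k : (opsS hc).sok a) : Rs ((opsS hc).sq a) fun p => opsC.sq (f p) :=
  rs_one.add ((rs_hf.mul (rs_one.sub h)).hs rs_hf rs_zero k)

omit [NormedAddCommGroup E] [NormedSpace ℝ E] [Loc G] in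
theorem both {P Q : Prop} {P' Q' : J × E → Prop} (e : P ↔ ∀ᶠ p in G, P' p)
    (h : Q ∨ ∀ᶠ p in G, Q' p) (f : Q → P) (f' : ∀ p, Q' p → P' p) : P ∧ ∀ᶠ p in G, P' p :=
  h.elim (fun q => ⟨f q, e.1 (f q)⟩) fun q => ⟨e.2 (q.mono f'), q.mono f'⟩

theorem rs_okT (h1 : Rs a f) (h2 : Rs b g) (h3 : Rs d e)
    (h : (opsS hc).OkT a b d ∨ ∀ᶠ p in G, opsC.OkT (f p) (g p) (e p)) :
    (opsS hc).OkT a b d ∧ (∀ᶠ p in G, opsC.OkT (f p) (g p) (e p)) ∧
      Rs ((opsS hc).tn a b d) (fun p => opsC.tn (f p) (g p) (e p)) ∧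
      Rs ((opsS hc).tD a b d) (fun p => opsC.tD (f p) (g p) (e p)) ∧
      Rs ((opsS hc).ty a b d) (fun p => opsC.ty (f p) (g p) (e p)) ∧
      Rs ((opsS hc).tw a b d) (fun p => opsC.tw (f p) (g p) (e p)) := by
  have r1 := ((rs_num 9).sub h1).add ((rs_num 4).mul h2)
  have k1 := both r1.unit_iff h (·.e) fun _ => (·.e)
  have r2 := r1.rinv k1.1
  have r3 := r2.mul (((rs_num 12).mul h2).sub ((rs_num 2).mul h3))
  have k2 := both (r3.hok (hc := hc) ((rs_num 6).mul r2) r2) h (·.n) fun _ => (·.n)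
  have rn : Rs ((opsS hc).tn a b d) _ := (rs_num 3).add (r3.hs ((rs_num 6).mul r2) r2 k2.1)
  have k3 := both ((rn.pow 2).sub h1).unit_iff h (·.D) fun _ => (·.D)
  have rD : Rs ((opsS hc).tD a b d) _ := ((rn.pow 2).sub h1).rinv k3.1
  have rq : Rs ((opsS hc).tq a b d) _ := rs_one.sub (((rs_num 4).mul (((h1.mul h2).sub
    (rn.mul h3)).add ((rn.pow 2).mul h2))).mul (rD.pow 2))
  have k4 := both (rq.sok (hc := hc)) h (·.q) fun _ => (·.q)
  have k5 := both (rq.sq k4.1).unit_iff h (·.y) fun _ => (·.y)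
  have ry : Rs ((opsS hc).ty a b d) _ := (rq.sq k4.1).rinv k5.1
  have k6 := both (rs_one.add ry).unit_iff h (·.w') fun _ => (·.w')
  have k7 := both (((((rs_num 2).mul rn).mul ((rs_num 3).sub rn)).sub ((rn.pow 2).sub h1)).sub
    ((rs_num 4).mul h2)).unit_iff h (·.d) fun _ => (·.d)
  refine ⟨⟨k1.1, k2.1, k3.1, k4.1, k5.1, k6.1, k7.1⟩, ?_, rn, rD, ry, (rs_one.add ry).rinv k6.1⟩
  filter_upwards [k1.2, k2.2, k3.2, k4.2, k5.2, k6.2, k7.2] with p a1 a2 a3 a4 a5 a6 a7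
  exact ⟨a1, a2, a3, a4, a5, a6, a7⟩

/-- Representatives of vectors and of frames. -/
def Rv (X : Vec (Sm G)) (x : J × E → Vec ℂ) : Prop := ∀ d, Rs (X d) fun p => x p d

structure Rf (F : Fr (Sm G)) (f : J × E → Fr ℂ) : Prop where
  l : Rv F.l fun p => (f p).l
  n : Rv F.n fun p => (f p).n
  m : Rv F.m fun p => (f p).m
  mb : Rv F.mb fun p => (f p).mb

variable {X Y Z U : Vec (Sm G)} {x y z u : J × E → Vec ℂ}

theorem Rv.add (h : Rv X x) (h' : Rv Y y) : Rv (X + Y) fun p => x p + y p :=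
  fun d => (h d).add (h' d)
theorem Rv.smul (h : Rs a f) (h' : Rv X x) : Rv (a • X) fun p => f p • x p :=
  fun d => h.mul (h' d)

theorem Rf.ext {F F' : Fr (Sm G)} {f f' : J × E → Fr ℂ} (h : Rf F f) (h' : Rf F' f')
    (e : f =ᶠ[G] f') : F = F' := by
  cases F; cases F'
  simp only [Fr.mk.injEq]
  exact ⟨funext fun d => (h.l d).ext (h'.l d) (e.mono fun p e => by simp only [e]),
    funext fun d => (h.n d).ext (h'.n d) (e.mono fun p e => by simp only [e]),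
    funext fun d => (h.m d).ext (h'.m d) (e.mono fun p e => by simp only [e]),
    funext fun d => (h.mb d).ext (h'.mb d) (e.mono fun p e => by simp only [e])⟩

variable {S : Geo (Sm G)} {hS : S.c = P354XG.cj} {γ : J × E → Fin 4 → Fin 4 → ℂ}
  {R : Fin 4 → Fin 4 → Fin 4 → Fin 4 → Sm G} {ρ : J × E → Fin 4 → Fin 4 → Fin 4 → Fin 4 → ℂ}
  {F : Fr (Sm G)} {φ : J × E → Fr ℂ} (hg : ∀ a b, Rs (S.g a b) fun p => γ p a b)
  (hR : ∀ a b c d, Rs (R a b c d) fun p => ρ p a b c d)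

include hS in
theorem Rs.sc (h : Rs a f) : Rs (S.c a) fun p => (pt (γ p)).c (f p) := by rw [hS]; exact h.cj

include hg

theorem rs_dot (h : Rv X x) (h' : Rv Y y) : Rs (S.dot X Y) fun p => (pt (γ p)).dot (x p) (y p) :=
  Rs.sum _ fun a => Rs.sum _ fun b => ((hg a b).mul (h a)).mul (h' b)

include hR in
theorem rs_Wr (h1 : Rv X x) (h2 : Rv Y y) (h3 : Rv Z z) (h4 : Rv U u) :
    Rs (Wr S R X Y Z U) fun p => Wr (pt (γ p)) (ρ p) (x p) (y p) (z p) (u p) :=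
  rs_dot hg (fun d => Rs.sum _ fun a => Rs.sum _ fun b => Rs.sum _ fun c =>
    (((hR a b c d).mul (h1 a)).mul (h2 b)).mul (h3 c)) h4

theorem rs_f1 (r : Rf F φ) (h : F.Ok1 (opsS hS) ∨ ∀ᶠ p in G, (φ p).Ok1 (S := pt (γ p)) opsC) :
    F.Ok1 (opsS hS) ∧ (∀ᶠ p in G, (φ p).Ok1 (S := pt (γ p)) opsC) ∧
      Rf (F.f1 (opsS hS)) fun p => (φ p).f1 (S := pt (γ p)) opsC := by
  have ll := rs_dot hg r.l r.l
  have nn := rs_dot hg r.n r.n
  have ln := rs_dot hg r.l r.n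
  have r1 := (ln.pow 2).sub (ll.mul nn)
  have k1 := both (r1.sok (hc := hS)) h (·.s) fun _ => (·.s)
  have s := r1.sq k1.1
  have k2 := both (s.sub ln).unit_iff h (·.u) fun _ => (·.u)
  have k3 := both s.unit_iff h (·.i) fun _ => (·.i)
  have u := (s.sub ln).rinv k2.1
  have cl := r.l.add (.smul (ll.mul u) r.n)
  have cn := Rv.smul ((rs_hf.mul (s.sub ln)).mul ((s.rinv k3.1).pow 2))
    (r.n.add (.smul (nn.mul u) r.l))
  refine ⟨⟨k1.1, k2.1, k3.1⟩, ?_, cl, cn,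
    (r.m.add (.smul (rs_dot hg r.m cn) cl)).add (.smul (rs_dot hg r.m cl) cn),
    (r.mb.add (.smul (rs_dot hg r.mb cn) cl)).add (.smul (rs_dot hg r.mb cl) cn)⟩
  filter_upwards [k1.2, k2.2, k3.2] with p a1 a2 a3 using ⟨a1, a2, a3⟩

theorem rs_f2 (r : Rf F φ) (h : F.Ok2 (opsS hS) ∨ ∀ᶠ p in G, (φ p).Ok2 (S := pt (γ p)) opsC) :
    F.Ok2 (opsS hS) ∧ (∀ᶠ p in G, (φ p).Ok2 (S := pt (γ p)) opsC) ∧
      Rf (F.f2 (opsS hS)) fun p => (φ p).f2 (S := pt (γ p)) opsC := by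
  have d1 := rs_dot hg r.m r.mb
  have d2 := rs_dot hg r.m r.m
  have d3 := rs_dot hg r.mb r.mb
  have r1 := (d1.pow 2).sub (d2.mul d3)
  have k1 := both (r1.sok (hc := hS)) h (·.s) fun _ => (·.s)
  have s := r1.sq k1.1
  have k2 := both (d1.add s).unit_iff h (·.u) fun _ => (·.u)
  have k3 := both s.unit_iff h (·.i) fun _ => (·.i)
  have v := (d1.add s).rinv k2.1
  have r2 := (rs_hf.mul (d1.add s)).mul ((s.rinv k3.1).pow 2)
  have k4 := both (r2.sok (hc := hS)) h (·.k) fun _ => (·.k)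
  have k := r2.sq k4.1
  refine ⟨⟨k1.1, k2.1, k3.1, k4.1⟩, ?_, r.l, r.n, .smul k (r.m.add (.smul (d2.mul v).neg r.mb)),
    .smul k (r.mb.add (.smul (d3.mul v).neg r.m))⟩
  filter_upwards [k1.2, k2.2, k3.2, k4.2] with p a1 a2 a3 a4 using ⟨a1, a2, a3, a4⟩

include hR

theorem rs_x (r : Rf F φ) : Rs (F.x0 S R) (fun p => (φ p).x0 (pt (γ p)) (ρ p)) ∧
    Rs (F.x1 S R) (fun p => (φ p).x1 (pt (γ p)) (ρ p)) ∧
    Rs (F.x2 S R) (fun p => (φ p).x2 (pt (γ p)) (ρ p)) ∧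
    Rs (F.x3 S R) (fun p => (φ p).x3 (pt (γ p)) (ρ p)) ∧
    Rs (F.x4 S R) (fun p => (φ p).x4 (pt (γ p)) (ρ p)) :=
  ⟨(rs_Wr hg hR r.l r.m r.l r.m).neg, (rs_Wr hg hR r.l r.n r.l r.m).neg,
    rs_Wr hg hR r.n r.mb r.l r.m, (rs_Wr hg hR r.n r.l r.n r.mb).neg,
    (rs_Wr hg hR r.n r.mb r.n r.mb).neg⟩

theorem rs_f3 (r : Rf F φ)
    (h : F.Ok3 (opsS hS) R ∨ ∀ᶠ p in G, (φ p).Ok3 (S := pt (γ p)) opsC (ρ p)) :
    F.Ok3 (opsS hS) R ∧ (∀ᶠ p in G, (φ p).Ok3 (S := pt (γ p)) opsC (ρ p)) ∧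
      Rf (F.f3 (opsS hS) R) fun p => (φ p).f3 (S := pt (γ p)) opsC (ρ p) := by
  obtain ⟨x0, x1, x2, x3, x4⟩ := rs_x hg hR r
  have k1 := both x2.unit_iff h (·.u) fun _ => (·.u)
  have i := x2.rinv k1.1
  obtain ⟨k2, k3, n, D, y, w⟩ := rs_okT (hc := hS) ((x0.mul x4).mul (i.pow 2))
    ((x1.mul x3).mul (i.pow 2)) ((((x1.pow 2).mul x4).add ((x3.pow 2).mul x0)).mul (i.pow 3))
    (h.imp (·.t) fun h => h.mono fun _ => (·.t))
  have a : Rs (F.ra (opsS hS) R) fun p => (φ p).ra (S := pt (γ p)) opsC (ρ p) :=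
    ((((rs_num 2).mul y).mul ((x0.mul x3).sub ((x2.mul n).mul x1))).mul ((i.pow 2).mul D)).mul w
  have b : Rs (F.rb (opsS hS) R) fun p => (φ p).rb (S := pt (γ p)) opsC (ρ p) :=
    (y.mul ((x1.mul x4).sub ((x2.mul n).mul x3))).mul ((i.pow 2).mul D)
  have ca := a.sc (hS := hS) (γ := γ)
  have cb := b.sc (hS := hS) (γ := γ)
  have l := ((r.l.add (.smul ca r.m)).add (.smul a r.mb)).add (.smul (a.mul ca) r.n)
  have m := r.m.add (.smul a r.n)
  have mb := r.mb.add (.smul ca r.n)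
  exact ⟨⟨k1.1, k2⟩, (k1.2.and k3).mono fun p h => ⟨h.1, h.2⟩, l,
    ((r.n.add (.smul cb mb)).add (.smul b m)).add (.smul (b.mul cb) l), m.add (.smul cb l),
    mb.add (.smul b l)⟩

/-- The construction in the ring of germs is the construction at the points. -/
theorem full_rs (r : Rf F φ)
    (h : F.Ok (opsS hS) R ∨ ∀ᶠ p in G, (φ p).Ok (S := pt (γ p)) opsC (ρ p)) :
    F.Ok (opsS hS) R ∧ (∀ᶠ p in G, (φ p).Ok (S := pt (γ p)) opsC (ρ p)) ∧
      Rf (F.gsF (opsS hS)) (fun p => (φ p).gsF (S := pt (γ p)) opsC) ∧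
      Rf (F.full (opsS hS) R) fun p => (φ p).full (S := pt (γ p)) opsC (ρ p) := by
  obtain ⟨a1, b1, r1⟩ := rs_f1 hg r (h.imp (·.o1) fun h => h.mono fun _ => (·.o1))
  obtain ⟨a2, b2, r2⟩ := rs_f2 hg r1 (h.imp (·.o2) fun h => h.mono fun _ => (·.o2))
  obtain ⟨a3, b3, r3⟩ := rs_f3 hg hR r2 (h.imp (·.o3) fun h => h.mono fun _ => (·.o3))
  exact ⟨⟨a1, a2, a3⟩, ((b1.and b2).and b3).mono fun p h => ⟨h.1.1, h.1.2, h.2⟩, r2, r3⟩

end

variable {J E : Type} [NormedAddCommGroup E] [NormedSpace ℝ E] {F : Filter J} {K : J → Set E}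

theorem Sml.dom0 {a : Sm (nb F K)} (h : Sml a) : Dom0 (w1 J) a :=
  ⟨0, 1, zero_le_one, (h 1 one_pos).mono fun j h x hx => by rw [w1, mul_one]; exact h x hx⟩

theorem rt_val {a b : Sm (nb F K)} (ha : Sml a) (hb : Sml b) :
    (opsS rfl).ok a b ∧ Dom0 (w1 J) ((opsS rfl).rt a b) := by
  have k : (opsS rfl).ok a b := (ha.ev del_pos).and (hb.ev del_pos)
  refine ⟨k, 0, 2, zero_le_two, ?_⟩
  filter_upwards [ev_nb_on k, (rs_rt k).on] with j h1 h2 x hx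
  rw [w1, mul_one]
  exact (h2 x hx).symm ▸ (psi_spec (h1 x hx)).2.2.1

variable (F K) in
/-- Only the values: bounded values and values which tend to zero. -/
noncomputable def henV : Hen (cj : Sm (nb F K) →+* _) where
  B := { carrier := {a | Dom0 (w1 J) a}
         mul_mem' := fun ha hb => Dom0.bmul wgt_one ha hb
         add_mem' := fun ha hb => Dom0.add wgt_one ha hb
         algebraMap_mem' := fun z => (bd_alg z).dom0 }
  I := { carrier := {a | Sml a}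
         add_mem' := Sml.add
         zero_mem' := sml_zero
         neg_mem' := Sml.neg }
  le _ h := Sml.dom0 h
  mul _ hb _ ha := Sml.bmul hb ha
  cB _ h := Dom0.cj h
  cI _ h := Sml.cj h
  inv _ h := low_inv0 (Sml.low h)
  root _ ha _ hb := ⟨_, (rt_val ha hb).2, (opsS rfl).eq (rt_val ha hb).1⟩

/-- The root map fits every structure whose elements have bounded, resp. small values. -/
theorem fit_of {c : Sm (nb F K) →+* Sm (nb F K)} (hc : c = cj) (N : Hen c)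
    (hB : ∀ a ∈ N.B, Dom0 (w1 J) a) (hI : ∀ a ∈ N.I, Sml a) : (opsS hc).Fit N := by
  subst hc
  intro a ha b hb
  obtain ⟨k, v⟩ := rt_val (hI a ha) (hI b hb)
  obtain ⟨z, hz, e⟩ := N.root a ha b hb
  have e' := (opsS rfl).eq k
  refine ⟨k, ?_⟩
  generalize (opsS rfl).rt a b = y at v e'
  have cy : (henV F K).Cg y y := .refl v
  have cz : (henV F K).Cg z z := .refl (hB z hz)
  have u := ((Hen.cg_one.add ((Hen.cg_zero.2 (hI a ha)).mul (cy.add cz))).add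
    ((Hen.cg_zero.2 (hI b hb)).mul (((cy.mul cy).add (cy.mul cz)).add (cz.mul cz)))).unit
      (b' := 1) (by ring) (one_mem _)
  have : y - z = 0 := u.mul_right_eq_zero.1 (by linear_combination e' - e)
  rwa [sub_eq_zero.1 this]

theorem fit_V : (opsS rfl).Fit (henV F K) := fit_of rfl _ (fun _ h => h) fun _ h => h
theorem fit_S : (opsS rfl).Fit (henS F K) := fit_of rfl _ (fun _ h => Dom.dom0 h) fun _ h => h.2
theorem fit_D {μ : ℕ → J → ℝ} (hμ : Wgt μ) (h0 : ∀ k, Tendsto (μ k) F (𝓝 0)) :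
    (opsS rfl).Fit (henD K hμ h0) :=
  fit_of rfl _ (fun _ h => Dom.dom0 h) fun _ h => dom0_sml h0 (Dom.dom0 h)

end Vale.Agent.P354XD
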