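import Vale.Agent.P354XD.Cmp
import Vale.Agent.P354XR.Met

/-!
The transverse frame of a metric which is close to Kerr: the algebra.
-/

set_option linter.all false

namespace Vale.Agent.P354XD

open Vale.Agent.P354XG Vale.Agent.P354XG.Geo Vale.Agent.P354XR Fr

variable {A : Type*} [CommRing A] [Algebra ℂ A] {K : Hp A} {p : Pm A}

/-- The generators of the chart are bounded. -/
structure HB (K : Hp A) (B : Subalgebra ℂ A) : Prop where
  z : ∀ i, i ≠ 0 → K.z i ∈ B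
  ri : K.ri ∈ B
  Ni : K.Ni ∈ B

/-- The parameters are bounded. -/
structure PB (p : Pm A) (B : Subalgebra ℂ A) : Prop where
  a : p.a ∈ B
  M : p.M ∈ B
  sg : p.sg ∈ B
  h1 : p.h1 ∈ B
  j1 : p.j1 ∈ B

variable {B : Subalgebra ℂ A}

theorem ii_mem : ii A ∈ B := algebraMap_mem _ _
theorem hf_mem : hf A ∈ B := algebraMap_mem _ _
theorem e0_mem (a : Fin 4) : Hp.e0 A a ∈ B := by
  fin_cases a
  exacts [one_mem _, zero_mem _, zero_mem _, zero_mem _]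

namespace HB
variable (h : HB K B)
include h

theorem z1 : K.z 1 ∈ B := h.z 1 (by decide)
theorem z2 : K.z 2 ∈ B := h.z 2 (by decide)
theorem z3 : K.z 3 ∈ B := h.z 3 (by decide)
theorem z4 : K.z 4 ∈ B := h.z 4 (by decide)
theorem z5 : K.z 5 ∈ B := h.z 5 (by decide)
theorem N : K.N ∈ B := add_mem (mul_mem h.z2 h.z4) (mul_mem h.z3 h.z5)
theorem x : K.kc.x ∈ B := mul_mem (sub_mem (mul_mem h.z2 h.z4) (mul_mem h.z3 h.z5)) h.Ni
theorem s : K.kc.s ∈ B := mul_mem (mul_mem (mul_mem (ofNat_mem _ 2) h.z2) h.z3) h.Ni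
theorem sb : K.kc.sb ∈ B := mul_mem (mul_mem (mul_mem (ofNat_mem _ 2) h.z4) h.z5) h.Ni
theorem om (a : Fin 4) : K.om a ∈ B := by
  fin_cases a
  exacts [zero_mem _, mul_mem (add_mem (mul_mem h.z4 h.z3) (mul_mem h.z2 h.z5)) h.Ni,
    neg_mem (mul_mem (mul_mem ii_mem (sub_mem (mul_mem h.z4 h.z3) (mul_mem h.z2 h.z5))) h.Ni), h.x]
theorem mu (a : Fin 4) : K.mu a ∈ B := by
  fin_cases a
  exacts [zero_mem _, mul_mem (sub_mem (mul_mem h.z2 h.z2) (mul_mem h.z3 h.z3)) h.Ni,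
    mul_mem (mul_mem ii_mem (add_mem (mul_mem h.z2 h.z2) (mul_mem h.z3 h.z3))) h.Ni, neg_mem h.s]
theorem mub (a : Fin 4) : K.mub a ∈ B := by
  fin_cases a
  exacts [zero_mem _, mul_mem (sub_mem (mul_mem h.z4 h.z4) (mul_mem h.z5 h.z5)) h.Ni,
    neg_mem (mul_mem (mul_mem ii_mem (add_mem (mul_mem h.z4 h.z4) (mul_mem h.z5 h.z5))) h.Ni),
    neg_mem h.sb]

theorem prj (k : K.Is) (q : PB p B) {e1 e2 e3 e4 : A} (e5 e6 : A) (h1 : e1 ∈ B) (h2 : e2 ∈ B)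
    (h3 : e3 ∈ B) (h4 : e4 ∈ B) (d : Fin 4) : K.prj ((kk K p).V e1 e2 e3 e4 e5 e6) d ∈ B := by
  rw [kk_V, k.prj_V]
  exact add_mem (add_mem (add_mem (mul_mem (sub_mem h1 (mul_mem h2 q.h1)) (e0_mem d))
    (mul_mem h2 (h.om d))) (mul_mem (sub_mem h3 (mul_mem (mul_mem h2 q.j1) (mul_mem ii_mem h.s)))
    (mul_mem h.z1 (h.mub d)))) (mul_mem (add_mem h4 (mul_mem (mul_mem h2 q.j1)
      (mul_mem ii_mem h.sb))) (mul_mem h.z1 (h.mu d)))

theorem frK (k : K.Is) (q : PB p B) : (∀ d, (frK K p).l d ∈ B) ∧ (∀ d, (frK K p).n d ∈ B) ∧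
    (∀ d, (frK K p).m d ∈ B) ∧ ∀ d, (frK K p).mb d ∈ B := by
  have i : ii A ∈ B := ii_mem
  have t : (2 : A) ∈ B := ofNat_mem _ 2
  have ia := mul_mem i q.a
  have z : (kk K p).z ∈ B := mul_mem q.sg (add_mem h.z1 (mul_mem ia h.x))
  have zb : (kk K p).zb ∈ B := mul_mem q.sg (sub_mem h.z1 (mul_mem ia h.x))
  have W : (kk K p).W ∈ B := add_mem (mul_mem h.z1 h.z1) (mul_mem q.a q.a)
  have De : (kk K p).De ∈ B := add_mem (sub_mem (mul_mem h.z1 h.z1)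
    (mul_mem (mul_mem t q.M) h.z1)) (mul_mem q.a q.a)
  exact ⟨h.prj k q _ _ (mul_mem (mul_mem (mul_mem t h.N) q.sg) W) (mul_mem (mul_mem h.N q.sg) De)
      (mul_mem (mul_mem (mul_mem ia h.N) q.sg) h.s)
      (neg_mem (mul_mem (mul_mem (mul_mem ia h.N) q.sg) h.sb)),
    h.prj k q _ _ (zero_mem _) (neg_mem h.Ni) (zero_mem _) (zero_mem _),
    h.prj k q _ _ (mul_mem (mul_mem ia h.s) zb) (zero_mem _) (zero_mem _) zb,
    h.prj k q _ _ (neg_mem (mul_mem (mul_mem ia h.sb) z)) (zero_mem _) z (zero_mem _)⟩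

theorem gK (q : PB p B) (a b : Fin 4) : gK K p a b ∈ B := by
  have i : ii A ∈ B := ii_mem
  have t : (2 : A) ∈ B := ofNat_mem _ 2
  have c1 : ∀ a, c1 K p a ∈ B := fun a => add_mem (e0_mem a) (mul_mem (h.om a) q.h1)
  have c3 : ∀ a, c3 K p a ∈ B := fun a => add_mem (mul_mem (mul_mem hf_mem h.ri) (h.mu a))
    (mul_mem (mul_mem (h.om a) q.j1) (mul_mem i h.s))
  have c4 : ∀ a, c4 K p a ∈ B := fun a => sub_mem (mul_mem (mul_mem hf_mem h.ri) (h.mub a))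
    (mul_mem (mul_mem (h.om a) q.j1) (mul_mem i h.sb))
  have f : ∀ a, (kk K p).qf (P354XR.c3 K p a) (P354XR.c4 K p a) ∈ B := fun a =>
    mul_mem i (sub_mem (mul_mem h.s (c4 a)) (mul_mem h.sb (c3 a)))
  exact mul_mem hf_mem (add_mem (add_mem (add_mem (sub_mem (add_mem (add_mem
    (neg_mem (mul_mem (c1 a) (c1 b))) (mul_mem (c1 a) (h.om b))) (mul_mem (h.om a) (c1 b)))
    (mul_mem q.a (add_mem (mul_mem (h.om a) (f b)) (mul_mem (f a) (h.om b)))))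
    (mul_mem (mul_mem t (add_mem (mul_mem h.z1 h.z1) (mul_mem (mul_mem (mul_mem q.a q.a) h.x) h.x)))
      (add_mem (mul_mem (c3 a) (c4 b)) (mul_mem (c4 a) (c3 b)))))
    (mul_mem (mul_mem (mul_mem q.a q.a) (f a)) (f b)))
    (mul_mem (mul_mem (mul_mem (mul_mem (mul_mem t q.M) h.z1) q.sg)
      (sub_mem (c1 a) (mul_mem q.a (f a)))) (sub_mem (c1 b) (mul_mem q.a (f b)))))

end HB

variable {g g0 : Fin 4 → Fin 4 → A} {Γ Γ0 : Fin 4 → Fin 4 → Fin 4 → A}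

theorem same_geo : Same (K.geo g Γ) (K.geo g0 Γ0) := ⟨rfl, rfl, rfl, rfl⟩

variable {N : Hen (K.geo g Γ).c}

theorem HB.stb (h : HB K N.B) (d : ∀ i {f f'}, N.Cg f f' → N.Cg (K.d i f) (K.d i f')) : Stb N := by
  have r : ∀ {x}, x ∈ N.B → N.Cg x x := Hen.Cg.refl
  refine ⟨fun a f f' c => ?_, fun c => ((r h.z2).mul (d 2 c)).add ((r h.z3).mul (d 3 c)),
    fun c => ((r h.z4).mul (d 4 c)).add ((r h.z5).mul (d 5 c))⟩
  show N.Cg (K.L a f) (K.L a f')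
  rw [K.L_ap, K.L_ap]
  exact ((((r (e0_mem a)).mul (d 0 c)).add ((r (h.om a)).mul (d 1 c))).add
    ((r (mul_mem (mul_mem hf_mem h.ri) (h.mu a))).mul
      (((r h.z4).mul (d 3 c)).sub ((r h.z5).mul (d 2 c))))).add
    ((r (mul_mem (mul_mem hf_mem h.ri) (h.mub a))).mul
      (((r h.z2).mul (d 5 c)).sub ((r h.z3).mul (d 4 c))))

theorem HB.cl (h : HB K N.B) (k : K.Is) (q : PB p N.B) : Cl N (P354XR.frK K p) (P354XR.frK K p) :=
  have e := h.frK k q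
  ⟨.refl e.1, .refl e.2.1, .refl e.2.2.1, .refl e.2.2.2⟩

/-- The transverse frame of a metric whose jet of order two is close to the jet of Kerr. -/
theorem near_K {O : Ops (K.geo g Γ).c} (f : O.Fit N) (k : K.Is) (q : p.Is K) (hb : HB K N.B)
    (pb : PB p N.B) {Mi : A} (hM : p.M * Mi = 1) (bM : Mi ∈ N.B) (e : g0 = gK K p)
    (h : (K.geo g Γ).Is) (h0 : (K.geo g0 Γ0).Is) (j : J2 (K.geo g0 Γ0) N) :
    Ok O (K.geo g Γ).R (frK K p) ∧ ((frK K p).full O (K.geo g Γ).R).WN (K.geo g Γ) ∧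
      ((frK K p).full O (K.geo g Γ).R).p1 (K.geo g Γ) = 0 ∧
      ((frK K p).full O (K.geo g Γ).R).p3 (K.geo g Γ) = 0 ∧
      Cl N ((frK K p).full O (K.geo g Γ).R) (frK K p) := by
  subst e
  have e := ghp_frK k q h0
  obtain ⟨a0, a1, a2, a3, a4⟩ := (frK K p).ghp_P (K.geo (gK K p) Γ0)
  rw [e] at a0 a1 a2 a3 a4
  have z3 : ((kk K p).z * ((kk K p).r - ii A * (kk K p).a * (kk K p).x)) ^ 3 = 1 := by
    rw [(kk_is k q).z_ze, one_pow]
  refine full_near f j same_geo h h0 (frK_wn k q Γ0) (hb.cl k pb)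
    (pi := -(hf A * Mi * (K.z 1 - ii A * p.a * K.kc.x) ^ 3)) (neg_mem (mul_mem (mul_mem hf_mem bM)
      (pow_mem (sub_mem hb.z1 (mul_mem (mul_mem ii_mem pb.a) hb.x)) 3))) ?_ a0.symm a1.symm a3.symm
      a4.symm
  rw [← a2]
  change -(2 * p.M * (kk K p).z * (kk K p).z * (kk K p).z) * _ = 1
  change ((kk K p).z * (K.z 1 - ii A * p.a * K.kc.x)) ^ 3 = 1 at z3
  linear_combination two_hf (A := A) + 2 * hf A * hM + 2 * hf A * p.M * Mi * z3

/-- The GHP data of a null frame which is close to the frame of Kerr. -/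
theorem ghp_K (s : Stb N) (k : K.Is) (q : p.Is K) (e : g0 = gK K p) (h : (K.geo g Γ).Is)
    (h0 : (K.geo g0 Γ0).Is) (hg : ∀ a b, N.Cg (g a b) (g0 a b)) {F : Fr A} (n : F.Nl (K.geo g Γ))
    (c : Cl N F (frK K p)) : GCl N (F.ghp (K.geo g Γ)) (kk K p).kerr := by
  subst e
  rw [← ghp_frK k q h0]
  exact ghp_cl s same_geo h h0 hg n (frK_wn k q Γ0).nl c

end Vale.Agent.P354XD
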