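import Vale.Agent.P354XD.ExG
import Vale.Agent.P354XD.G1
import Vale.Agent.P354XR.Gin
import Vale.Agent.P354YJ.Gin

/-!
The transverse frame of a graded family of metrics which are close to Kerr.
-/

set_option linter.all false

open scoped ContDiff
open Set Filter Topology

namespace Vale.Agent.P354XD

open Vale.Agent.P354n (R4)
open Vale.Agent.P354RC (bs cv sum_bs)
open Vale.Agent.P354XE (Tw gin rd)
open Vale.Agent.P354XG hiding Dom Dom0 Bd bdSub domI Keeps Low dom0_mk dom0_zero dom0_cst dom_of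
  dom_zero dom_cst bd_alg dom_sum dom0_sum keeps_pd keeps_zero keeps_sum bd_closure dom_pb_aff
  bd_fn bd_par
open Vale.Agent.P354MG hiding Sml
open Vale.Agent.P354XR hiding pw

section jets
variable {E V : Type} [NormedAddCommGroup E] [NormedSpace ℝ E] [NormedAddCommGroup V]
  [NormedSpace ℝ V]

theorem norm_fd {f : E → V} {x : E} (hf : ContDiffAt ℝ ∞ f x) (k : ℕ) (v : E) :
    ‖iteratedFDeriv ℝ k (fun y => fderiv ℝ f y v) x‖ ≤ ‖v‖ * ‖iteratedFDeriv ℝ (k + 1) f x‖ := by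
  rw [← norm_iteratedFDeriv_fderiv]
  exact norm_iteratedFDeriv_clm_apply_const (hf.fderiv_right (m := ∞) (by simp))
    (by exact_mod_cast le_top)

theorem norm_pw {J : Type} (w : List E) {f : J × E → ℂ} {p : J × E}
    (hf : ContDiffAt ℝ ∞ (sl f p.1) p.2) :
    ‖pw w f p‖ ≤ (w.map norm).prod * ‖iteratedFDeriv ℝ w.length (sl f p.1) p.2‖ := by
  induction w generalizing f with
  | nil => simp [pw, sl]
  | cons v w ih =>
    refine (ih (f := pdF v f) ((hf.fderiv_right (m := ∞) (by simp)).clm_apply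
      contDiffAt_const)).trans ?_
    rw [List.map_cons, List.prod_cons, mul_comm ‖v‖, mul_assoc]
    exact mul_le_mul_of_nonneg_left (norm_fd hf _ v)
      (List.prod_nonneg fun _ h => by obtain ⟨_, _, rfl⟩ := List.mem_map.1 h; exact norm_nonneg _)

end jets

theorem norm_bs (a : Fin 4) : ‖bs a‖ = 1 := by fin_cases a <;> simp [bs, Prod.norm_def]

theorem vac_gin (M a : ℝ) {x : E6} (h : 0 < x.2.1 ∧ x.2.2 ≠ 0) : VacAt (gin M a) (pj x) :=
  ⟨_, P354YJ.open_rd, by show 0 < rd (pj x); rw [rd_pj h.1 h.2]; exact h.1, P354YJ.gin_met M a,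
    P354YJ.gin_vac M a⟩

variable {J : Type}

section
variable {G : Filter (J × E6)} [Loc G]

theorem pb_sub (o : Off G) {f g : J → R4 → ℝ} (hf : SmB G f) (hg : SmB G g) :
    pb G f - pb G g = pb G fun j y => f j y - g j y :=
  ((rs_pb o hf).sub (rs_pb o hg)).ext (rs_pb o ((hf.and hg).mono fun _ h => h.1.sub h.2))
    (Eventually.of_forall fun p => by simp)

theorem geo_sub (o : Off G) {g g' : J → Tw} (hg : ∀ᶠ p in G, VacAt (g p.1) (pj p.2))
    (hg' : ∀ᶠ p in G, VacAt (g' p.1) (pj p.2)) (b d : Fin 4) :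
    (geo G (1 / 2) g).g b d - (geo G (1 / 2) g').g b d =
      algebraMap ℂ (Sm G) (1 / 2 : ℝ) * pb G fun j => gc (g j - g' j) b d := by
  rw [show (fun j => gc (g j - g' j) b d) = fun j y => gc (g j) b d y - gc (g' j) b d y from rfl,
    ← pb_sub o (hg.mono fun _ h => h.sm_g b d) (hg'.mono fun _ h => h.sm_g b d), mul_sub]
  rfl

theorem gin_is (h : Pos G) (M a : J → ℝ) : (geo G (1 / 2) fun j => gin (M j) (a j)).Is :=
  geo_is h.off _ (h.mono fun _ e => vac_gin _ _ e)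

end

variable {F : Filter J} {K : J → Set E6} [Gr F] {μ : ℕ → J → ℝ} {M a : J → ℝ}

/-- Bounds of the point and of the parameters. -/
def Rg (c C m b : ℝ) (x : E6) : Prop :=
  c ≤ |m| ∧ |m| ≤ C ∧ |b| ≤ C ∧ c ≤ x.2.1 ∧ x.2.1 ≤ C ∧ c ≤ nq x ∧ nq x ≤ C

variable (F K M a) in
/-- The sets K j are in a shell, and the parameters are bounded. -/
def Reg : Prop :=
  ∀ᶠ k in atTop, ∀ θ, ∃ c > 0, ∃ C, ∀ᶠ j in ph F k θ, ∀ x ∈ K j, Rg c C (M j) (a j) x

namespace Reg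
variable (r : Reg F K M a) {u : Sm (nb F K)} {f : J × E6 → ℂ}
include r

theorem pos : Pos (nb F K) := by
  refine ev_nb.2 (evk_of (r.mono fun k h θ => ?_))
  obtain ⟨c, hc, C, h⟩ := h θ
  refine h.mono fun j h x hx => ?_
  obtain ⟨-, -, -, h1, -, h2, -⟩ := h x hx
  have : x.2.2 ≠ 0 := fun e => by
    have : nq x = 0 := by simp [nq, e]
    linarith
  exact ((isOpen_lt (g := fun y : E6 => y.2.1) continuous_const (by fun_prop)).inter
    (isOpen_ne_fun (f := fun y : E6 => y.2.2) (by fun_prop) continuous_const)).mem_nhds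
      ⟨hc.trans_le h1, this⟩

theorem dom0 (h : Rs u f) (e : ∀ c > 0, ∀ C, ∃ B, ∀ j x, Rg c C (M j) (a j) x → ‖f (j, x)‖ ≤ B) :
    Dom0 (w1 J) u := by
  filter_upwards [r, evk (ev_nb_on h)] with k h1 h2 θ
  obtain ⟨c, hc, C, h1⟩ := h1 θ
  obtain ⟨B, e⟩ := e c hc C
  refine ⟨max B 0, le_max_right _ _, ?_⟩
  filter_upwards [h1, h2 θ] with j h1 h2 x hx
  rw [h2 x hx, w1, mul_one]
  exact (e j x (h1 x hx)).trans (le_max_left _ _)

theorem low (h : Rs u f) (e : ∀ c > 0, ∀ C, ∃ B > 0, ∀ j x, Rg c C (M j) (a j) x → B ≤ ‖f (j, x)‖) :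
    Low u := low_of h (r.mono fun k h1 θ => by
  obtain ⟨c, hc, C, h1⟩ := h1 θ
  obtain ⟨B, hB, e⟩ := e c hc C
  exact ⟨B, hB, h1.mono fun j h x hx => e j x (h x hx)⟩)

theorem z (i : Fin 6) (hi : i ≠ 0) : Bd ((hp (nb F K)).z i) := by
  refine dom_of wgt_one (r.dom0 (rs_z i) fun c hc C => ⟨C + 1, fun j x h => ?_⟩) fun v => ?_
  · obtain ⟨-, -, -, h1, h2, -, h3⟩ := h
    have e : ∀ s t : ℂ, Complex.normSq s + Complex.normSq t ≤ C → ‖s‖ ≤ C + 1 := fun s t h => by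
      rw [Complex.normSq_eq_norm_sq] at h
      nlinarith [Complex.normSq_nonneg t, sq_nonneg (‖s‖ - 1), norm_nonneg s]
    have e1 := e _ _ h3
    have e2 := e x.2.2.2 x.2.2.1 (by rw [add_comm]; exact h3)
    fin_cases i
    · exact absurd rfl hi
    · simp only [zc]; simp; rw [abs_of_pos (hc.trans_le h1)]; linarith
    all_goals simpa [zc]
  · rw [show pd v ((hp (nb F K)).z i) = _ from pd_clm v (zc i)]
    exact bd_alg _

theorem hb : HB (hp (nb F K)) (bdSub F K) := by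
  have k := hp_is r.pos.off
  refine ⟨r.z, Low.bd_inv (r.z 1 (by decide)) (r.low (rs_z 1) fun c hc C => ⟨c, hc, fun j x h => ?_⟩)
    k.hr, Low.bd_inv (add_mem (s := bdSub F K) (mul_mem (r.z 2 (by decide)) (r.z 4 (by decide)))
      (mul_mem (r.z 3 (by decide)) (r.z 5 (by decide)))) (r.low rs_N fun c hc C =>
        ⟨c, hc, fun j x h => ?_⟩) k.hN⟩
  · simp only [zc]; simp; exact h.2.2.2.1.trans (le_abs_self _)
  · rw [Complex.norm_real]; exact h.2.2.2.2.2.1.trans (le_abs_self _)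

theorem bd_a : Bd (cst fun j => a j : Sm (nb F K)) :=
  dom_cst wgt_one _ (r.dom0 (rs_cst _) fun c hc C => ⟨C, fun j x h => by
    rw [Complex.norm_real]; exact h.2.2.1⟩)

theorem bd_M : Bd (cst fun j => M j : Sm (nb F K)) :=
  dom_cst wgt_one _ (r.dom0 (rs_cst _) fun c hc C => ⟨C, fun j x h => by
    rw [Complex.norm_real]; exact h.2.1⟩)

theorem pb : PB (pm (nb F K) M a) (bdSub F K) := by
  refine ⟨r.bd_a, r.bd_M, Low.bd_inv (add_mem (s := bdSub F K) (mul_mem r.hb.z1 r.hb.z1)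
    (mul_mem (mul_mem (mul_mem r.bd_a r.bd_a) r.hb.x) r.hb.x)) (r.low (rs_Sg r.pos.off a)
      fun c hc C => ⟨c * c, mul_pos hc hc, fun j x h => ?_⟩) ?_, one_mem _, zero_mem _⟩
  · rw [Complex.norm_real]
    refine le_trans ?_ (le_abs_self _)
    have := mul_le_mul h.2.2.2.1 h.2.2.2.1 hc.le (hc.le.trans h.2.2.2.1)
    nlinarith [mul_self_nonneg (a j * oc x 3)]
  · rw [mul_comm]; exact (pm_is r.pos M a).hg

theorem Mi : ∃ Mi, Bd Mi ∧ (pm (nb F K) M a).M * Mi = 1 :=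
  Low.inv r.bd_M (r.low (rs_cst _) fun c hc C => ⟨c, hc, fun j x h => by
    rw [Complex.norm_real]; exact h.1⟩)

theorem keeps (hμ : Wgt μ) (i : Fin 6) (h : Dom μ u) : Dom μ ((hp (nb F K)).d i u) := by
  rw [hp_d]
  exact (Dom.bmul hμ (bd_alg _) (h.pd _)).add hμ (Dom.bmul hμ (bd_alg _) (h.pd _))

theorem stb (hμ : Wgt μ) (h : P354MG.Sml F μ) (k : ℝ) (g : J → Tw) :
    Stb (S := geo (nb F K) k g) (henG K hμ h) :=
  HB.stb (K := hp (nb F K)) (N := henG K hμ h) r.hb fun i _ _ c => ⟨r.keeps wgt_one i c.1, by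
    rw [← map_sub]; exact r.keeps hμ i c.2⟩

theorem co (b : Fin 4) (v : E6) : Bd (pd v ((hp (nb F K)).co b)) := by
  have e : pd v (Hp.e0 (Sm (nb F K)) b) = 0 := Hp.D_e0 _ b
  rw [Hp.co, D_add, D_mul, e, show pd v ((hp (nb F K)).z 0) = _ from pd_clm v (zc 0), mul_zero,
    zero_add]
  exact Dom.add wgt_one (Dom.bmul wgt_one (e0_mem (B := bdSub F K) b) (bd_alg _))
    (Dom.pd (mul_mem r.hb.z1 (r.hb.om b)) v)

/-- The pull back of a family of functions with small jets. -/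
theorem dom_pb (hμ : Wgt μ) {f : J → R4 → ℝ}
    (hs : ∀ᶠ j in F, ∀ x ∈ K j, ∀ᶠ y in 𝓝 (pj x), ContDiffAt ℝ ∞ (f j) y)
    (hf : ∀ᶠ q in gr, ∀ θ, ∃ C, 0 ≤ C ∧ ∀ᶠ j in ph F q.2 θ, ∀ x ∈ K j, ∀ m ≤ q.1,
      ‖iteratedFDeriv ℝ m (f j) (pj x)‖ ≤ C * μ q.2 j) : Dom μ (P354XD.pb (nb F K) f) := by
  have o := r.pos.off
  have h : Mp F K (fun j => pj '' K j) fun p => pj p.2 :=
    ⟨o.mono fun p e => cd_pj e.2, Eventually.of_forall fun j x hx => ⟨x, hx, rfl⟩⟩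
  have sm : SmF (nb F fun j => pj '' K j) fun p => (f p.1 p.2 : ℂ) :=
    ev_nb.2 (hs.mono fun j h => by
      rintro _ ⟨x, hx, rfl⟩
      exact (h x hx).mono fun y e => Complex.ofRealCLM.contDiff.contDiffAt.comp y e)
  have sb : SmB (nb F K) f := ev_nb.2 ((hs.and (ev_nb_on o)).mono fun j h x hx =>
    (cd_pj (h.2 x hx).2).continuousAt.eventually (h.1 x hx))
  rw [show P354XD.pb (nb F K) f = h.pb (mk _ sm) from
    (rs_pb o sb).ext (h.pb_mk _ sm ▸ rs_mk _) EventuallyEq.rfl]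
  refine Dom.pb (dom_of_tn (rep_mk _ sm) ?_) h (fun l v => ?_) hμ
  · filter_upwards [hf, evj hs] with q h1 h2 θ w hw
    obtain ⟨C, hC, h1⟩ := h1 θ
    have n : 0 ≤ (w.map norm).prod :=
      List.prod_nonneg fun _ h => by obtain ⟨_, _, rfl⟩ := List.mem_map.1 h; exact norm_nonneg _
    refine ⟨(w.map norm).prod * C, mul_nonneg n hC, ?_⟩
    filter_upwards [h1, h2 θ] with j h1 h2
    rintro _ ⟨x, hx, rfl⟩
    have s := (h2 x hx).self_of_nhds
    refine (norm_pw w (f := fun p => (f p.1 p.2 : ℂ)) (p := (j, pj x)) (Complex.ofRealCLM.contDiff.contDiffAt.comp _ s)).trans ?_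
    rw [mul_assoc]
    refine mul_le_mul_of_nonneg_left (le_of_eq_of_le ?_ (h1 x hx _ hw)) n
    exact Complex.ofRealLI.norm_iteratedFDeriv_comp_left s (by exact_mod_cast le_top)
  · rw [show h.co l = ∑ b, algebraMap ℂ _ (l (bs b)) * (hp (nb F K)).co b from
      (rs_mk (h.sm_co l)).ext (Rs.sum _ fun b => (rs_alg _).mul (rs_co o b))
        (Eventually.of_forall fun p => by
          show l (pj p.2) = _
          conv_lhs => rw [← sum_bs (pj p.2)]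
          simp [mul_comm]), map_sum]
    refine dom_sum wgt_one _ fun b _ => ?_
    rw [D_mul, D_alg, mul_zero, add_zero]
    exact Dom.bmul wgt_one (bd_alg _) (r.co b v)

variable {g : J → Tw} (hv : ∀ᶠ j in F, ∀ x ∈ K j, VacAt (g j) (pj x))
include hv

theorem vac : ∀ᶠ p in nb F K, VacAt (g p.1) (pj p.2) :=
  ev_nb.2 ((hv.and (ev_nb_on r.pos)).mono fun j h x hx =>
    (cd_pj (h.2 x hx).2).continuousAt.eventually (h.1 x hx).ev)

/-- The metrics are close. -/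
theorem cg_g (hμ : Wgt μ) (h : P354MG.Sml F μ)
    (hf : ∀ᶠ q in gr, ∀ θ, ∃ C, 0 ≤ C ∧ ∀ᶠ j in ph F q.2 θ, ∀ x ∈ K j,
      P354XE.Bd q.1 (g j - gin (M j) (a j)) (pj x) (C * μ q.2 j)) (b d : Fin 4) :
    (henG K hμ h).Cg ((geo (nb F K) (1 / 2) g).g b d)
      ((geo (nb F K) (1 / 2) fun j => gin (M j) (a j)).g b d) := by
  refine ⟨gin_eq r.pos M a b d ▸ r.hb.gK r.pb b d, ?_⟩
  rw [geo_sub r.pos.off (r.vac hv) (r.pos.mono fun _ e => vac_gin _ _ e)]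
  refine Dom.bmul hμ (bd_alg _) (r.dom_pb hμ ((hv.and (ev_nb_on r.pos)).mono fun j e x hx =>
    ((e.1 x hx).ev.and (vac_gin (M j) (a j) (e.2 x hx)).ev).mono fun y e =>
      (e.1.sm_g b d).sub (e.2.sm_g b d)) (hf.mono fun q h θ => (h θ).imp fun C h =>
        ⟨h.1, h.2.mono fun j h x hx m hm => ?_⟩))
  exact (h x hx m hm (bs b) (bs d)).trans_eq (by rw [norm_bs, norm_bs, mul_one, mul_one])

omit hv in
theorem dom0_pb (hμ : Wgt μ) {h : J → Tw}
    (hf : ∀ᶠ k in atTop, ∀ θ, ∃ C, 0 ≤ C ∧ ∀ᶠ j in ph F k θ, ∀ x ∈ K j,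
      P354XE.Bd 2 (h j) (pj x) (C * μ k j)) (m : ℕ) (b d : Fin 4) {f : J → R4 → ℝ} (hm : m ≤ 2)
    (sf : SmB (nb F K) f) (e : ∀ᶠ p in nb F K, ‖iteratedFDeriv ℝ 0 (f p.1) (pj p.2)‖ ≤
      ‖iteratedFDeriv ℝ m (gc (h p.1) b d) (pj p.2)‖) :
    Dom0 μ (algebraMap ℂ (Sm (nb F K)) (1 / 2 : ℝ) * P354XD.pb (nb F K) f) := by
  refine Dom0.bmul hμ (bd_alg _).dom0 ?_
  filter_upwards [hf, evk (ev_nb_on e), evk (rs_pb r.pos.off sf).on] with k h1 h2 h3 θ
  obtain ⟨C, hC, h1⟩ := h1 θ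
  refine ⟨C, hC, ?_⟩
  filter_upwards [h1, h2 θ, h3 θ] with j h1 h2 h3 x hx
  rw [h3 x hx, Complex.norm_real, ← norm_iteratedFDeriv_zero (𝕜 := ℝ)]
  exact (h2 x hx).trans ((h1 x hx m hm (bs b) (bs d)).trans_eq
    (by rw [norm_bs, norm_bs, mul_one, mul_one]))

omit hv in
theorem L_half (e : Fin 4) {f : J → R4 → ℝ} (sf : SmB (nb F K) f) : (hp (nb F K)).L e
    (algebraMap ℂ (Sm (nb F K)) (1 / 2 : ℝ) * P354XD.pb (nb F K) f) =
    algebraMap ℂ (Sm (nb F K)) (1 / 2 : ℝ) * P354XD.pb (nb F K) fun j => db e (f j) := by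
  rw [D_mul, D_alg, mul_zero, add_zero, L_pb r.pos.off sf e]

/-- The jets of order two of the metrics are close in the values. -/
theorem j2 (hμ : Wgt μ) (h : P354MG.Sml F μ)
    (hf : ∀ᶠ k in atTop, ∀ θ, ∃ C, 0 ≤ C ∧ ∀ᶠ j in ph F k θ, ∀ x ∈ K j,
      P354XE.Bd 2 (g j - gin (M j) (a j)) (pj x) (C * μ k j)) :
    J2 (S := geo (nb F K) (1 / 2) g) (geo (nb F K) (1 / 2) fun j => gin (M j) (a j))
      (henG0 K hμ h) := by
  have v0 : ∀ᶠ p in nb F K, VacAt (gin (M p.1) (a p.1)) (pj p.2) :=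
    r.pos.mono fun _ e => vac_gin _ _ e
  have sb : ∀ b d, SmB (nb F K) fun j => gc (g j - gin (M j) (a j)) b d := fun b d =>
    ((r.vac hv).and v0).mono fun y e => (e.1.sm_g b d).sub (e.2.sm_g b d)
  have s := (r.stb hμ h (1 / 2) g).L
  have b0 := fun b d => Hen.Cg.refl (N := henG K hμ h) (gin_eq r.pos M a b d ▸ r.hb.gK r.pb b d)
  have n : ∀ {f : R4 → ℝ} {y}, ContDiffAt ℝ ∞ f y → ∀ k e,
      ‖iteratedFDeriv ℝ k (db e f) y‖ ≤ ‖iteratedFDeriv ℝ (k + 1) f y‖ := fun hf k e =>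
    (norm_fd hf k (bs e)).trans_eq (by rw [norm_bs, one_mul])
  have e0 := geo_sub (g' := fun j => gin (M j) (a j)) r.pos.off (r.vac hv) v0
  have e1 := fun e b d => (map_sub ((hp (nb F K)).L e) _ _).symm.trans
    ((congrArg _ (e0 b d)).trans (r.L_half e (sb b d)))
  have e2 := fun f e b d => (map_sub ((hp (nb F K)).L f) _ _).symm.trans
    ((congrArg _ (e1 e b d)).trans (r.L_half f ((sb b d).db e)))
  exact ⟨fun b d => ⟨Dom.dom0 (b0 b d).1, (congrArg (Dom0 μ) (e0 b d)).mpr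
      (r.dom0_pb hμ hf 0 b d (by norm_num) (sb b d) (Eventually.of_forall fun p => le_rfl))⟩,
    fun e b d => ⟨Dom.dom0 (s e (b0 b d)).1, (congrArg (Dom0 μ) (e1 e b d)).mpr
      (r.dom0_pb hμ hf 1 b d (by norm_num) ((sb b d).db e) ((sb b d).mono fun p h => n h 0 e))⟩,
    fun f e b d => ⟨Dom.dom0 (s f (s e (b0 b d))).1, (congrArg (Dom0 μ) (e2 f e b d)).mpr
      (r.dom0_pb hμ hf 2 b d le_rfl (((sb b d).db e).db f) (((sb b d).and ((sb b d).db e)).mono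
        fun p h => (n h.2 0 f).trans (n h.1 1 e)))⟩⟩

/-- The construction of the transverse frame is defined for C2 close metrics. -/
theorem near0 (hμ : Wgt μ) (h : P354MG.Sml F μ)
    (hf : ∀ᶠ k in atTop, ∀ θ, ∃ C, 0 ≤ C ∧ ∀ᶠ j in ph F k θ, ∀ x ∈ K j,
      P354XE.Bd 2 (g j - gin (M j) (a j)) (pj x) (C * μ k j)) :
    (frK (hp (nb F K)) (pm (nb F K) M a)).Ok (S := geo (nb F K) (1 / 2) g) (opsS rfl)
      (geo (nb F K) (1 / 2) g).R ∧
    Fr.Cl (S := geo (nb F K) (1 / 2) g) (henG0 K hμ h) ((frK (hp (nb F K)) (pm (nb F K) M a)).full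
      (S := geo (nb F K) (1 / 2) g) (opsS rfl) (geo (nb F K) (1 / 2) g).R)
      (frK (hp (nb F K)) (pm (nb F K) M a)) := by
  obtain ⟨Mi, bM, hM⟩ := r.Mi
  have b := r.hb
  have q := r.pb
  have := near_K (K := hp (nb F K)) (N := henG0 K hμ h) (fit_G0 hμ h) (hp_is r.pos.off) (pm_is r.pos M a)
    ⟨fun i hi => Dom.dom0 (b.z i hi), Dom.dom0 b.ri, Dom.dom0 b.Ni⟩
    ⟨Dom.dom0 q.a, Dom.dom0 q.M, Dom.dom0 q.sg, Dom.dom0 q.h1, Dom.dom0 q.j1⟩ hM bM.dom0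
    (funext₂ (gin_eq r.pos M a)) (geo_is r.pos.off _ (r.vac hv)) (gin_is r.pos M a)
    (r.j2 hv hμ h hf)
  exact ⟨this.1, this.2.2.2.2⟩

/-- The transverse frame and its GHP data are close to the frame and the data of Kerr. -/
theorem near (hμ : Wgt μ) (h : P354MG.Sml F μ)
    (hf : ∀ᶠ q in gr, ∀ θ, ∃ C, 0 ≤ C ∧ ∀ᶠ j in ph F q.2 θ, ∀ x ∈ K j,
      P354XE.Bd q.1 (g j - gin (M j) (a j)) (pj x) (C * μ q.2 j)) :
    (frK (hp (nb F K)) (pm (nb F K) M a)).Ok (S := geo (nb F K) (1 / 2) g) (opsS rfl)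
      (geo (nb F K) (1 / 2) g).R ∧
    Fr.Cl (S := geo (nb F K) (1 / 2) g) (henG K hμ h) ((frK (hp (nb F K)) (pm (nb F K) M a)).full
      (S := geo (nb F K) (1 / 2) g) (opsS rfl) (geo (nb F K) (1 / 2) g).R)
      (frK (hp (nb F K)) (pm (nb F K) M a)) ∧
    GCl (henG K hμ h) (((frK (hp (nb F K)) (pm (nb F K) M a)).full (S := geo (nb F K) (1 / 2) g)
      (opsS rfl) (geo (nb F K) (1 / 2) g).R).ghp (geo (nb F K) (1 / 2) g))
      (kk (hp (nb F K)) (pm (nb F K) M a)).kerr := by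
  obtain ⟨Mi, bM, hM⟩ := r.Mi
  have s := r.stb hμ h (1 / 2) g
  have c := r.cg_g hv hμ h hf
  have i := geo_is r.pos.off (1 / 2) (r.vac hv)
  have := near_K (K := hp (nb F K)) (N := henG K hμ h) (fit_G hμ h) (hp_is r.pos.off) (pm_is r.pos M a) r.hb r.pb hM
    bM (funext₂ (gin_eq r.pos M a)) i (gin_is r.pos M a) (s.j2 c)
  exact ⟨this.1, this.2.2.2.2, ghp_K s (hp_is r.pos.off) (pm_is r.pos M a)
    (funext₂ (gin_eq r.pos M a)) i (gin_is r.pos M a) c this.2.1.nl this.2.2.2.2⟩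

end Reg
end Vale.Agent.P354XD
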