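import Vale.Agent.P354XD.Rot

/-!
The normalisation of a weighted frame which is almost null.
-/

set_option linter.all false

namespace Vale.Agent.P354XD

open Vale.Agent.P354XG Vale.Agent.P354XG.Geo

variable {A : Type*} [CommRing A] [Algebra ℂ A] {S : Geo A}

namespace Fr

variable (S) (F : Fr A)

/-- Reality and weights. -/
structure RW : Prop where
  c_l : S.cv F.l = F.l
  c_n : S.cv F.n = F.n
  c_m : S.cv F.m = F.mb
  H_l : dv S.H F.l = F.l
  H_n : dv S.H F.n = -F.n
  H_m : dv S.H F.m = F.m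
  Hb_m : dv S.Hb F.m = -F.m

/-- The first step: l and n. -/
def gl (u : A) : Vec A := F.l + (S.dot F.l F.l * u) • F.n
noncomputable def gn (s u si : A) : Vec A :=
  (hf A * (s - S.dot F.l F.n) * si ^ 2) • (F.n + (S.dot F.n F.n * u) • F.l)
noncomputable def g1 (s u si : A) : Fr A where
  l := F.gl S u
  n := F.gn S s u si
  m := F.m + S.dot F.m (F.gn S s u si) • F.gl S u + S.dot F.m (F.gl S u) • F.gn S s u si
  mb := F.mb + S.dot F.mb (F.gn S s u si) • F.gl S u + S.dot F.mb (F.gl S u) • F.gn S s u si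

structure E1 (s u si : A) : Prop where
  sq : s ^ 2 = S.dot F.l F.n ^ 2 - S.dot F.l F.l * S.dot F.n F.n
  re : S.c s = s
  hu : (s - S.dot F.l F.n) * u = 1
  hs : s * si = 1

/-- The second step: m. -/
def g2 (u k : A) : Fr A where
  l := F.l
  n := F.n
  m := k • (F.m + (-(S.dot F.m F.m * u)) • F.mb)
  mb := k • (F.mb + (-(S.dot F.mb F.mb * u)) • F.m)

structure E2 (s u k : A) : Prop where
  sq : s ^ 2 = S.dot F.m F.mb ^ 2 - S.dot F.m F.m * S.dot F.mb F.mb
  re : S.c s = s
  rk : S.c k = k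
  hu : (S.dot F.m F.mb + s) * u = 1
  hk : 2 * k ^ 2 * s ^ 2 = S.dot F.m F.mb + s

/-- The relations after the first step. -/
structure Hf : Prop where
  ll : S.dot F.l F.l = 0
  nn : S.dot F.n F.n = 0
  ln : S.dot F.l F.n = -1
  lm : S.dot F.l F.m = 0
  nm : S.dot F.n F.m = 0

/-- The normalised frame. -/
noncomputable def gs (s u si u2 k : A) : Fr A := (F.g1 S s u si).g2 S u2 k

variable {S F}

theorem WN.rw (N : F.WN S) : F.RW S := ⟨N.c_l, N.c_n, N.c_m, N.H_l, N.H_n, N.H_m, N.Hb_m⟩

theorem c_inv (h : S.Is) {x u : A} (e : x * u = 1) (r : S.c x = x) : S.c u = u := by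
  have := congrArg S.c e
  rw [map_mul, map_one, r] at this
  linear_combination u * this - S.c u * e

theorem d_inv (D : Der A) {x u : A} (e : x * u = 1) (r : D x = 0) : D u = 0 := by
  have := congrArg D e
  rw [D_mul, D_one, r] at this
  linear_combination u * this - D u * e

theorem c_hf (h : S.Is) : S.c (hf A) = hf A := by
  rw [hf, h.calg, map_div₀, map_one, map_ofNat]

namespace RW
variable (h : S.Is) (R : F.RW S)
include h R

theorem c_mb : S.cv F.mb = F.m := by rw [← R.c_m, h.cvcv]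
theorem H_mb : dv S.H F.mb = -F.mb := by
  funext d
  have := congrArg S.c (congrFun R.Hb_m d)
  rw [← R.c_m]
  simpa only [dv, Geo.cv, h.c_Hb, Pi.neg_apply, map_neg] using this
theorem Hb_l : dv S.Hb F.l = F.l := by
  funext d
  have := congrArg S.c (congrFun R.H_l d)
  rw [← R.c_l]
  simpa only [dv, Geo.cv, h.c_H] using this
theorem Hb_n : dv S.Hb F.n = -F.n := by
  funext d
  have := congrArg S.c (congrFun R.H_n d)
  rw [← R.c_n]
  simpa only [dv, Geo.cv, h.c_H, Pi.neg_apply, map_neg] using this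
theorem Hb_mb : dv S.Hb F.mb = F.mb := by
  funext d
  have := congrArg S.c (congrFun R.H_m d)
  rw [← R.c_m]
  simpa only [dv, Geo.cv, h.c_H] using this

theorem g1 {s u si : A} (e : F.E1 S s u si) : (F.g1 S s u si).RW S ∧ (F.g1 S s u si).Hf S := by
  obtain ⟨e1, e2, e3, e4⟩ := e
  have cb : S.c (S.dot F.l F.n) = S.dot F.l F.n := by rw [h.c_dot, R.c_l, R.c_n]
  have cu := c_inv h e3 (by rw [map_sub, e2, cb])
  have cs := c_inv h e4 e2
  have cl : S.cv (F.gl S u) = F.gl S u := by
    simp only [gl, cv_add, cv_smul, map_mul, h.c_dot, R.c_l, R.c_n, cu]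
  have cn : S.cv (F.gn S s u si) = F.gn S s u si := by
    simp only [gn, cv_add, cv_smul, map_mul, map_sub, map_pow, h.c_dot, R.c_l, R.c_n, cu, cs, e2,
      c_hf h]
  have w : ∀ D, Vert S D → dv D F.l = F.l → dv D F.n = -F.n →
      dv D (F.gl S u) = F.gl S u ∧ dv D (F.gn S s u si) = -F.gn S s u si := by
    intro D v hl hn
    have d1 : D (S.dot F.l F.n) = 0 := by rw [v.dot, hl, hn, dot_neg_right, add_neg_cancel]
    have d2 : D (S.dot F.l F.l) = 2 * S.dot F.l F.l := by rw [v.dot, hl, two_mul]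
    have d3 : D (S.dot F.n F.n) = -(2 * S.dot F.n F.n) := by
      rw [v.dot, hn, dot_neg_right, dot_neg_left]; ring
    have d4 : D s = 0 := by
      have := congrArg D e1
      simp only [D_sub, D_sq, D_mul, d1, d2, d3] at this
      apply h.half
      linear_combination si * this - 2 * D s * e4
    have d5 := d_inv D e3 (by rw [D_sub, d4, d1, sub_zero])
    have d6 := d_inv D e4 d4
    have d7 : D (hf A) = 0 := D_alg D _
    constructor <;>
      simp only [gl, gn, dv_add, dv_smul, D_mul, D_sub, D_sq, hl, hn, d1, d2, d3, d4, d5, d6,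
        d7] <;> module
  have w1 := w _ h.vertH R.H_l R.H_n
  have w2 := w _ h.vertHb (R.Hb_l h) (R.Hb_n h)
  have t := two_hf (A := A)
  have ll : S.dot (F.gl S u) (F.gl S u) = 0 := by
    simp only [gl, dot_add_left, dot_add_right, dot_smul_left, dot_smul_right, h.dot_comm F.n F.l]
    linear_combination S.dot F.l F.l * u ^ 2 * e1 -
      S.dot F.l F.l * (1 + u * (s + S.dot F.l F.n)) * e3
  have nn : S.dot (F.gn S s u si) (F.gn S s u si) = 0 := by
    simp only [gn, dot_add_left, dot_add_right, dot_smul_left, dot_smul_right, h.dot_comm F.n F.l]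
    linear_combination (hf A * (s - S.dot F.l F.n) * si ^ 2) ^ 2 * (S.dot F.n F.n * u ^ 2 * e1 -
      S.dot F.n F.n * (1 + u * (s + S.dot F.l F.n)) * e3)
  have ln : S.dot (F.gl S u) (F.gn S s u si) = -1 := by
    simp only [gl, gn, dot_add_left, dot_add_right, dot_smul_left, dot_smul_right,
      h.dot_comm F.n F.l]
    have e5 : S.dot F.l F.l * S.dot F.n F.n * u = -(s + S.dot F.l F.n) := by
      linear_combination u * e1 - (s + S.dot F.l F.n) * e3
    have e6 : (s - S.dot F.l F.n) * (S.dot F.l F.n + 2 * (S.dot F.l F.l * S.dot F.n F.n * u) +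
        S.dot F.l F.n * u * (S.dot F.l F.l * S.dot F.n F.n * u)) = -(2 * s ^ 2) := by
      rw [e5]; linear_combination -(S.dot F.l F.n * (s + S.dot F.l F.n)) * e3
    linear_combination hf A * si ^ 2 * e6 - s ^ 2 * si ^ 2 * t - (1 + s * si) * e4
  have nl : S.dot (F.gn S s u si) (F.gl S u) = -1 := by rw [h.dot_comm, ln]
  simp only [Fr.g1]
  generalize F.gl S u = l at *
  generalize F.gn S s u si = n at *
  refine ⟨⟨cl, cn, ?_, w1.1, w1.2, ?_, ?_⟩, ll, nn, ln, ?_, ?_⟩
  · simp only [cv_add, cv_smul, h.c_dot, cl, cn, R.c_m]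
  · simp only [dv_add, dv_smul, h.vertH.dot, w1.1, w1.2, R.H_m, dot_neg_right]; module
  · simp only [dv_add, dv_smul, h.vertHb.dot, w2.1, w2.2, R.Hb_m, dot_neg_right, dot_neg_left]
    module
  · simp only [dot_add_right, dot_smul_right, ll, ln, h.dot_comm l F.m]; ring
  · simp only [dot_add_right, dot_smul_right, nn, nl, h.dot_comm n F.m]; ring

theorem g2 (f : F.Hf S) {s u k : A} (e : F.E2 S s u k) : (F.g2 S u k).WN S := by
  obtain ⟨e1, e2, e3, e4, e5⟩ := e
  have cq : S.c (S.dot F.m F.mb) = S.dot F.m F.mb := by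
    rw [h.c_dot, R.c_m, R.c_mb h, h.dot_comm]
  have cu := c_inv h e4 (by rw [map_add, e2, cq])
  have lmb : S.dot F.l F.mb = 0 := by
    have := congrArg S.c f.lm
    rwa [h.c_dot, R.c_l, R.c_m, map_zero] at this
  have nmb : S.dot F.n F.mb = 0 := by
    have := congrArg S.c f.nm
    rwa [h.c_dot, R.c_n, R.c_m, map_zero] at this
  have e6 : 2 * k ^ 2 * s ^ 2 * u = 1 := by rw [e5, e4]
  have w : ∀ D (z : A), Vert S D → dv D F.m = z • F.m → dv D F.mb = -(z • F.mb) →
      dv D (F.g2 S u k).m = z • (F.g2 S u k).m := by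
    intro D z v hm hb
    have d1 : D (S.dot F.m F.mb) = 0 := by
      rw [v.dot, hm, hb, dot_neg_right, dot_smul_left, dot_smul_right, add_neg_cancel]
    have d2 : D (S.dot F.m F.m) = 2 * z * S.dot F.m F.m := by
      rw [v.dot, hm, dot_smul_left, dot_smul_right]; ring
    have d3 : D (S.dot F.mb F.mb) = -(2 * z * S.dot F.mb F.mb) := by
      rw [v.dot, hb, dot_neg_right, dot_neg_left, dot_smul_left, dot_smul_right]; ring
    have d4 : D s = 0 := by
      have := congrArg D e1
      simp only [D_sub, D_sq, D_mul, d1, d2, d3] at this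
      linear_combination k ^ 2 * s * u * this - D s * e6
    have d5 := d_inv D e4 (by rw [D_add, d4, d1, add_zero])
    have d6 : D k = 0 := by
      have := congrArg D e6
      simp only [D_sq, D_mul, D_num, D_one, d4, d5] at this
      apply h.half
      linear_combination k * this - 2 * D k * e6
    simp only [Fr.g2, dv_add, dv_smul, D_mul, D_neg, hm, hb, d2, d5, d6]
    module
  have e7 : S.dot F.m F.m * S.dot F.mb F.mb * u = S.dot F.m F.mb - s := by
    linear_combination u * e1 + (S.dot F.m F.mb - s) * e4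
  refine ⟨⟨R.c_l, R.c_n, ?_, f.ll, f.nn, ?_, f.ln, ?_, ?_, ?_⟩, R.H_l, R.H_n, ?_, ?_⟩
  · simp only [Fr.g2, cv_add, cv_smul, map_neg, map_mul, h.c_dot, R.c_m, R.c_mb h, cu, e3]
  · simp only [Fr.g2, dot_add_left, dot_add_right, dot_smul_left, dot_smul_right,
      h.dot_comm F.mb F.m]
    linear_combination k ^ 2 * S.dot F.m F.m * (u * e7 - e4)
  · simp only [Fr.g2, dot_add_right, dot_smul_right, f.lm, lmb]; ring
  · simp only [Fr.g2, dot_add_right, dot_smul_right, f.nm, nmb]; ring
  · simp only [Fr.g2, dot_add_left, dot_add_right, dot_smul_left, dot_smul_right,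
      h.dot_comm F.mb F.m]
    linear_combination e6 + k ^ 2 * (S.dot F.m F.mb * u - 2) * e7 +
      k ^ 2 * (S.dot F.m F.mb - 2 * s) * e4
  · rw [w _ 1 h.vertH (by rw [R.H_m, one_smul]) (by rw [R.H_mb h, one_smul]), one_smul]
  · rw [w _ (-1) h.vertHb (by rw [R.Hb_m, neg_one_smul])
      (by rw [R.Hb_mb h, neg_one_smul, neg_neg]), neg_one_smul]

/-- The normalised frame is a weighted null frame. -/
theorem gs {s u si s2 u2 k : A} (e : F.E1 S s u si) (e' : (F.g1 S s u si).E2 S s2 u2 k) :
    (F.gs S s u si u2 k).WN S := (R.g1 h e).1.g2 h (R.g1 h e).2 e'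

end RW

/-- A null vector l is not changed. -/
theorem gs_l (s u si u2 k : A) (e : S.dot F.l F.l = 0) : (F.gs S s u si u2 k).l = F.l := by
  simp only [gs, g2, g1, gl, e, zero_mul, zero_smul, add_zero]

end Fr
end Vale.Agent.P354XD
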