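import Vale.Agent.P354XD.Uni

/-!
Comparison of two geometries on the same bundle whose metrics are close.
-/

set_option linter.all false

namespace Vale.Agent.P354XD

open Vale.Agent.P354XG Vale.Agent.P354XG.Geo Fr

variable {A : Type*} [CommRing A] [Algebra ℂ A] {S S0 : Geo A}

/-- The same bundle. -/
structure Same (S S0 : Geo A) : Prop where
  c : S0.c = S.c
  L : S0.L = S.L
  H : S0.H = S.H
  Hb : S0.Hb = S.Hb

/-- The jets of order two of the metrics are close. -/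
structure J2 (S0 : Geo A) (N : Hen S.c) : Prop where
  g0 : ∀ a b, N.Cg (S.g a b) (S0.g a b)
  g1 : ∀ e a b, N.Cg (S.L e (S.g a b)) (S.L e (S0.g a b))
  g2 : ∀ f e a b, N.Cg (S.L f (S.L e (S.g a b))) (S.L f (S.L e (S0.g a b)))

/-- The derivations keep the classes. -/
structure Stb (N : Hen S.c) : Prop where
  L : ∀ a {f f'}, N.Cg f f' → N.Cg (S.L a f) (S.L a f')
  H : ∀ {f f'}, N.Cg f f' → N.Cg (S.H f) (S.H f')
  Hb : ∀ {f f'}, N.Cg f f' → N.Cg (S.Hb f) (S.Hb f')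

/-- Close GHP data. -/
structure GCl {c : A →+* A} (N : Hen c) (G G0 : GHP A) : Prop where
  th : ∀ {f f'}, N.Cg f f' → N.Cg (G.th f) (G0.th f')
  tp : ∀ {f f'}, N.Cg f f' → N.Cg (G.tp f) (G0.tp f')
  et : ∀ {f f'}, N.Cg f f' → N.Cg (G.et f) (G0.et f')
  ep : ∀ {f f'}, N.Cg f f' → N.Cg (G.ep f) (G0.ep f')
  ka : N.Cg G.ka G0.ka
  si : N.Cg G.si G0.si
  rh : N.Cg G.rh G0.rh
  ta : N.Cg G.ta G0.ta
  ka' : N.Cg G.ka' G0.ka'
  si' : N.Cg G.si' G0.si'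
  rh' : N.Cg G.rh' G0.rh'
  ta' : N.Cg G.ta' G0.ta'
  P0 : N.Cg G.P0 G0.P0
  P1 : N.Cg G.P1 G0.P1
  P2 : N.Cg G.P2 G0.P2
  P3 : N.Cg G.P3 G0.P3
  P4 : N.Cg G.P4 G0.P4

variable {N : Hen S.c} {F F0 : Fr A} {X Y Z U X' Y' Z' U' : Vec A}

theorem Stb.j2 (s : Stb N) (h : ∀ a b, N.Cg (S.g a b) (S0.g a b)) : J2 S0 N :=
  ⟨h, fun e a b => s.L e (h a b), fun f e a b => s.L f (s.L e (h a b))⟩

theorem Same.rw (e : Same S S0) (W : F.WN S0) : F.RW S := by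
  obtain ⟨h1, h2, h3, h4, h5, h6, h7⟩ := W.rw
  have : ∀ X, S0.cv X = S.cv X := fun X => funext fun d => by rw [Geo.cv, Geo.cv, e.c]
  simp only [this, e.H, e.Hb] at h1 h2 h3 h4 h5 h6 h7
  exact ⟨h1, h2, h3, h4, h5, h6, h7⟩

theorem koszul (h : S.Is) (a b d : Fin 4) : ∑ f, S.Γ a b f * S.g f d =
    hf A * (S.L a (S.g b d) + S.L b (S.g a d) - S.L d (S.g a b)) := by
  have e1 := h.compat a b d
  have e2 := h.compat b a d
  have e3 := h.compat d a b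
  have s1 : ∑ f, S.Γ b a f * S.g f d = ∑ f, S.Γ a b f * S.g f d :=
    Finset.sum_congr rfl fun f _ => by rw [h.Γ_symm]
  have s2 : ∑ f, S.Γ d a f * S.g f b = ∑ f, S.Γ a d f * S.g b f :=
    Finset.sum_congr rfl fun f _ => by rw [h.Γ_symm, h.g_symm]
  have s3 : ∑ f, S.Γ d b f * S.g a f = ∑ f, S.Γ b d f * S.g a f :=
    Finset.sum_congr rfl fun f _ => by rw [h.Γ_symm]
  rw [Finset.sum_add_distrib] at e1 e2 e3
  rw [e1, e2, e3, s1, s2, s3]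
  linear_combination -(∑ f, S.Γ a b f * S.g f d) * two_hf (A := A)

theorem dot2 (hg : ∀ a b, N.Cg (S.g a b) (S0.g a b)) (h : N.Cv X X') (h' : N.Cv Y Y') :
    N.Cg (S.dot X Y) (S0.dot X' Y') :=
  .sum _ fun a _ => .sum _ fun b _ => ((hg a b).mul (h a)).mul (h' b)

theorem cv_of_low (h : S.Is) (h0 : S0.Is) (n : F.Nl S) (n0 : F0.Nl S0) (b : Cl N F F0)
    (e : ∀ d, N.Cg (∑ f, Z f * S.g f d) (∑ f, Z' f * S0.g f d)) : N.Cv Z Z' := by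
  have k : ∀ (S : Geo A) (Z X : Vec A), S.dot Z X = ∑ d, (∑ f, Z f * S.g f d) * X d := by
    intro S Z X
    simp only [dot, Fin.sum_univ_four]; ring
  have k2 : ∀ {X X'}, N.Cv X X' → N.Cg (S.dot Z X) (S0.dot Z' X') := fun c => by
    rw [k, k]; exact .sum _ fun d _ => (e d).mul (c d)
  rw [Null.span h n Z, Null.span h0 n0 Z']
  exact (((Hen.Cv.smul (k2 b.n).neg b.l).add (.smul (k2 b.l).neg b.n)).add
    (.smul (k2 b.mb) b.m)).add (.smul (k2 b.m) b.mb)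

theorem an_of (h0 : S0.Is) (hg : ∀ a b, N.Cg (S.g a b) (S0.g a b)) (n0 : F0.Nl S0)
    (b : Cl N F0 F0) : AN N F0 :=
  have n : Null S0 F0.l F0.n F0.m F0.mb := n0
  ⟨(dot2 hg b.l b.l).to n.ll, (dot2 hg b.n b.n).to n.nn, (dot2 hg b.l b.n).to n.ln,
    (dot2 hg b.m b.l).to (n.ml h0), (dot2 hg b.m b.n).to (n.mn h0), (dot2 hg b.m b.m).to n.mm,
    (dot2 hg b.m b.mb).to n.mmb⟩

namespace J2
variable (j : J2 S0 N) (e : Same S S0) (h : S.Is) (h0 : S0.Is) (n : F.Nl S) (n0 : F0.Nl S0)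
  (b : Cl N F F0)
include j e h h0 n n0 b

theorem Γ (a c d : Fin 4) : N.Cg (S.Γ a c d) (S0.Γ a c d) :=
  cv_of_low h h0 n n0 b (fun d => by
    rw [koszul h, koszul h0, e.L]
    exact Hen.cg_hf.mul (((j.g1 a c d).add (j.g1 c a d)).sub (j.g1 d a c))) d

theorem LΓ (f a c d : Fin 4) : N.Cg (S.L f (S.Γ a c d)) (S0.L f (S0.Γ a c d)) := by
  have k : ∀ {S : Geo A}, S.Is → ∀ d, ∑ x, S.L f (S.Γ a c x) * S.g x d =
      hf A * (S.L f (S.L a (S.g c d)) + S.L f (S.L c (S.g a d)) - S.L f (S.L d (S.g a c))) -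
        ∑ x, S.Γ a c x * S.L f (S.g x d) := fun {S} h d => by
    have := congrArg (S.L f) (koszul h a c d)
    have d7 : S.L f (hf A) = 0 := D_alg _ _
    simp only [Fin.sum_univ_four, D_add, D_sub, D_mul, d7] at this ⊢
    linear_combination this
  refine cv_of_low (Z := fun x => S.L f (S.Γ a c x)) (Z' := fun x => S0.L f (S0.Γ a c x))
    h h0 n n0 b (fun d => ?_) d
  rw [k h, k h0, e.L]
  exact (Hen.cg_hf.mul (((j.g2 f a c d).add (j.g2 f c a d)).sub (j.g2 f d a c))).sub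
    (.sum _ fun x _ => (j.Γ e h h0 n n0 b a c x).mul (j.g1 f x d))

theorem R (a c d f : Fin 4) : N.Cg (S.R a c d f) (S0.R a c d f) :=
  ((j.LΓ e h h0 n n0 b a c d f).sub (j.LΓ e h h0 n n0 b c a d f)).add (.sum _ fun x _ =>
    ((j.Γ e h h0 n n0 b c d x).mul (j.Γ e h h0 n n0 b a x f)).sub
      ((j.Γ e h h0 n n0 b a d x).mul (j.Γ e h h0 n n0 b c x f)))

theorem W (h1 : N.Cv X X') (h2 : N.Cv Y Y') (h3 : N.Cv Z Z') (h4 : N.Cv U U') :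
    N.Cg (S.W X Y Z U) (S0.W X' Y' Z' U') :=
  dot2 j.g0 (fun d => .sum _ fun a _ => .sum _ fun c _ => .sum _ fun x _ =>
    (((j.R e h h0 n n0 b a c x d).mul (h1 a)).mul (h2 c)).mul (h3 x)) h4

theorem p : N.Cg (F.p0 S) (F0.p0 S0) ∧ N.Cg (F.p1 S) (F0.p1 S0) ∧ N.Cg (F.p2 S) (F0.p2 S0) ∧
    N.Cg (F.p3 S) (F0.p3 S0) ∧ N.Cg (F.p4 S) (F0.p4 S0) :=
  ⟨(j.W e h h0 n n0 b b.l b.m b.l b.m).neg, (j.W e h h0 n n0 b b.l b.n b.l b.m).neg,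
    j.W e h h0 n n0 b b.n b.mb b.l b.m, (j.W e h h0 n n0 b b.n b.l b.n b.mb).neg,
    (j.W e h h0 n n0 b b.n b.mb b.n b.mb).neg⟩

end J2

/-- The transverse frame of a metric which is close to a metric of type D. -/
theorem full_near {O : Ops S.c} (f : O.Fit N) (j : J2 S0 N) (e : Same S S0) (h : S.Is)
    (h0 : S0.Is) (W : F0.WN S0) (b : Cl N F0 F0) {pi : A} (hp : pi ∈ N.B) (p2 : F0.p2 S0 * pi = 1)
    (p0 : F0.p0 S0 = 0) (p1 : F0.p1 S0 = 0) (p3 : F0.p3 S0 = 0) (p4 : F0.p4 S0 = 0) :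
    Ok O S.R F0 ∧ (F0.full O S.R).WN S ∧ (F0.full O S.R).p1 S = 0 ∧ (F0.full O S.R).p3 S = 0 ∧
      Cl N (F0.full O S.R) F0 := by
  obtain ⟨k1, k2, c⟩ := gsF_cl h f (fun a b => (j.g0 a b).mem) (e.rw W) b (an_of h0 j.g0 W.nl b)
  obtain ⟨a0, a1, a2, a3, a4⟩ := j.p e h h0 (gsF_wn h (e.rw W) k1 k2).nl W.nl c
  have q := Hen.Cg.refl hp
  obtain ⟨k3, -, -, d⟩ := f3_cl (R := S.R) f c ((a2.mul q).to p2)
    ((a0.mul q).to (by rw [p0, zero_mul])) ((a1.mul q).to (by rw [p1, zero_mul]))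
    ((a3.mul q).to (by rw [p3, zero_mul])) ((a4.mul q).to (by rw [p4, zero_mul]))
  have k : Ok O S.R F0 := ⟨k1, k2, k3⟩
  have w := full_wn h (e.rw W) k
  exact ⟨k, w.1, w.2.1, w.2.2, d⟩

section
variable (s : Stb N) (e : Same S S0) (hg : ∀ a b, N.Cg (S.g a b) (S0.g a b))
  (hΓ : ∀ a b d, N.Cg (S.Γ a b d) (S0.Γ a b d)) {u u' : Op A}
  (k : N.Cv u.X u'.X ∧ N.Cg u.a u'.a ∧ N.Cg u.b u'.b)
include s e k

theorem Stb.act {f f' : A} (h : N.Cg f f') : N.Cg (S.act u f) (S0.act u' f') := by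
  rw [act_apply, act_apply, e.L, e.H, e.Hb]
  exact ((Hen.Cg.sum _ fun a _ => (k.1 a).mul (s.L a h)).add (k.2.1.mul (s.H h))).add
    (k.2.2.mul (s.Hb h))

include hΓ
theorem Stb.nab (h : N.Cv Z Z') : N.Cv (S.nab u Z) (S0.nab u' Z') := fun d =>
  (s.act e k (h d)).add (.sum _ fun a _ => .sum _ fun b _ =>
    ((hΓ a b d).mul (k.1 a)).mul (h b))

omit k
include hg
theorem Stb.hat (b : Cl N F F0) (h : N.Cv X X') :
    N.Cv (hat S F.l F.n F.m F.mb X).X (hat S0 F0.l F0.n F0.m F0.mb X').X ∧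
    N.Cg (hat S F.l F.n F.m F.mb X).a (hat S0 F0.l F0.n F0.m F0.mb X').a ∧
    N.Cg (hat S F.l F.n F.m F.mb X).b (hat S0 F0.l F0.n F0.m F0.mb X').b :=
  have z : N.Cg 0 0 := .refl (zero_mem _)
  have a1 := dot2 hg (s.nab e hΓ (u := ⟨X, 0, 0⟩) (u' := ⟨X', 0, 0⟩) ⟨h, z, z⟩ b.l) b.n
  have a2 := dot2 hg (s.nab e hΓ (u := ⟨X, 0, 0⟩) (u' := ⟨X', 0, 0⟩) ⟨h, z, z⟩ b.m) b.mb
  ⟨h, Hen.cg_hf.mul (a1.sub a2), Hen.cg_hf.mul (a1.add a2)⟩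
end

/-- Close metrics and close null frames have close GHP data. -/
theorem ghp_cl (s : Stb N) (e : Same S S0) (h : S.Is) (h0 : S0.Is)
    (hg : ∀ a b, N.Cg (S.g a b) (S0.g a b)) (n : F.Nl S) (n0 : F0.Nl S0) (b : Cl N F F0) :
    GCl N (F.ghp S) (F0.ghp S0) := by
  have j := s.j2 hg
  have hΓ := j.Γ e h h0 n n0 b
  have u0 := s.hat e hg hΓ b b.l
  have u1 := s.hat e hg hΓ b b.n
  have u2 := s.hat e hg hΓ b b.m
  have u3 := s.hat e hg hΓ b b.mb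
  obtain ⟨a0, a1, a2, a3, a4⟩ := j.p e h h0 n n0 b
  exact ⟨s.act e u0, s.act e u1, s.act e u2, s.act e u3,
    (dot2 hg (s.nab e hΓ u0 b.l) b.m).neg, (dot2 hg (s.nab e hΓ u2 b.l) b.m).neg,
    (dot2 hg (s.nab e hΓ u3 b.l) b.m).neg, (dot2 hg (s.nab e hΓ u1 b.l) b.m).neg,
    (dot2 hg (s.nab e hΓ u1 b.n) b.mb).neg, (dot2 hg (s.nab e hΓ u3 b.n) b.mb).neg,
    (dot2 hg (s.nab e hΓ u2 b.n) b.mb).neg, (dot2 hg (s.nab e hΓ u0 b.n) b.mb).neg,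
    a0, a1, a2, a3, a4⟩

end Vale.Agent.P354XD
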