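import Vale.Agent.P354XD.Kc
import Vale.Agent.P354F2.Parts2

/-!
NTW and LAF: the two comparisons from the comparison along families.
-/

set_option linter.all false

open Set Filter Topology

noncomputable section

namespace Vale.Agent.P354XD

open Vale.Agent.P354XE (Tw gin rd)
open Vale.Agent.P354XG Vale.Agent.P354XR
open Vale.Agent.P354Z (An uu)
open Vale.Agent.P354F2 Vale.Agent.P354RI
open Vale.Agent.P354YO (sh IsTh)

/-- The data at a point. -/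
structure Ixp where
  O : Set E6
  g : Tw
  M : ℝ
  a : ℝ
  A : ℝ → ℝ
  B : ℝ → ℝ
  x : E6
  d : ℝ

/-- The hypotheses, in the scale c. -/
structure Ixp.Ok (i : Ixp) (M0 R : ℝ) (n : ℕ) (c : ℝ) : Prop where
  pre : _root_.Vale.Agent.P354F2.Pre M0 R i.O i.g
  th : IsTh M0 i.M i.a i.A i.B
  aM : |i.a| < i.M
  M5 : i.M ≤ 5 / 4 * M0
  d : i.d ∈ Icc 0 1
  jw : ∀ y ∈ Seg M0 R i.x, Jw (n + 2) c (i.g - P354XE.pb (sh i.A i.B) (gin i.M i.a)) (pj y) (i.d / c)
  mem : i.x ∈ i.O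
  an : An i.x
  b : 0 ≤ uu M0 i.x + i.x.2.1

theorem par_near {M0 a0 : ℝ} (h : |a0| < M0) : ∃ e > 0, ∀ M a, |M - M0| + |a - a0| ≤ e →
    |a| < M ∧ M ≤ 5 / 4 * M0 := by
  have := abs_nonneg a0
  refine ⟨(M0 - |a0|) / 4, by linarith, fun M a e => ?_⟩
  have := abs_sub_abs_le_abs_sub a a0
  have := abs_nonneg (a - a0)
  have := le_abs_self (M - M0)
  have := neg_abs_le (M - M0)
  exact ⟨by linarith, by linarith⟩

theorem ntw : NTW := fun _ M0 a0 R F h hR f n => ⟨n + 2, fun ρ => by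
  have R1 : 1 ≤ R := by linarith [abs_nonneg a0]
  obtain ⟨e1, p1, k1⟩ := par_near h
  obtain ⟨e, p, C, k⟩ := f n (max ρ 1) {i : Ixp // i.Ok M0 R n 1 ∧ R ≤ i.x.2.1 ∧ i.x.2.1 ≤ ρ}
    (fun i => i.1.O) (fun i => Seg M0 R i.1.x) (fun _ => 1) (fun i => i.1.d) (fun i => i.1.M)
    (fun i => i.1.a) (fun i => i.1.g) (fun i => i.1.A) (fun i => i.1.B)
    (fm_near R1 (fun i => i.2.1.pre.co) (fun i => i.2.1.pre.star) (fun i => i.2.1.mem)
      (fun i => i.2.1.an) (fun i => i.2.1.b) fun i => i.2.2)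
    fun i => ⟨i.2.1.pre, i.2.1.th, i.2.1.aM, i.2.1.M5, i.2.1.d, i.2.1.jw⟩
  refine ⟨C, min e (min e1 1), lt_min p (lt_min p1 one_pos),
    fun O g M a A B pre th par x hx an r b r' d hd bd i => ?_⟩
  obtain ⟨a1, a2⟩ := k1 M a (par.trans ((min_le_right _ _).trans (min_le_left _ _)))
  exact (k ⟨⟨O, g, M, a, A, B, x, d⟩, ⟨pre, th, a1, a2, ⟨hd.1, hd.2.trans ((min_le_right _ _).trans
    (min_le_right _ _))⟩, fun y hy => by simpa only [div_one] using jw_bd (bd y hy), hx, an, b⟩,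
    r, r'⟩ (hd.2.trans (min_le_left _ _)) x (seg_self _ _ _) i).2 rfl⟩

theorem laf : LAF := fun _ J M0 a0 R F h hR f n => ⟨n + 2, by
  have R1 : 1 ≤ R := by linarith [abs_nonneg a0]
  obtain ⟨e1, p1, k1⟩ := par_near h
  obtain ⟨C2, c2, e2, p2, k2⟩ := J.2 M0 a0 R (n + 2) h hR
  obtain ⟨e, p, C, k⟩ := f n 2 {i : Ixp // i.Ok M0 R n i.x.2.1 ∧ 2 * R ≤ i.x.2.1 ∧
      uu M0 i.x + i.x.2.1 ≤ i.x.2.1 / 10}
    (fun i => i.1.O) (fun i => Seg M0 R i.1.x) (fun i => i.1.x.2.1) (fun i => i.1.d)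
    (fun i => i.1.M) (fun i => i.1.a) (fun i => i.1.g) (fun i => i.1.A) (fun i => i.1.B)
    (fm_lay R1 (fun i => i.2.1.pre.co) (fun i => i.2.1.pre.star) (fun i => i.2.1.mem)
      (fun i => i.2.1.an) (fun i => i.2.1.b) (fun i => i.2.2.1) fun i => i.2.2.2)
    fun i => ⟨i.2.1.pre, i.2.1.th, i.2.1.aM, i.2.1.M5, i.2.1.d, i.2.1.jw⟩
  have q : 0 < min e 1 / (2 * C2 + 1) := div_pos (lt_min p one_pos) (by linarith)
  refine ⟨C * C2, min (min e 1 / (2 * C2 + 1)) (min e1 e2), lt_min q (lt_min p1 p2),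
    fun O g gc M a A B pre th par x hx an r b l d hd sm i => ?_⟩
  obtain ⟨a1, a2⟩ := k1 M a (par.trans ((min_le_right _ _).trans (min_le_left _ _)))
  obtain ⟨A', B', t⟩ := J.1 M0 M a ((abs_nonneg _).trans_lt h)
  have s : C2 * (d + |M - M0| + |a - a0|) ≤ min e 1 := by
    have b1 := (le_div_iff₀ (by linarith)).1 (hd.2.trans (min_le_left _ _))
    have b2 := (le_div_iff₀ (by linarith)).1 (par.trans (min_le_left _ _))
    nlinarith [hd.1, abs_nonneg (M - M0), abs_nonneg (a - a0)]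
  have := (k ⟨⟨O, g, M, a, A', B', x, C2 * (d + |M - M0| + |a - a0|)⟩, ⟨pre, t, a1, a2,
    ⟨by have := hd.1; positivity, s.trans (min_le_right _ _)⟩, fun y hy => by
      have m := pre.star x hx hy
      have e := rd_pj (pre.co.pos y m).1 (pre.co.pos y m).2
      obtain ⟨y1, -⟩ := (seg_lay R1 r b l).2 y hy
      exact k2 g gc M a A B A' B' (pj y) _ d th t (par.trans ((min_le_right _ _).trans
        (min_le_right _ _))) (by rw [e]; linarith) (by show 1 ≤ x.2.1; linarith)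
        (by rw [e]; show x.2.1 ≤ _; linarith) hd.1 (pre.lv y m) (sm y hy).1 (sm y hy).2,
    hx, an, b⟩, r, l⟩ (s.trans (min_le_left _ _)) x (seg_self _ _ _) i).1
  rw [mul_assoc]
  exact this⟩

end Vale.Agent.P354XD
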