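import Vale.Agent.P354XD.GrB

/-!
The transport along the outgoing rays in algebraic form.
-/

set_option linter.all false

namespace Vale.Agent.P354XD

open Vale.Agent.P354XG Vale.Agent.P354XG.Geo Vale.Agent.P354XR Fr Matrix
open Vale.Agent.P354CV (Spn spn_V spn_H spn_ghp spn_kerr)
open Vale.Agent.P354Z (cm dat f4 sc)
open Vale.Agent.P354YK (out oth otp oet oep orh orh2 ga gab gO frO pin)
open Vale.Agent.P354DR (dd)

variable {A : Type} [CommRing A] [Algebra ℂ A] {K : Hp A} {p : Pm A}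

/-- The data of the transport: N are the a priori small elements, M the small ones, I0 those which
are small at the anchor. -/
structure Ga (N M : Hen K.c) (I0 : AddSubgroup A) (p : Pm A) (Di Mi : A)
    (g : Fin 4 → Fin 4 → A) (Γ : Fin 4 → Fin 4 → Fin 4 → A) (F1 F2 : Fr A) : Prop where
  k : K.Is
  q : p.Is K
  B : M.B = N.B
  hb : HB K N.B
  pb : PB p N.B
  hD : (kk K p).De * Di = 1
  bD : Di ∈ N.B
  hM : p.M * Mi = 1
  bM : Mi ∈ N.B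
  s : (K.geo g Γ).Is
  w1 : F1.Nl (K.geo g Γ)
  w2 : F2.WN (K.geo g Γ)
  P1 : (F1.ghp (K.geo g Γ)).P1 = 0
  P3 : (F1.ghp (K.geo g Γ)).P3 = 0
  th : (F2.ghp (K.geo g Γ)).th = oth (kk K p)
  ka : (F2.ghp (K.geo g Γ)).ka = 0
  ta : (F2.ghp (K.geo g Γ)).ta' = (kk K p).ta2
  d : ∀ i {f f'}, N.Cg f f' → N.Cg (K.d i f) (K.d i f')
  t : Trp M (oth (kk K p)) I0
  a1 : ∀ i, dd K (pin K p Di) (F1.ghp (K.geo g Γ)) i ∈ N.I
  a2 : ∀ i, dO K p (F2.ghp (K.geo g Γ)) i ∈ N.I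
  e0 : (F1.ghp (K.geo g Γ)).P0 ∈ M.I
  e4 : (F1.ghp (K.geo g Γ)).P4 ∈ M.I
  an : ∀ i, dO K p (F2.ghp (K.geo g Γ)) i ∈ I0

theorem cl_gO {N : Hen K.c} {Di : A} {g : Fin 4 → Fin 4 → A} {Γ : Fin 4 → Fin 4 → Fin 4 → A}
    {F : Fr A} (k : K.Is) (q : p.Is K) (hb : HB K N.B) (pb : PB p N.B) (hD : (kk K p).De * Di = 1)
    (bD : Di ∈ N.B) (s : (K.geo g Γ).Is) (w : F.Nl (K.geo g Γ))
    (c : Cl (S := K.geo g Γ) N F (frO K p)) (a b : Fin 4) : N.Cg (g a b) (gK K (pin K p Di) a b) := by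
  have e := P354YK.gO_eq k q hD
  have n := (P354YK.frO_wn k q Γ).nl
  rw [e] at n
  exact cl_met (S := K.geo g Γ) (S0 := K.geo _ Γ) s w n (P354BO.c_gK k (pin_is k q hD))
    P354BO.gK_symm (hb.gK (pin_pb hb pb bD)) c a b

namespace Ga
variable {N M : Hen K.c} {I0 : AddSubgroup A} {Di Mi : A} {g : Fin 4 → Fin 4 → A}
  {Γ : Fin 4 → Fin 4 → Fin 4 → A} {F1 F2 : Fr A} (h : Ga N M I0 p Di Mi g Γ F1 F2)
include h

theorem c1 : Gcl N (F1.ghp (K.geo g Γ)) (kk K (pin K p Di)).kerr :=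
  have b := pin_pb h.hb h.pb h.bD
  gcl_of h.k h.hb b (spn_ghp h.k g Γ F1) (spn_kerr h.k) (kerr_z h.k h.hb b)
    (fun i => (sc_bd h.hb b i).2) h.a1

theorem c2 : Gcl N (F2.ghp (K.geo g Γ)) (out (kk K p)) :=
  gcl_of h.k h.hb h.pb (spn_ghp h.k g Γ F2) (spn_out h.k) (out_z h.k h.hb h.pb)
    (fun i => (sc_bd h.hb h.pb i).1) h.a2

theorem sq : ∃ cc ∈ M.B, (F2.ghp (K.geo g Γ)).P0 - cc * (F2.ghp (K.geo g Γ)).P1 ^ 2 ∈ M.I := by
  have b1 : Cl (S := K.geo g Γ) N F1 (frK K (pin K p Di)) := h.c1.cl h.k h.hb h.d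
  have b2 : Cl (S := K.geo g Γ) N F2 (frO K p) := h.c2.cl h.k h.hb h.d
  have hg := fun a b => (cl_gO h.k h.q h.hb h.pb h.hD h.bD h.s h.w2.nl b2 a b).mem
  have ba : (K.z 1 * K.z 1 + p.a * p.a * K.kc.x * K.kc.x) * Di ∈ N.B := mul_mem (add_mem
    (mul_mem h.hb.z1 h.hb.z1) (mul_mem (mul_mem (mul_mem h.pb.a h.pb.a) h.hb.x) h.hb.x)) h.bD
  have bb : p.sg * (kk K p).De ∈ N.B := mul_mem h.pb.sg (kk_bd h.hb h.pb).2.2.2.1
  have ab : (K.z 1 * K.z 1 + p.a * p.a * K.kc.x * K.kc.x) * Di * (p.sg * (kk K p).De) = 1 := by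
    linear_combination (kk K p).De * Di * h.q.hg + h.hD
  have cb : K.c (p.sg * (kk K p).De) = p.sg * (kk K p).De := by
    have := (kk_is h.k h.q).tab
    simp only [KC.De, map_add, map_sub, map_mul, map_ofNat]
    obtain ⟨r, -, -, -, -, -, s, a, m, -⟩ := this.2.2.2.2.2.2.2.2.2.2.2.2.2.2.2.2.2.2.2.2.2.2.2.2.2.2.2.2.2.2.2.2.2.2.2.2.2.2.2.2.2.2.2.2.2.2.2.2.2.2.2.2.2.2
    exact congrArg₂ _ s (congrArg₂ _ (congrArg₂ _ (congrArg₂ _ r r)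
      (congrArg₂ _ (congrArg _ m) r)) (congrArg₂ _ a a))
  have o : (1 : A) * (K.geo g Γ).c 1 = 1 := by rw [map_one, one_mul]
  have b3 := b1.bo (.refl ba) (.refl bb) Hen.cg_one
  rw [frK_bo h.k h.q h.hD] at b3
  obtain ⟨a0, a1, a2, a3, a4⟩ := p_bo (F := F1) ab o
  have z3 : ((kk K p).z * (K.z 1 - ii A * p.a * K.kc.x)) ^ 3 = 1 := by
    have := (kk_is h.k h.q).z_ze
    exact (congrArg (· ^ 3) this).trans (one_pow 3)
  obtain ⟨u, hu, bu⟩ := (h.c1.s 10).inv (b' := -(hf A * Mi * (K.z 1 - ii A * p.a * K.kc.x) ^ 3))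
    (by
      change -(2 * p.M * (kk K p).z * (kk K p).z * (kk K p).z) * _ = 1
      linear_combination two_hf (A := A) + 2 * hf A * h.hM + 2 * hf A * p.M * Mi * z3)
    (neg_mem (mul_mem (mul_mem hf_mem h.bM)
      (pow_mem (sub_mem h.hb.z1 (mul_mem (mul_mem ii_mem h.pb.a) h.hb.x)) 3)))
  refine p0_sq (S := K.geo g Γ) h.B h.s hg (h.w1.bo h.s ab (c_inv h.s ((mul_comm _ _).trans ab) cb) o)
    h.w2.nl (b2.trans b3.symm) (pi := u) (a2 ▸ hu) (a2 ▸ (h.c1.s 10).mem) bu.mem ?_ ?_ ?_ ?_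
  · exact a0 ▸ M.mul _ (h.B ▸ pow_mem (mul_mem ba (one_mem _)) 2) _ h.e0
  · rw [a4, map_one]
    exact M.mul _ (h.B ▸ pow_mem (mul_mem bb (one_mem _)) 2) _ h.e4
  · exact a1.trans (mul_eq_zero_of_right _ h.P1)
  · exact a3.trans (mul_eq_zero_of_right _ h.P3)

theorem gp : Gp M I0 (F2.ghp (K.geo g Γ)) (out (kk K p)) := by
  have c := h.c2
  have u : ∀ {E E0}, DCl N E E0 → DCl M E E := fun d =>
    ⟨d.s, d.s, fun i => .refl (h.B ▸ (d.z i).mem)⟩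
  have hb : HB K M.B := h.B ▸ h.hb
  have pb : PB p M.B := h.B ▸ h.pb
  have z := fun a => z_sub (N := M) h.k hb pb h.t.mul (c.f a).s (c.f a).s0 fun e => h.an (.inl (a, e))
  exact ⟨h.w2.is h.s, P354YK.out_is (kk_is h.k h.q), rfl, rfl, h.th.symm, rfl, rfl, h.ka, rfl,
    h.ta.symm, rfl, rfl, rfl, rfl, u (c.f 0),
    ⟨(spn_H h.k).1, (spn_H h.k).1, fun i => .refl (bs_z h.k hb pb 4 i)⟩,
    ⟨(spn_H h.k).2, (spn_H h.k).2, fun i => .refl (bs_z h.k hb pb 5 i)⟩, (c.f 1).s, (c.f 2).s,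
    u (c.f 3), u (c.f 1).symm, u (c.f 2).symm, (c.f 3).s0, fun i => h.B ▸ (c.s i).mem,
    fun i => h.B ▸ (c.s i).1, z 1, z 2, fun i => h.an (.inr i)⟩

theorem gcl : Gcl M (F2.ghp (K.geo g Γ)) (out (kk K p)) := by
  obtain ⟨cc, b, e⟩ := h.sq
  have t := h.t
  rw [← h.th] at t
  obtain ⟨a, a'⟩ := h.gp.p1 t b e
  exact h.gp.gc t a a' h.k

/-- The frame along the rays. -/
theorem far (i : (Fin 4 × Fin 6) ⊕ Fin 13) : dO K p (F2.ghp (K.geo g Γ)) i ∈ M.I :=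
  (h.gcl.dat (h.B ▸ h.hb) (h.B ▸ h.pb) i).2

/-- The metric. -/
theorem met (a b : Fin 4) : M.Cg (g a b) (gK K (pin K p Di) a b) :=
  cl_gO h.k h.q (h.B ▸ h.hb) (h.B ▸ h.pb) h.hD (h.B ▸ h.bD) h.s h.w2.nl
    (h.gcl.cl h.k (h.B ▸ h.hb) h.t.d) a b

end Ga

/-- The transverse frame of a metric which is close to Kerr. -/
theorem near_dd {g : Fin 4 → Fin 4 → A} {Γ Γ0 : Fin 4 → Fin 4 → Fin 4 → A} {N : Hen K.c}
    {O : Ops (K.geo g Γ).c} (f : O.Fit N) (k : K.Is) (q : p.Is K) (hb : HB K N.B) (pb : PB p N.B)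
    {Mi : A} (hM : p.M * Mi = 1) (bM : Mi ∈ N.B) (h : (K.geo g Γ).Is)
    (h0 : (K.geo (gK K p) Γ0).Is) (d : ∀ i {f f'}, N.Cg f f' → N.Cg (K.d i f) (K.d i f'))
    (hg : ∀ a b, N.Cg (g a b) (gK K p a b)) (i : (Fin 4 × Fin 6) ⊕ Fin 13) :
    dd K p (((frK K p).full O (K.geo g Γ).R).ghp (K.geo g Γ)) i ∈ N.I := by
  have s := HB.stb (g := g) (Γ := Γ) (N := N) hb d
  obtain ⟨-, w, -, -, c⟩ := near_K f k q hb pb hM bM rfl h h0 (s.j2 hg)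
  exact (((ghp_K s k q rfl h h0 hg w.nl c).gcl k hb (spn_kerr k) c).dat hb pb i).2

end Vale.Agent.P354XD
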