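import Vale.Agent.P354XD.NoA
import Vale.Agent.P354XD.GrC
import Vale.Agent.P354MG.Gg

/-!
The transverse frame in the chart of the estimates.
-/

set_option linter.all false

open scoped ContDiff
open Set Filter Topology

noncomputable section

namespace Vale.Agent.P354XD

open Vale.Agent.P354n (R4)
open Vale.Agent.P354RC (bs)
open Vale.Agent.P354XE (Tw gin)
open Vale.Agent.P354XG hiding Dom Dom0 Bd bdSub domI Keeps Low dom0_mk dom0_zero dom0_cst dom_of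
  dom_zero dom_cst bd_alg dom_sum dom0_sum keeps_pd keeps_zero keeps_sum bd_closure dom_pb_aff
  bd_fn bd_par Conn gron gron0 dom_of_sys dom_sub_ev0
open Vale.Agent.P354MG hiding Sml
open Vale.Agent.P354XR hiding pw
open Vale.Agent.P354XI Vale.Agent.P354YA Vale.Agent.P354CV
open Vale.Agent.P354Z (hs js pI kI ge Cone lt f4 q2 dat An)
open Vale.Agent.P354YO (IsTh)
open Vale.Agent.P354XO (sc sc_inv nq_sc pj_sc)
open Vale.Agent.P354DR (dd)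

/-- The transverse frame near Kerr has an invertible P2. -/
theorem near_p2 {A : Type} [CommRing A] [Algebra ℂ A] {K : Hp A} {p : Pm A}
    {g : Fin 4 → Fin 4 → A} {Γ Γ0 : Fin 4 → Fin 4 → Fin 4 → A} {N : Hen (K.geo g Γ).c}
    {O : Ops (K.geo g Γ).c} (f : O.Fit N) (k : K.Is) (q : p.Is K) (hb : HB K N.B) (pb : PB p N.B)
    {Mi : A} (hM : p.M * Mi = 1) (bM : Mi ∈ N.B) (h : (K.geo g Γ).Is)
    (h0 : (K.geo (gK K p) Γ0).Is) (j : J2 (K.geo (gK K p) Γ0) N) :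
    (frK K p).Ok O (K.geo g Γ).R ∧
      IsUnit (((frK K p).full O (K.geo g Γ).R).ghp (K.geo g Γ)).P2 := by
  obtain ⟨o, w, -, -, c⟩ := near_K f k q hb pb hM bM rfl h h0 j
  have e := (j.p same_geo h h0 w.nl (frK_wn k q Γ0).nl c).2.2.1
  rw [← ((frK K p).ghp_P (K.geo (gK K p) Γ0)).2.2.1, ghp_frK k q h0] at e
  have z3 : ((kk K p).z * (K.z 1 - ii A * p.a * K.kc.x)) ^ 3 = 1 :=
    (congrArg (· ^ 3) (kk_is k q).z_ze).trans (one_pow 3)
  refine ⟨o, (e.rinv (b' := -(Geo.hf A * Mi * (K.z 1 - ii A * p.a * K.kc.x) ^ 3)) ?_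
    (neg_mem (mul_mem (mul_mem hf_mem bM)
      (pow_mem (sub_mem hb.z1 (mul_mem (mul_mem ii_mem pb.a) hb.x)) 3)))).1⟩
  change -(2 * p.M * (kk K p).z * (kk K p).z * (kk K p).z) * _ = 1
  linear_combination Geo.two_hf (A := A) + 2 * Geo.hf A * hM + 2 * Geo.hf A * p.M * Mi * z3

variable {J : Type} {F : Filter J} {K : J → Set E6} [Gr F] {μ : ℕ → J → ℝ} {M a : J → ℝ} {M0 : ℝ}

namespace Reg
variable (r : Reg F K M a)
include r

theorem bd_f3 {φ : ℝ × ℝ × ℝ → ℝ} (hφ : ContDiff ℝ ∞ φ) : Bd (fm3 (nb F K) M a φ) := by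
  let u : Fin 3 → Sm (nb F K) := ![cst fun j => M j, cst fun j => a j, (hp _).z 1]
  have b : ∀ i, Bd (u i) := fun i => by
    fin_cases i
    exacts [r.bd_M, r.bd_a, r.hb.z1]
  have s : ContDiff ℝ ∞ fun z : Fin 3 → ℂ => (φ ((z 0).re, (z 1).re, (z 2).re) : ℂ) :=
    Complex.ofRealCLM.contDiff.comp (hφ.comp
      ((Complex.reCLM.contDiff.comp (contDiff_apply ℝ ℂ 0)).prodMk
        ((Complex.reCLM.contDiff.comp (contDiff_apply ℝ ℂ 1)).prodMk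
          (Complex.reCLM.contDiff.comp (contDiff_apply ℝ ℂ 2)))))
  rw [(rs_f3' hφ).ext (rs_cmp (u := u) isOpen_univ s.contDiffOn
    (Eventually.of_forall fun _ _ _ => trivial)) (by
      filter_upwards [rs_cst (G := nb F K) fun j => M j, rs_cst (G := nb F K) fun j => a j,
        rs_z (G := nb F K) 1] with p h1 h2 h3
      simp [vec, u, h1, h2, h3, zc])]
  refine bd_cmp isOpen_univ s.contDiffOn (fun i v => (b i).pd v) ?_
  filter_upwards [eventually_all.2 fun i => (b i).dom0] with k h θ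
  choose C c0 h using fun i => h i θ
  refine ⟨_, isCompact_univ_pi fun i => isCompact_closedBall 0 (C i), subset_univ _,
    (eventually_all.2 h).mono fun j h x hx i _ => ?_⟩
  simpa [w1, vec] using h i x hx

theorem pbF (h0 : 0 < M0) : PB (pFm (nb F K) M0 M a) (bdSub F K) :=
  ⟨r.pb.a, r.pb.M, r.pb.sg, r.bd_f3 (hs_cd h0), r.bd_f3 (js_cd h0)⟩

theorem keeps_lt (h0 : 0 < M0) (hμ : Wgt μ) (i : Fin 5) (f : Sm (nb F K)) (h : Dom μ f) :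
    Dom μ (lt (hp _) (pFm (nb F K) M0 M a) i f) := by
  have k := hp_is r.pos.off
  have d : ∀ i e, e ≠ 0 → Keeps ((hp (nb F K)).z e • (hp (nb F K)).d i) := fun i e he =>
    Keeps.smul (fun _ hμ _ h => r.keeps hμ i h) (r.hb.z e he)
  have b : Bd (Geo.hf (Sm (nb F K))) := bd_alg _
  have c : Bd (Geo.hf (Sm (nb F K)) * ii _) := Dom.bmul wgt_one b (bd_alg _)
  fin_cases i
  · exact r.keeps hμ 0 h
  · have e : (kk (hp _) (pFm (nb F K) M0 M a)).R f = (kk (hp _) (pFm (nb F K) M0 M a)).V 0 1 0 0 0 0 f := by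
      simp [KC.V_ap]
    refine (congrArg (Dom μ) (e.trans (spn_V k _ _ _ _ _ _ f))).mpr
      (dom_sum hμ _ fun e _ => Dom.bmul hμ (V_z k r.hb (r.pbF h0) (zero_mem _) (one_mem _)
        (zero_mem _) (zero_mem _) (zero_mem _) (zero_mem _) e) (r.keeps hμ e h))
  · exact (((((d 4 5 (by decide)).add (d 5 4 (by decide))).sub (d 2 3 (by decide))).sub
      (d 3 2 (by decide))).smul c) μ hμ f h
  · exact (((((d 3 2 (by decide)).sub (d 2 3 (by decide))).add (d 5 4 (by decide))).sub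
      (d 4 5 (by decide))).smul b) μ hμ f h
  · exact (((((d 3 3 (by decide)).sub (d 2 2 (by decide))).add (d 4 4 (by decide))).sub
      (d 5 5 (by decide))).smul c) μ hμ f h

variable {g g0 : J → Tw} (hv : ∀ᶠ j in F, ∀ x ∈ K j, VacAt (g j) (pj x))
  (h0 : ∀ᶠ j in F, ∀ x ∈ K j, VacAt (g0 j) (pj x))
  (b0 : ∀ b d, Bd ((geo (nb F K) (1 / 2) g0).g b d)) (hμ : Wgt μ) (h : P354MG.Sml F μ)
include hv h0 b0

theorem cg0 (hf : ∀ᶠ q in gr, ∀ θ, ∃ C, 0 ≤ C ∧ ∀ᶠ j in ph F q.2 θ, ∀ x ∈ K j,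
      P354XE.Bd q.1 (g j - g0 j) (pj x) (C * μ q.2 j)) (b d : Fin 4) :
    (henG K hμ h).Cg ((geo (nb F K) (1 / 2) g).g b d) ((geo (nb F K) (1 / 2) g0).g b d) := by
  refine ⟨b0 b d, ?_⟩
  rw [geo_sub r.pos.off (r.vac hv) (r.vac h0)]
  refine Dom.bmul hμ (bd_alg _) (r.dom_pb hμ ((hv.and h0).mono fun j e x hx =>
    ((e.1 x hx).ev.and (e.2 x hx).ev).mono fun y e =>
      (e.1.sm_g b d).sub (e.2.sm_g b d)) (hf.mono fun q h θ => (h θ).imp fun C h =>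
        ⟨h.1, h.2.mono fun j h x hx m hm => ?_⟩))
  exact (h x hx m hm (bs b) (bs d)).trans_eq (by rw [norm_bs, norm_bs, mul_one, mul_one])

theorem j20 (hf : ∀ᶠ k in atTop, ∀ θ, ∃ C, 0 ≤ C ∧ ∀ᶠ j in ph F k θ, ∀ x ∈ K j,
      P354XE.Bd 2 (g j - g0 j) (pj x) (C * μ k j)) :
    J2 (S := geo (nb F K) (1 / 2) g) (geo (nb F K) (1 / 2) g0) (henG0 K hμ h) := by
  have sb : ∀ b d, SmB (nb F K) fun j => gc (g j - g0 j) b d := fun b d =>
    ((r.vac hv).and (r.vac h0)).mono fun y e => (e.1.sm_g b d).sub (e.2.sm_g b d)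
  have s := (r.stb hμ h (1 / 2) g).L
  have b1 := fun b d => Hen.Cg.refl (N := henG K hμ h) (b0 b d)
  have n : ∀ {f : R4 → ℝ} {y}, ContDiffAt ℝ ∞ f y → ∀ k e,
      ‖iteratedFDeriv ℝ k (db e f) y‖ ≤ ‖iteratedFDeriv ℝ (k + 1) f y‖ := fun hf k e =>
    (norm_fd hf k (bs e)).trans_eq (by rw [norm_bs, one_mul])
  have e0 := geo_sub (g' := g0) r.pos.off (r.vac hv) (r.vac h0)
  have e1 := fun e b d => (map_sub ((hp (nb F K)).L e) _ _).symm.trans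
    ((congrArg _ (e0 b d)).trans (r.L_half e (sb b d)))
  have e2 := fun f e b d => (map_sub ((hp (nb F K)).L f) _ _).symm.trans
    ((congrArg _ (e1 e b d)).trans (r.L_half f ((sb b d).db e)))
  exact ⟨fun b d => ⟨Dom.dom0 (b1 b d).1, (congrArg (Dom0 μ) (e0 b d)).mpr
      (r.dom0_pb hμ hf 0 b d (by norm_num) (sb b d) (Eventually.of_forall fun p => le_rfl))⟩,
    fun e b d => ⟨Dom.dom0 (s e (b1 b d)).1, (congrArg (Dom0 μ) (e1 e b d)).mpr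
      (r.dom0_pb hμ hf 1 b d (by norm_num) ((sb b d).db e) ((sb b d).mono fun p h => n h 0 e))⟩,
    fun f e b d => ⟨Dom.dom0 (s f (s e (b1 b d))).1, (congrArg (Dom0 μ) (e2 f e b d)).mpr
      (r.dom0_pb hμ hf 2 b d le_rfl (((sb b d).db e).db f) (((sb b d).and ((sb b d).db e)).mono
        fun p h => (n h.2 0 f).trans (n h.1 1 e)))⟩⟩

end Reg

section
variable (r : Reg F K M a) (h0 : 0 < M0) {g : J → Tw} {A B : J → ℝ → ℝ}
  (hv : ∀ᶠ j in F, ∀ x ∈ K j, VacAt (g j) (pj x))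
  (t : ∀ᶠ j in F, IsTh M0 (M j) (a j) (A j) (B j)) (hμ : Wgt μ) (h : P354MG.Sml F μ)
include r h0 t

theorem Reg.kE : (∀ᶠ j in F, ∀ x ∈ K j, VacAt (kE (M j) (a j) (A j) (B j)) (pj x)) ∧
    (geo (nb F K) (1 / 2) fun j => kE (M j) (a j) (A j) (B j)).g =
      gK (hp _) (pFm (nb F K) M0 M a) :=
  ⟨(t.and (ev_nb_on r.pos)).mono fun j e x hx => vac_kE h0 e.1 (e.2 x hx), funext₂
    (kE_eq h0 r.pos (ev_nb.2 (t.mono fun j e x _ => Eventually.of_forall fun _ => e)))⟩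

theorem Reg.kE_is : ((hp (nb F K)).geo (gK (hp _) (pFm (nb F K) M0 M a))
    (geo (nb F K) (1 / 2) fun j => P354MG.kE (M j) (a j) (A j) (B j)).Γ).Is := by
  rw [← (r.kE h0 t).2]
  exact geo_is r.pos.off _ (r.vac (r.kE h0 t).1)

include hv hμ h

theorem Reg.nearE0 (hf : ∀ᶠ k in atTop, ∀ θ, ∃ C, 0 ≤ C ∧ ∀ᶠ j in ph F k θ, ∀ x ∈ K j,
      P354XE.Bd 2 (g j - P354MG.kE (M j) (a j) (A j) (B j)) (pj x) (C * μ k j)) :
    OkF (nb F K) M0 M a g ∧ IsUnit (eG (nb F K) M0 M a g).P2 := by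
  obtain ⟨Mi, bM, hM⟩ := r.Mi
  obtain ⟨v, e⟩ := r.kE h0 t
  have b := r.hb
  have q := r.pbF h0
  have j := r.j20 hv v (fun b d => by rw [e]; exact r.hb.gK q b d) hμ h hf
  refine near_p2 (K := hp (nb F K)) (N := henG0 K hμ h) (fit_G0 hμ h) (hp_is r.pos.off)
    (pF_is r.pos h0 M a) ⟨fun i hi => Dom.dom0 (b.z i hi), Dom.dom0 b.ri, Dom.dom0 b.Ni⟩
    ⟨Dom.dom0 q.a, Dom.dom0 q.M, Dom.dom0 q.sg, Dom.dom0 q.h1, Dom.dom0 q.j1⟩ hM bM.dom0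
    (geo_is r.pos.off _ (r.vac hv)) (r.kE_is h0 t) ?_
  rw [← e]
  exact j

theorem Reg.nearE (hf : ∀ᶠ q in gr, ∀ θ, ∃ C, 0 ≤ C ∧ ∀ᶠ j in ph F q.2 θ, ∀ x ∈ K j,
      P354XE.Bd q.1 (g j - P354MG.kE (M j) (a j) (A j) (B j)) (pj x) (C * μ q.2 j))
    (i : (Fin 4 × Fin 6) ⊕ Fin 13) :
    Dom μ (dd (hp _) (pFm (nb F K) M0 M a) (eG (nb F K) M0 M a g) i) := by
  obtain ⟨Mi, bM, hM⟩ := r.Mi
  obtain ⟨v, e⟩ := r.kE h0 t
  have q := r.pbF h0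
  have c := r.cg0 hv v (fun b d => by rw [e]; exact r.hb.gK q b d) hμ h hf
  rw [e] at c
  exact near_dd (K := hp (nb F K)) (N := henG K hμ h) (fit_G hμ h) (hp_is r.pos.off)
    (pF_is r.pos h0 M a) r.hb q hM bM (geo_is r.pos.off _ (r.vac hv)) (r.kE_is h0 t)
    (fun i _ _ c => ⟨r.keeps wgt_one i c.1, by rw [← map_sub]; exact r.keeps hμ i c.2⟩) c i

end

/-! ### The uniform statements -/

/-- The grading by a decreasing sequence of filters with a parameter. -/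
@[reducible] def grPar {T : Type} (t : J → T) (f : ℕ → T → Filter J) (h : ∀ θ, Antitone (f · θ))
    (e : ∀ k θ, ∀ᶠ j in f k θ, t j = θ) : Gr (⨅ k, ⨆ θ, f k θ) where
  Th := T
  th := t
  ph := f
  anti θ _ _ e := h θ e
  th_eq := e
  ev P := (mem_iInf_of_directed (Antitone.directed_ge fun _ _ e => iSup_mono fun θ => h θ e) _).trans
    (exists_congr fun _ => mem_iSup)

structure Iz where
  g : Tw
  M : ℝ
  a : ℝ
  A : ℝ → ℝ
  B : ℝ → ℝ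
  x : E6
  d : ℝ
  ρ : ℝ

section
variable (M0 a0 r1 : ℝ)

structure Hz (k : ℕ) (ρ : ℝ) (j : Iz) : Prop where
  v : VacAt j.g (pj j.x)
  t : IsTh M0 j.M j.a j.A j.B
  p : |j.M - M0| + |j.a - a0| ≤ M0 / 2
  l : r1 ≤ j.x.2.1
  u : j.x.2.1 ≤ ρ
  n : An j.x
  e : j.ρ = ρ
  b : P354XE.Bd k (j.g - kE j.M j.a j.A j.B) (pj j.x) j.d

def flz (k : ℕ) (ρ : ℝ) : Filter Iz := comap (·.d) (𝓝 0) ⊓ 𝓟 {j | Hz M0 a0 r1 k ρ j}

variable {M0 a0 r1} {k : ℕ} {ρ : ℝ}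

theorem fz_anti (ρ : ℝ) : Antitone (flz M0 a0 r1 · ρ) := fun k k' e => inf_le_inf_left _
  (principal_mono.2 fun j h => { h with b := fun m hm => h.b m (hm.trans e) })

theorem fz_hy (k : ℕ) (ρ : ℝ) : ∀ᶠ j in flz M0 a0 r1 k ρ, Hz M0 a0 r1 k ρ j :=
  mem_inf_of_right (mem_principal_self _)

theorem fz_ev {P : Iz → Prop} (h : ∀ᶠ j in flz M0 a0 r1 k ρ, P j) :
    ∃ δ > 0, ∀ j, |j.d| ≤ δ → Hz M0 a0 r1 k ρ j → P j := by
  obtain ⟨δ, hδ, h⟩ := Metric.eventually_nhds_iff.1 (eventually_comap.1 (eventually_inf_principal.1 h))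
  refine ⟨δ / 2, half_pos hδ, fun j e => h ?_ j rfl⟩
  rw [Real.dist_eq, sub_zero]
  exact e.trans_lt (half_lt_self hδ)

theorem fz_lim (k : ℕ) (ρ : ℝ) : Tendsto (fun j : Iz => |j.d|) (flz M0 a0 r1 k ρ) (𝓝 0) := by
  have : Tendsto (fun j : Iz => j.d) (flz M0 a0 r1 k ρ) (𝓝 0) := tendsto_comap.mono_left inf_le_left
  simpa using this.abs

theorem wgt_z : Wgt fun (_ : ℕ) (j : Iz) => |j.d| := ⟨fun _ _ => abs_nonneg _, fun _ _ _ _ => le_rfl⟩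

theorem Hz.rg {j : Iz} (h : Hz M0 a0 r1 k ρ j) :
    Rg (min (min (M0 / 2) r1) (1 / 2)) (max (2 * |M0| + |a0|) (max ρ (3 / 2))) j.M j.a j.x := by
  have := h.p
  have := abs_nonneg (j.M - M0)
  have := abs_nonneg (j.a - a0)
  have := abs_sub_abs_le_abs_sub j.M M0
  have := abs_sub_abs_le_abs_sub j.a a0
  have := abs_sub_abs_le_abs_sub M0 j.M
  have := abs_sub_comm M0 j.M
  have := le_abs_self M0
  have := abs_nonneg a0
  have := abs_nonneg M0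
  exact ⟨((min_le_left _ _).trans (min_le_left _ _)).trans (by linarith),
    le_max_of_le_left (by linarith), le_max_of_le_left (by linarith),
    ((min_le_left _ _).trans (min_le_right _ _)).trans h.l,
    h.u.trans ((le_max_left _ _).trans (le_max_right _ _)), (min_le_right _ _).trans h.n.1,
    h.n.2.trans ((le_max_right _ _).trans (le_max_right _ _))⟩

theorem Hz.bd {m : ℕ} {j : Iz} (h : Hz M0 a0 r1 k ρ j) (e : m ≤ k) :
    P354XE.Bd m (j.g - kE j.M j.a j.A j.B) (pj j.x) (1 * |j.d|) := fun i hi v w =>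
  (h.b i (hi.trans e) v w).trans (mul_le_mul_of_nonneg_right
    ((le_abs_self _).trans_eq (one_mul _).symm) (by positivity))

end

theorem none1 {M0 r1 : ℝ} (a0 ρ : ℝ) (h0 : 0 < M0) (h1 : 0 < r1) : ∃ δ > 0, ∀ j : Iz, |j.d| ≤ δ →
    Hz M0 a0 r1 2 ρ j → j.x ∈ KE M0 (j.g, j.M, j.a) ∧
      rep (eG (GE M0) M0 (·.2.1) (·.2.2) (·.1)).P2 ((j.g, j.M, j.a), j.x) ≠ 0 := by
  letI := Gr.triv (flz M0 a0 r1 2 ρ)
  have r : Reg (flz M0 a0 r1 2 ρ) (fun j => {j.x}) (·.M) (·.a) :=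
    Eventually.of_forall fun k θ => ⟨_, lt_min (lt_min (half_pos h0) h1) (by norm_num), _,
      (fz_hy 2 ρ).mono fun j h x hx => hx ▸ h.rg⟩
  have hv : ∀ᶠ j in flz M0 a0 r1 2 ρ, ∀ x ∈ ({j.x} : Set E6), VacAt j.g (pj x) :=
    (fz_hy 2 ρ).mono fun j h x hx => hx ▸ h.v
  obtain ⟨o, u⟩ := r.nearE0 h0 (g := (·.g)) hv ((fz_hy 2 ρ).mono fun j h => h.t) wgt_z
    (Eventually.of_forall fun k θ => fz_lim 2 ρ) (Eventually.of_forall fun k θ => ⟨1, zero_le_one,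
      (fz_hy 2 ρ).mono fun j h x hx => hx ▸ h.bd le_rfl⟩)
  have k := (okF_iff h0 (r.pos.and (r.vac hv))).1 o
  rw [← (eG_hom h0 k).P2, ((rxE k).rep _).unit_iff] at u
  obtain ⟨e, he, h⟩ := fz_ev (ev_nb_on (k.and u))
  exact ⟨e, he, fun j a1 a2 => (h j a1 a2 j.x rfl).imp_right IsUnit.ne_zero⟩

theorem none2 {M0 r1 : ℝ} (a0 : ℝ) (h0 : 0 < M0) (h1 : 0 < r1) (n : ℕ) : ∃ m, ∀ ρ, ∃ C, ∃ δ > 0,
    ∀ j : Iz, |j.d| ≤ δ → Hz M0 a0 r1 m ρ j → ∀ i,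
      qEf M0 n i ((j.g, j.M, j.a), j.x) ≤ (C * j.d) ^ 2 := by
  letI := grPar (·.ρ) (flz M0 a0 r1) fz_anti fun k ρ => (fz_hy k ρ).mono fun j h => h.e
  have r : Reg (⨅ k, ⨆ ρ, flz M0 a0 r1 k ρ) (fun j => {j.x}) (·.M) (·.a) :=
    Eventually.of_forall fun k θ => ⟨_, lt_min (lt_min (half_pos h0) h1) (by norm_num), _,
      (fz_hy k θ).mono fun j h x hx => hx ▸ h.rg⟩
  have hv : ∀ᶠ j in ⨅ k, ⨆ ρ, flz M0 a0 r1 k ρ, ∀ x ∈ ({j.x} : Set E6), VacAt j.g (pj x) :=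
    evk_of (Eventually.of_forall fun k θ => (fz_hy k θ).mono fun j h x hx => hx ▸ h.v)
  have t : ∀ᶠ j in ⨅ k, ⨆ ρ, flz M0 a0 r1 k ρ, IsTh M0 j.M j.a j.A j.B :=
    evk_of (Eventually.of_forall fun k θ => (fz_hy k θ).mono fun j h => h.t)
  have s : P354MG.Sml (⨅ k, ⨆ ρ, flz M0 a0 r1 k ρ) fun _ j => |j.d| :=
    Eventually.of_forall fun k θ => fz_lim k θ
  have o := (r.nearE0 h0 (g := (·.g)) hv t wgt_z s ((eventually_ge_atTop 2).mono fun k e θ =>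
    ⟨1, zero_le_one, (fz_hy k θ).mono fun j h x hx => hx ▸ h.bd e⟩)).1
  have c := r.nearE h0 (g := (·.g)) hv t wgt_z s (ev_gr.2 ⟨0, fun n k e θ =>
    ⟨1, zero_le_one, (fz_hy k θ).mono fun j h x hx => hx ▸ h.bd e⟩⟩)
  have u := (okF_iff h0 (r.pos.and (r.vac hv))).1 o
  obtain ⟨k, e1, e2⟩ := ((eventually_all.2 fun i => qq_dom _ (qq _) (fun _ _ => rfl)
    (fun _ _ _ => rfl) (r.keeps_lt h0 wgt_z) n (c i)).and
      (evk (ev_nb_on (eventually_all.2 (qE_eq h0 u n))))).exists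
  refine ⟨k, fun ρ => ?_⟩
  choose C e1 using fun i => e1 i ρ
  obtain ⟨δ, hδ, h⟩ := fz_ev ((eventually_all.2 e1).and (e2 ρ))
  refine ⟨√(∑ i, |C i|), δ, hδ, fun j a1 a2 i => ?_⟩
  obtain ⟨b1, b2⟩ := h j a1 a2
  rw [← b2 j.x rfl i, mul_pow, Real.sq_sqrt (by positivity), ← sq_abs j.d]
  exact (b1 i j.x rfl).trans (mul_le_mul_of_nonneg_right ((le_abs_self _).trans
    (Finset.single_le_sum (f := fun i => |C i|) (fun _ _ => abs_nonneg _) (Finset.mem_univ i)))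
    (sq_nonneg _))

theorem eG_is {G : Filter (J × E6)} [Loc G] {g : J → Tw} (h0 : 0 < M0)
    (h : ∀ᶠ p in G, p.2 ∈ KE M0 (g p.1, M p.1, a p.1)) : (eG G M0 M a g).Is :=
  Geo.WNull.is (sE_is h) (eT_wn h0 h).1

theorem KE_p2 {M0 : ℝ} (h0 : 0 < M0) {u : IU} {x : E6} {z : ℂ} (hz : z ≠ 0)
    (h : x ∈ KE M0 u ∧ rep (eG (GE M0) M0 (·.2.1) (·.2.2) (·.1)).P2 (u, x) ≠ 0) :
    sc z x ∈ KE M0 u ∧ rep (eG (GE M0) M0 (·.2.1) (·.2.2) (·.1)).P2 (u, sc z x) ≠ 0 := by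
  have s := eG_is (g := fun u : IU => u.1) (M := (·.2.1)) (a := (·.2.2)) h0 GE_ev
  have k := homJ (KE_sc h0) (u := (eG (GE M0) M0 (·.2.1) (·.2.2) (·.1)).P2) (m := 0) (n := 0)
    (s.H_P2.trans (by simp)) (s.Hb_P2.trans (by simp)) h.1 (Complex.log z)
  rw [Complex.exp_log hz] at k
  exact ⟨KE_sc h0 _ _ h.1 _ hz, by rw [k]; exact mul_ne_zero (Complex.exp_ne_zero _) h.2⟩

theorem ex_unit {x : E6} (h : x.2.2 ≠ 0) : ∃ z : ℂ, z ≠ 0 ∧ An (sc z⁻¹ x) := by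
  have n := nq_pos h
  refine ⟨(√(nq x) : ℝ), Complex.ofReal_ne_zero.2 (Real.sqrt_pos.2 n).ne', ?_⟩
  rw [An, nq_sc, map_inv₀, Complex.normSq_ofReal, Real.mul_self_sqrt n.le, inv_mul_cancel₀ n.ne']
  norm_num

/-- NONE. -/
theorem none_ok : NONE := by
  intro M0 a0 r1 ha h1
  have h0 : 0 < M0 := (abs_nonneg _).trans_lt ha
  have k0 : ∀ {O g}, Cone O → (∀ x ∈ O, VacAt g (pj x)) → ∀ᶠ p in on O, p.2 ∈ K0 g :=
    fun c v => on_of c.op fun x hx => ⟨c.pos x hx, v x hx⟩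
  refine ⟨fun ρ => ?_, fun n => ?_⟩
  · obtain ⟨δ, hδ, h⟩ := none1 a0 ρ h0 h1
    refine ⟨min δ (M0 / 2), lt_min hδ (half_pos h0), fun O g M a A B c v t p b => ?_⟩
    have e : ∀ x ∈ O, x ∈ KE M0 (g, M, a) ∧
        rep (eG (GE M0) M0 (·.2.1) (·.2.2) (·.1)).P2 ((g, M, a), x) ≠ 0 := fun x hx => by
      obtain ⟨z, hz, n⟩ := ex_unit (c.pos x hx).2
      have m : sc z⁻¹ x ∈ O := c.hom x hx _ (inv_ne_zero hz)
      have k := KE_p2 h0 hz (h ⟨g, M, a, A, B, sc z⁻¹ x, min δ (M0 / 2), ρ⟩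
        ((abs_of_pos (lt_min hδ (half_pos h0))).trans_le (min_le_left _ _))
        ⟨v _ m, t, p.trans (min_le_right _ _), (b _ m).1, (b _ m).2.1, n, rfl, (b _ m).2.2⟩)
      rwa [sc_inv hz] at k
    have k : ∀ᶠ p in on O, p.2 ∈ KE M0 (g, M, a) := on_of c.op fun x hx => (e x hx).1
    obtain ⟨w1, w2, w3⟩ := eT_wn (M := fun _ => M) (a := fun _ => a) (g := fun _ => g) h0 k
    refine ⟨(okF_iff (M := fun _ => M) (a := fun _ => a) (g := fun _ => g) h0 (k0 c v)).2 k, w1, w2,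
      w3, ?_⟩
    have u := ((rxE (M := fun _ => M) (a := fun _ => a) (g := fun _ => g) k).rep
      (eG (GE M0) M0 (·.2.1) (·.2.2) (·.1)).P2).unit (on_of c.op fun x hx => (e x hx).2)
    rwa [(eG_hom (M := fun _ => M) (a := fun _ => a) (g := fun _ => g) h0 k).P2] at u
  · obtain ⟨m, h⟩ := none2 a0 h0 h1 n
    refine ⟨m, fun ρ => ?_⟩
    obtain ⟨C, δ, hδ, h⟩ := h ρ
    refine ⟨C, min δ (M0 / 2), lt_min hδ (half_pos h0),
      fun O g M a A B c v t p o x hx n1 l u d hd b i => ?_⟩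
    have k := (okF_iff (M := fun _ => M) (a := fun _ => a) (g := fun _ => g) h0 (k0 c v)).1 o
    rw [q2_eq _ hx]
    exact (ev_on (qE_eq (M := fun _ => M) (a := fun _ => a) (g := fun _ => g) h0 k n i) hx).trans_le (h ⟨g, M, a, A, B, x, d, ρ⟩
      ((abs_of_nonneg hd.1).trans_le (hd.2.trans (min_le_left _ _)))
      ⟨v x hx, t, p.trans (min_le_right _ _), l, u, n1, rfl, b⟩ i)

end Vale.Agent.P354XD
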