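import Vale.Agent.P354RI.Fun
import Vale.Agent.P354XD.G1S

/-!
The coordinate fields in a frame which is close to the frame of Kerr.
-/

set_option linter.all false

open scoped ContDiff
open Set Filter Topology

namespace Vale.Agent.P354XD

open Vale.Agent.P354XG hiding Dom Dom0 Bd bdSub domI Keeps Low dom0_mk dom0_zero dom0_cst dom_of
  dom_zero dom_cst bd_alg dom_sum dom0_sum keeps_pd keeps_zero keeps_sum bd_closure dom_pb_aff
  bd_fn bd_par Conn gron gron0 dom_of_sys dom_sub_ev0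
open Vale.Agent.P354MG Vale.Agent.P354RI Vale.Agent.P354XG.Geo
open Vale.Agent.P354XR hiding pw
open Vale.Agent.P354XO (Om)
open Vale.Agent.P354XF (fr)

section alg
variable {A : Type*} [CommRing A] [Algebra ℂ A]

namespace Hen
variable {c : A →+* A} {N : Hen c} {n : Type} [Fintype n] [DecidableEq n]

theorem Cg.prod {ι : Type*} (s : Finset ι) {f g : ι → A} (h : ∀ i, N.Cg (f i) (g i)) :
    N.Cg (∏ i ∈ s, f i) (∏ i ∈ s, g i) := by
  classical
  induction s using Finset.induction_on with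
  | empty => simpa using cg_one
  | insert i s hi ih => simpa only [Finset.prod_insert hi] using (h i).mul ih

theorem cg_det {W W' : Matrix n n A} (h : ∀ i k, N.Cg (W i k) (W' i k)) : N.Cg W.det W'.det := by
  rw [Matrix.det_apply', Matrix.det_apply']
  exact Cg.sum _ fun σ _ => (Cg.refl (intCast_mem _ _)).mul (Cg.prod _ fun i => h _ _)

/-- A matrix which is close to the unit matrix has a bounded inverse. -/
theorem mat_inv {W : Matrix n n A} (h : ∀ i k, N.Cg (W i k) ((1 : Matrix n n A) i k)) :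
    ∃ V : Matrix n n A, (∀ i k, V i k ∈ N.B) ∧ V * W = 1 := by
  obtain ⟨u, e, hu⟩ := ((cg_det h).to Matrix.det_one).inv (one_mul 1) (one_mem _)
  refine ⟨u • W.adjugate, fun i k => mul_mem hu.mem ?_, ?_⟩
  · rw [Matrix.adjugate_apply]
    refine (cg_det (W' := W.updateRow k (Pi.single i 1)) fun a b => Cg.refl ?_).mem
    rw [Matrix.updateRow_apply, Pi.single_apply]
    split_ifs
    exacts [one_mem _, zero_mem _, (h a b).mem]
  · rw [Matrix.smul_mul, Matrix.adjugate_mul, smul_smul, mul_comm, e, one_smul]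

end Hen

theorem D_prod (D : Der A) {ι : Type*} (s : Finset ι) {x c : ι → A} (h : ∀ i, D (x i) = c i * x i) :
    D (∏ i ∈ s, x i) = (∑ i ∈ s, c i) * ∏ i ∈ s, x i := by
  classical
  induction s using Finset.induction_on with
  | empty => simp
  | insert i s hi ih => rw [Finset.prod_insert hi, Finset.sum_insert hi, D_mul, ih, h]; ring

theorem D_det (D : Der A) {n : Type} [Fintype n] [DecidableEq n] {W : Matrix n n A} {u v : n → A}
    (h : ∀ i k, D (W i k) = (u i + v k) * W i k) : D W.det = (∑ i, u i + ∑ i, v i) * W.det := by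
  rw [Matrix.det_apply', map_sum, Finset.mul_sum]
  refine Finset.sum_congr rfl fun σ _ => ?_
  rw [D_mul, D_prod D _ fun i => h (σ i) i, Finset.sum_add_distrib, Equiv.sum_comp σ u,
    Derivation.map_intCast]
  ring

/-- D is a combination of the fields X with coefficients in B. -/
def Sp (B : Subalgebra ℂ A) (X : Fin 6 → Der A) (D : A → A) : Prop :=
  ∃ e : Fin 6 → A, (∀ b, e b ∈ B) ∧ ∀ f, D f = ∑ b, e b * X b f

variable {B : Subalgebra ℂ A} {X : Fin 6 → Der A} {D D' : A → A} {u : A}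

theorem sp_self (b : Fin 6) : Sp B X (X b) :=
  ⟨Pi.single b 1, fun d => by rw [Pi.single_apply]; split_ifs; exacts [one_mem _, zero_mem _],
    fun f => by simp [Pi.single_apply]⟩

theorem Sp.add (h : Sp B X D) (h' : Sp B X D') : Sp B X fun f => D f + D' f := by
  obtain ⟨e, a, h⟩ := h
  obtain ⟨e', a', h'⟩ := h'
  exact ⟨e + e', fun b => add_mem (a b) (a' b), fun f => by
    simp only [h, h', Pi.add_apply, add_mul, Finset.sum_add_distrib]⟩

theorem Sp.mul (h : Sp B X D) (hu : u ∈ B) : Sp B X fun f => u * D f := by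
  obtain ⟨e, a, h⟩ := h
  exact ⟨fun b => u * e b, fun b => mul_mem hu (a b), fun f => by
    simp only [h, Finset.mul_sum, mul_assoc]⟩

theorem Sp.to (h : Sp B X D) (e : ∀ f, D' f = D f) : Sp B X D' := funext e ▸ h

theorem kc_sp {K : KC A} (h : K.Is) (r : K.r ∈ B) (x : K.x ∈ B) (s : K.s ∈ B) (sb : K.sb ∈ B)
    (N : K.N ∈ B) (Ni : K.Ni ∈ B) (sg : K.sg ∈ B) (a : K.a ∈ B) (M : K.M ∈ B) :
    Sp B (fr K.kerr) K.T ∧ Sp B (fr K.kerr) K.R ∧ Sp B (fr K.kerr) K.P ∧ Sp B (fr K.kerr) K.Q ∧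
      Sp B (fr K.kerr) K.H ∧ Sp B (fr K.kerr) K.B := by
  have i : ii A ∈ B := ii_mem
  have t0 : Sp B (fr K.kerr) K.th := sp_self 0
  have t1 : Sp B (fr K.kerr) K.tp := sp_self 1
  have t2 : Sp B (fr K.kerr) K.et := sp_self 2
  have t3 : Sp B (fr K.kerr) K.ep := sp_self 3
  have t4 : Sp B (fr K.kerr) K.H := sp_self 4
  have t5 : Sp B (fr K.kerr) K.B := sp_self 5
  have ia := mul_mem i a
  have ix := mul_mem ia x
  have z : K.z ∈ B := mul_mem sg (add_mem r ix)
  have zb : K.zb ∈ B := mul_mem sg (sub_mem r ix)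
  have De : K.De ∈ B :=
    add_mem (sub_mem (mul_mem r r) (mul_mem (mul_mem (ofNat_mem _ 2) M) r)) (mul_mem a a)
  have T : Sp B (fr K.kerr) K.T :=
    (((((((t0.mul Ni).add (t1.mul (mul_mem (mul_mem De sg) N))).add
      (t2.mul (mul_mem (mul_mem ia z) sb))).add (t3.mul (neg_mem (mul_mem (mul_mem ia zb) s)))).add
      (t4.mul (mul_mem (mul_mem M z) z))).add (t5.mul (mul_mem (mul_mem M zb) zb))).mul
      hf_mem).to fun f => by linear_combination hf A * h.T_eq f - K.T f * two_hf (A := A)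
  have e1 := h.z_ze
  have e2 : K.zb * (K.r + ii A * K.a * K.x) = 1 := by
    rw [← e1, KC.z, KC.zb]; ring
  refine ⟨T, (((t1.mul (neg_mem N)).add (t4.mul (mul_mem ix sg))).add
    (t5.mul (neg_mem (mul_mem ix sg)))).to fun f => ?_,
    ((((t3.mul (sub_mem r ix)).add (T.mul (mul_mem ia sb))).add
      (t4.mul (mul_mem (mul_mem (mul_mem ia r) sg) sb))).add
      (t5.mul (mul_mem (mul_mem (mul_mem (mul_mem a a) x) sg) sb))).to fun f => ?_,
    ((((t2.mul (add_mem r ix)).add (T.mul (neg_mem (mul_mem ia s)))).add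
      (t4.mul (mul_mem (mul_mem (mul_mem (mul_mem a a) x) sg) s))).add
      (t5.mul (neg_mem (mul_mem (mul_mem (mul_mem ia r) sg) s)))).to fun f => ?_, t4, t5⟩
  · simp only [KC.tp, KC.V_ap]
    linear_combination (ii A * K.a * K.x * K.sg * (K.H f - K.B f) - K.R f) * h.hN
  · simp only [KC.ep, KC.V_ap]
    linear_combination (ii A * K.a * K.sb * K.T f - K.P f + ii A * K.a * K.r * K.sg * K.sb * K.H f +
      K.a * K.a * K.x * K.sg * K.sb * K.B f) * e1
  · simp only [KC.et, KC.V_ap]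
    linear_combination (-(ii A * K.a * K.s * K.T f) - K.Q f + K.a * K.a * K.x * K.sg * K.s * K.H f -
      ii A * K.a * K.r * K.sg * K.s * K.B f) * e2

theorem d_sp {K : Hp A} {p : Pm A} (k : K.Is) (q : p.Is K) (hb : HB K B) (pb : PB p B)
    (i : Fin 6) : Sp B (fr (kk K p).kerr) (K.d i) := by
  obtain ⟨T, R, P, Q, H, H'⟩ := kc_sp (B := B) (kk_is k q) hb.z1 hb.x hb.s hb.sb hb.N hb.Ni pb.sg
    pb.a pb.M
  have n : (K.z 2 * K.z 4 + K.z 3 * K.z 5) * K.Ni = 1 := k.hN
  have eP : ∀ f, (kk K p).P f = _ := K.P_ap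
  have eQ : ∀ f, (kk K p).Q f = _ := K.Q_ap
  have eH : ∀ f, (kk K p).H f = _ := K.H_ap
  have eB : ∀ f, (kk K p).B f = _ := K.B_ap
  fin_cases i
  · exact T
  · have i : ii A ∈ B := ii_mem
    refine ((R.add (T.mul pb.h1)).add (((((P.mul (mul_mem i hb.s)).add
      (Q.mul (neg_mem (mul_mem i hb.sb)))).add (H.mul (neg_mem (mul_mem i hb.x)))).add
      (H'.mul (mul_mem i hb.x))).mul pb.j1)).to fun f => ?_
    rw [kk_R, KC.F2, KC.V_ap]
    show K.kc.R f = _ + _ * K.kc.T f + _ * (_ * K.kc.P f + _ * K.kc.Q f + _ * K.kc.H f +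
      _ * K.kc.B f)
    ring
  · refine (((H.mul hb.z4).add (P.mul (neg_mem hb.z3))).mul hb.Ni).to fun f => ?_
    rw [eH, eP]
    show K.d 2 f = _
    linear_combination -K.d 2 f * n
  · refine (((H.mul hb.z5).add (P.mul hb.z2)).mul hb.Ni).to fun f => ?_
    rw [eH, eP]
    show K.d 3 f = _
    linear_combination -K.d 3 f * n
  · refine (((H'.mul hb.z2).add (Q.mul (neg_mem hb.z5))).mul hb.Ni).to fun f => ?_
    rw [eB, eQ]
    show K.d 4 f = _
    linear_combination -K.d 4 f * n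
  · refine (((H'.mul hb.z3).add (Q.mul hb.z4)).mul hb.Ni).to fun f => ?_
    rw [eB, eQ]
    show K.d 5 f = _
    linear_combination -K.d 5 f * n

/-- The weights of the determinant of the frame. -/
theorem det_wt {K : Hp A} (k : K.Is) {G : GHP A} (g : G.Is) (H : G.H = K.H) (H' : G.Hb = K.B) :
    K.H (Matrix.of fun b i => fr G b (K.z i)).det =
      algebraMap ℂ A 2 * (Matrix.of fun b i => fr G b (K.z i)).det ∧
    K.B (Matrix.of fun b i => fr G b (K.z i)).det =
      algebraMap ℂ A 2 * (Matrix.of fun b i => fr G b (K.z i)).det := by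
  obtain ⟨-, -, -, -, -, -, -, -, -, -, -, -, -, -, t1, t2⟩ := k.tab
  rw [← H] at t1 ⊢
  rw [← H'] at t2 ⊢
  have a1 : ∀ b f, G.H (fr G b f) = fr G b (G.H f) + ![1, -1, 1, -1, 0, 0] b * fr G b f :=
    fun b f => by
      fin_cases b <;> simp [fr, g.H_th, g.H_tp, g.H_et, g.H_ep, g.H_Hb, sub_eq_add_neg]
  have a2 : ∀ b f, G.Hb (fr G b f) = fr G b (G.Hb f) + ![1, -1, -1, 1, 0, 0] b * fr G b f :=
    fun b f => by
      fin_cases b <;> simp [fr, g.Hb_th, g.Hb_tp, g.Hb_et, g.Hb_ep, g.H_Hb, sub_eq_add_neg]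
  rw [D_det G.H (u := ![1, -1, 1, -1, 0, 0]) (v := ![0, 0, 1, 1, 0, 0]) fun b i => ?_,
    D_det G.Hb (u := ![1, -1, -1, 1, 0, 0]) (v := ![0, 0, 0, 0, 1, 1]) fun b i => ?_, map_ofNat]
  · simp only [Fin.sum_univ_six, Matrix.cons_val]
    constructor <;> ring
  · rw [Matrix.of_apply, a2, t2]
    fin_cases i <;> simp [add_mul, add_comm]
  · rw [Matrix.of_apply, a1, t1]
    fin_cases i <;> simp [add_mul, add_comm]

end alg

variable {J : Type} {m : Dm J} [Gr m.sF] (o : m.Ok)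

/-- A homogeneous function without zeros on the slices is a unit. -/
theorem unit_hom {f : m.S} {p q : ℂ} (H : m.h.H f = algebraMap ℂ _ p * f)
    (B : m.h.B f = algebraMap ℂ _ q * f) (h : IsUnit (o.rx le_rfl f)) : IsUnit f := by
  obtain ⟨v, hv⟩ := h.exists_right_inv
  have e := ev_nb_on (((rs_rep _).mul (rs_rep v)).eq (hv ▸ rs_one))
  refine isUnit_of_ne (o.ev ?_)
  filter_upwards [o.unit le_rfl (fun w n => by norm_num [SA, n]) f (P := fun z => z ≠ 0)
    (e.mono fun j h x hx => left_ne_zero_of_mul_eq_one (h x hx)), P354XO.ev_hom H B]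
    with j k1 k2 x hx
  have z := inv_ne_zero (P354XO.nz_ne hx.2)
  have := k2 x hx (Complex.log (P354XO.nz x)⁻¹)
  rw [Complex.exp_log z] at this
  exact right_ne_zero_of_mul (this ▸ k1 _ (P354XO.om_sc hx z) (P354XO.norm_unit hx.2))

theorem hb_rx {S : Set (ℂ × ℂ)} (hS : S ⊆ SA) {M : ℝ} (hM : 0 < M) (a : ℝ) :
    HB m.h ((bdSub m.sF (m.sl.K S)).comap (o.rx hS)) ∧
    PB (m.p0 M a) ((bdSub m.sF (m.sl.K S)).comap (o.rx hS)) := by
  have r := o.reg hS hM a
  have hh := o.hh hS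
  have c : ∀ t : ℝ, o.rx hS (cst fun _ => t) = cst fun _ => t := fun t => (o.rxx hS).rix_cst _
  have e := congrArg (o.rx hS) (pm_is o.pos (fun _ => M) fun _ => a).hg
  have e' := (pm_is r.pos (fun _ => M) fun _ => a).hg
  simp only [pm, Hp.kc, map_mul, map_add, map_sub, map_one, hh.z, hh.Ni, c] at e e'
  refine ⟨⟨fun i hi => ?_, ?_, ?_⟩, ?_, ?_, ?_, add_mem (one_mem _)
    (o.bd_rf hS (contDiff_infty_iff_deriv.1 o.H).2), zero_mem _⟩ <;> rw [Subalgebra.mem_comap]
  · rw [hh.z]; exact r.hb.z i hi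
  · rw [hh.ri]; exact r.hb.ri
  · rw [hh.Ni]; exact r.hb.Ni
  · exact (c a).symm ▸ r.pb.a
  · exact (c M).symm ▸ r.pb.M
  · exact (left_inv_eq_right_inv e ((mul_comm _ _).trans e')).symm ▸ r.pb.sg

theorem frm : FRM := fun J m _ o M a G μ ν h => by
  obtain ⟨hb, pb⟩ := hb_rx o le_rfl h.M0 a
  choose E bE hE using d_sp o.is (o.p0 M a) hb pb
  let φ := o.rx (le_refl SA)
  let A : Matrix (Fin 6) (Fin 6) m.S := Matrix.of fun b i => fr G b (m.h.z i)
  let E' : Matrix (Fin 6) (Fin 6) m.S := Matrix.of E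
  obtain ⟨V, bV, hV⟩ := Hen.mat_inv (N := henG (m.sl.K SA) h.wν h.sν)
    (W := E'.map φ * A.map φ) fun i k => by
      have e : (1 : Matrix (Fin 6) (Fin 6) (m.R SA)) i k =
          ∑ b, φ (E i b) * φ (fr (m.K0 M a).kerr b (m.h.z k)) := by
        simp only [← map_mul, ← map_sum]
        rw [show ∑ b, E i b * fr (m.K0 M a).kerr b (m.h.z k) = _ from (hE i _).symm, o.is.dz,
          Matrix.one_apply]
        split_ifs <;> simp
      refine ⟨?_, ?_⟩
      · rw [Matrix.one_apply]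
        split_ifs
        exacts [one_mem _, zero_mem _]
      · rw [e, Matrix.mul_apply, ← Finset.sum_sub_distrib]
        refine dom_sum h.wν _ fun b _ => ?_
        have := Dom.bmul h.wν (bE i b) (h.fr b k)
        rwa [map_sub, mul_sub] at this
  rw [← Matrix.mul_assoc] at hV
  have u : IsUnit A.det := by
    obtain ⟨w1, w2⟩ := det_wt o.is h.is h.H h.B
    refine unit_hom o w1 w2 ?_
    rw [AlgHom.map_det]
    exact Matrix.isUnit_det_of_left_inverse hV
  have e := Matrix.nonsing_inv_mul A u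
  have e' : A⁻¹.map φ * A.map φ = 1 := by
    rw [← Matrix.map_mul, e, Matrix.map_one _ (map_zero φ) (map_one φ)]
  refine ⟨fun i b => A⁻¹ i b, fun i b => ?_, fun i k => ?_⟩
  · have := congrFun (congrFun (Matrix.left_inv_eq_left_inv e' hV) i) b
    rw [Matrix.map_apply, Matrix.mul_apply] at this
    show Bd (φ (A⁻¹ i b))
    rw [this]
    exact dom_sum wgt_one _ fun d _ => Dom.bmul wgt_one (bV i d) (bE d b)
  · exact (congrFun (congrFun e i) k).trans (Matrix.one_apply)

end Vale.Agent.P354XD
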