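import Vale.Agent.P354XD.GrA
import Vale.Agent.P354XD.Frm
import Vale.Agent.P354YK.Met
import Vale.Agent.P354BO.Shf
import Vale.Agent.P354DR.Cht

/-!
Frames, components and metrics modulo an ideal of small elements.
-/

set_option linter.all false

namespace Vale.Agent.P354XD

open Vale.Agent.P354XG Vale.Agent.P354XG.Geo Vale.Agent.P354XR Fr Matrix
open Vale.Agent.P354CV (Spn spn_V spn_H spn_ghp spn_kerr)
open Vale.Agent.P354Z (cm dat f4 sc)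
open Vale.Agent.P354YK (out oth otp oet oep orh orh2 ga gab gO frO pin)
open Vale.Agent.P354DR (dd)

variable {A : Type} [CommRing A] [Algebra ℂ A] {K : Hp A} {p : Pm A}

/-- A smaller ideal. -/
def Hen.inter {c : A →+* A} (N : Hen c) (I : AddSubgroup A)
    (mul : ∀ b ∈ N.B, ∀ a ∈ I, b * a ∈ I) (cI : ∀ a ∈ I, c a ∈ I) : Hen c where
  B := N.B
  I := N.I ⊓ I
  le a h := N.le a h.1
  mul b hb a h := ⟨N.mul b hb a h.1, mul b hb a h.2⟩
  cB := N.cB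
  cI a h := ⟨N.cI a h.1, cI a h.2⟩
  inv a h := N.inv a h.1
  root a h b h' := N.root a h.1 b h'.1

/-- The differences to Kerr in the outgoing gauge. -/
noncomputable def dO (K : Hp A) (p : Pm A) (G : GHP A) (i : (Fin 4 × Fin 6) ⊕ Fin 13) : A :=
  dat K p G i - dat K p (out (kk K p)) i

section bd
variable {B : Subalgebra ℂ A} (k : K.Is) (h : HB K B) (q : PB p B)
include k

theorem d_z (i j : Fin 6) : K.d i (K.z j) ∈ B := by
  rw [k.dz]; split_ifs; exacts [one_mem _, zero_mem _]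

include h

theorem kc_z {e1 e2 e3 e4 e5 e6 : A} (h1 : e1 ∈ B) (h2 : e2 ∈ B) (h3 : e3 ∈ B) (h4 : e4 ∈ B)
    (h5 : e5 ∈ B) (h6 : e6 ∈ B) (i : Fin 6) : K.kc.V e1 e2 e3 e4 e5 e6 (K.z i) ∈ B := by
  have d : ∀ j, K.d j (K.z i) ∈ B := fun j => d_z k j i
  rw [KC.V_ap]
  exact add_mem (add_mem (add_mem (add_mem (add_mem (mul_mem h1 (d 0)) (mul_mem h2 (d 1)))
    (mul_mem h3 (K.P_ap _ ▸ sub_mem (mul_mem h.z4 (d 3)) (mul_mem h.z5 (d 2)))))
    (mul_mem h4 (K.Q_ap _ ▸ sub_mem (mul_mem h.z2 (d 5)) (mul_mem h.z3 (d 4)))))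
    (mul_mem h5 (K.H_ap _ ▸ add_mem (mul_mem h.z2 (d 2)) (mul_mem h.z3 (d 3)))))
    (mul_mem h6 (K.B_ap _ ▸ add_mem (mul_mem h.z4 (d 4)) (mul_mem h.z5 (d 5))))

include q

theorem V_z {e1 e2 e3 e4 e5 e6 : A} (h1 : e1 ∈ B) (h2 : e2 ∈ B) (h3 : e3 ∈ B) (h4 : e4 ∈ B)
    (h5 : e5 ∈ B) (h6 : e6 ∈ B) (i : Fin 6) : (kk K p).V e1 e2 e3 e4 e5 e6 (K.z i) ∈ B := by
  have j := mul_mem h2 q.j1
  rw [kk_V]
  exact kc_z k h (sub_mem h1 (mul_mem h2 q.h1)) h2 (sub_mem h3 (mul_mem j (mul_mem ii_mem h.s)))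
    (add_mem h4 (mul_mem j (mul_mem ii_mem h.sb))) (add_mem h5 (mul_mem j (mul_mem ii_mem h.x)))
    (sub_mem h6 (mul_mem j (mul_mem ii_mem h.x))) i

theorem bs_z (e i : Fin 6) : (kk K p).bs e (K.z i) ∈ B := by
  have o : (1 : A) ∈ B := one_mem _
  have z : (0 : A) ∈ B := zero_mem _
  fin_cases e
  · simpa [KC.V_ap, KC.bs] using V_z k h q o z z z z z i
  · simpa [KC.V_ap, KC.bs] using V_z k h q z o z z z z i
  · simpa [KC.V_ap, KC.bs] using V_z k h q z z o z z z i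
  · simpa [KC.V_ap, KC.bs] using V_z k h q z z z o z z i
  · simpa [KC.V_ap, KC.bs] using V_z k h q z z z z o z i
  · simpa [KC.V_ap, KC.bs] using V_z k h q z z z z z o i

omit k in
theorem kk_bd : (kk K p).z ∈ B ∧ (kk K p).zb ∈ B ∧ (kk K p).W ∈ B ∧ (kk K p).De ∈ B ∧
    (kk K p).ee ∈ B := by
  have ia := mul_mem (ii_mem (B := B)) q.a
  have De : (kk K p).De ∈ B := add_mem (sub_mem (mul_mem h.z1 h.z1)
    (mul_mem (mul_mem (ofNat_mem _ 2) q.M) h.z1)) (mul_mem q.a q.a)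
  exact ⟨mul_mem q.sg (add_mem h.z1 (mul_mem ia h.x)), mul_mem q.sg (sub_mem h.z1 (mul_mem ia h.x)),
    add_mem (mul_mem h.z1 h.z1) (mul_mem q.a q.a), De, sub_mem (mul_mem (sub_mem h.z1 q.M) q.sg)
      (mul_mem (mul_mem (mul_mem De h.z1) q.sg) q.sg)⟩

theorem out_z (a : Fin 4) (i : Fin 6) : f4 (out (kk K p)) a (K.z i) ∈ B := by
  obtain ⟨z, zb, W, De, ee⟩ := kk_bd h q
  have o : (0 : A) ∈ B := zero_mem _
  have ia := mul_mem (ii_mem (B := B)) q.a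
  have x := mul_mem (mul_mem ia h.x) q.sg
  have y := mul_mem (mul_mem x q.sg) De
  fin_cases a
  exacts [V_z k h q o h.N o o o o i, V_z k h q (mul_mem (mul_mem (mul_mem (ofNat_mem _ 2) h.Ni) q.sg) W)
      (neg_mem (mul_mem (mul_mem h.Ni q.sg) De)) (mul_mem (mul_mem (mul_mem ia h.s) h.Ni) q.sg)
      (neg_mem (mul_mem (mul_mem (mul_mem ia h.sb) h.Ni) q.sg))
      (neg_mem (mul_mem h.Ni (add_mem (sub_mem ee y) x)))
      (neg_mem (mul_mem h.Ni (sub_mem (add_mem ee y) x))) i,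
    V_z k h q (mul_mem (mul_mem ia h.s) zb) o o zb o (mul_mem (mul_mem (mul_mem ia h.s) zb) zb) i,
    V_z k h q (neg_mem (mul_mem (mul_mem ia h.sb) z)) o z o
      (neg_mem (mul_mem (mul_mem (mul_mem ia h.sb) z) z)) o i]

theorem kerr_z (a : Fin 4) (i : Fin 6) : f4 (kk K p).kerr a (K.z i) ∈ B := by
  obtain ⟨z, zb, W, De, ee⟩ := kk_bd h q
  have o : (0 : A) ∈ B := zero_mem _
  have ia := mul_mem (ii_mem (B := B)) q.a
  have x := mul_mem (mul_mem ia h.x) q.sg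
  have n := mul_mem (mul_mem ia h.N) q.sg
  have u := mul_mem (mul_mem (mul_mem q.a q.a) h.x) q.sg
  have v := mul_mem (mul_mem ia h.z1) q.sg
  fin_cases a
  exacts [V_z k h q (mul_mem (mul_mem (mul_mem (ofNat_mem _ 2) h.N) q.sg) W)
      (mul_mem (mul_mem h.N q.sg) De) (mul_mem n h.s) (neg_mem (mul_mem n h.sb))
      (neg_mem (mul_mem h.N (add_mem ee x))) (neg_mem (mul_mem h.N (sub_mem ee x))) i,
    V_z k h q o (neg_mem h.Ni) o o (mul_mem x h.Ni) (neg_mem (mul_mem x h.Ni)) i,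
    V_z k h q (mul_mem (mul_mem ia h.s) zb) o o zb (neg_mem (mul_mem (mul_mem u h.s) zb))
      (mul_mem (mul_mem v h.s) zb) i,
    V_z k h q (neg_mem (mul_mem (mul_mem ia h.sb) z)) o z o (neg_mem (mul_mem (mul_mem v h.sb) z))
      (neg_mem (mul_mem (mul_mem u h.sb) z)) i]

omit k in
theorem sc_bd (i : Fin 13) : sc (out (kk K p)) i ∈ B ∧ sc (kk K p).kerr i ∈ B := by
  obtain ⟨z, zb, W, De, ee⟩ := kk_bd h q
  have o : (0 : A) ∈ B := zero_mem _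
  have ia := mul_mem (ii_mem (B := B)) q.a
  have ta : (kk K p).ta ∈ B := neg_mem (mul_mem (mul_mem ia q.sg) h.s)
  have tb : (kk K p).ta2 ∈ B := neg_mem (mul_mem (mul_mem (mul_mem ia z) z) h.sb)
  have p2 : (kk K p).P2 ∈ B :=
    neg_mem (mul_mem (mul_mem (mul_mem (mul_mem (ofNat_mem _ 2) q.M) z) z) z)
  fin_cases i
  exacts [⟨o, o⟩, ⟨o, o⟩, ⟨neg_mem (mul_mem h.N z),
      neg_mem (mul_mem (mul_mem (mul_mem h.N q.sg) De) z)⟩, ⟨ta, ta⟩, ⟨o, o⟩, ⟨o, o⟩,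
    ⟨mul_mem (mul_mem (mul_mem h.Ni q.sg) De) z, mul_mem h.Ni z⟩, ⟨tb, tb⟩, ⟨o, o⟩, ⟨o, o⟩,
    ⟨p2, p2⟩, ⟨o, o⟩, ⟨o, o⟩]

end bd

theorem spn_out (k : K.Is) (a : Fin 4) : Spn K (f4 (out (kk K p)) a) := by
  fin_cases a <;> exact spn_V k _ _ _ _ _ _

section cl
variable {N : Hen K.c} {E E0 : Der A} {G G0 : GHP A} (k : K.Is) (h : HB K N.B) (q : PB p N.B)
include h q

theorem DCl.cm (d : DCl N E E0) (e : Fin 6) : N.Cg (cm K p E e) (cm K p E0 e) := by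
  have r : ∀ {x}, x ∈ N.B → N.Cg x x := Hen.Cg.refl
  have j := (d.z 1).mul (r q.j1)
  fin_cases e
  exacts [(d.z 0).add ((d.z 1).mul (r q.h1)), d.z 1,
    ((r h.Ni).mul (((r h.z2).mul (d.z 3)).sub ((r h.z3).mul (d.z 2)))).add
      (j.mul (r (mul_mem ii_mem h.s))),
    ((r h.Ni).mul (((r h.z4).mul (d.z 5)).sub ((r h.z5).mul (d.z 4)))).sub
      (j.mul (r (mul_mem ii_mem h.sb))),
    ((r h.Ni).mul (((r h.z4).mul (d.z 2)).add ((r h.z5).mul (d.z 3)))).sub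
      (j.mul (r (mul_mem ii_mem h.x))),
    ((r h.Ni).mul (((r h.z2).mul (d.z 4)).add ((r h.z3).mul (d.z 5)))).add
      (j.mul (r (mul_mem ii_mem h.x)))]

theorem Gcl.dat (g : Gcl N G G0) (i : (Fin 4 × Fin 6) ⊕ Fin 13) :
    N.Cg (dat K p G i) (dat K p G0 i) := by
  rcases i with ⟨a, e⟩ | i
  exacts [(g.f a).cm h q e, g.s i]

include k

theorem z_sub {I : AddSubgroup A} (m : ∀ b ∈ N.B, ∀ a ∈ I, b * a ∈ I) (s : Spn K E) (s0 : Spn K E0)
    (d : ∀ e, cm K p E e - cm K p E0 e ∈ I) (i : Fin 6) : E (K.z i) - E0 (K.z i) ∈ I := by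
  rw [s.cm k p, s0.cm k p, ← Finset.sum_sub_distrib]
  refine sum_mem fun e _ => ?_
  rw [← sub_mul, mul_comm]
  exact m _ (bs_z k h q e i) _ (d e)

theorem gcl_of (s : ∀ a, Spn K (f4 G a)) (s0 : ∀ a, Spn K (f4 G0 a))
    (b : ∀ a i, f4 G0 a (K.z i) ∈ N.B) (b' : ∀ i, sc G0 i ∈ N.B)
    (d : ∀ i, dat K p G i - dat K p G0 i ∈ N.I) : Gcl N G G0 :=
  ⟨fun a => ⟨s a, s0 a, fun i => ⟨b a i, z_sub k h q N.mul (s a) (s0 a) (fun e => d (.inl (a, e))) i⟩⟩,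
    fun i => ⟨b' i, d (.inr i)⟩⟩

omit q

theorem DCl.prj (hd : ∀ i {f f'}, N.Cg f f' → N.Cg (K.d i f) (K.d i f')) (d : DCl N E E0) :
    N.Cv (K.prj E) (K.prj E0) := fun a => d.ap' fun i => .refl (by
  rw [Hp.co, D_add, D_mul, D_mul, Hp.D_e0, mul_zero, zero_add]
  exact add_mem (mul_mem (e0_mem a) (d_z k i 0)) (add_mem
    (mul_mem h.z1 (hd i (.refl (h.om a))).1) (mul_mem (h.om a) (d_z k i 1))))

variable {g : Fin 4 → Fin 4 → A} {Γ : Fin 4 → Fin 4 → Fin 4 → A} {F : Fr A}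

omit h in
theorem prj_ghp : K.prj (F.ghp (K.geo g Γ)).th = F.l ∧ K.prj (F.ghp (K.geo g Γ)).tp = F.n ∧
    K.prj (F.ghp (K.geo g Γ)).et = F.m ∧ K.prj (F.ghp (K.geo g Γ)).ep = F.mb :=
  ⟨k.prj_act g Γ _, k.prj_act g Γ _, k.prj_act g Γ _, k.prj_act g Γ _⟩

theorem Gcl.cl (hd : ∀ i {f f'}, N.Cg f f' → N.Cg (K.d i f) (K.d i f'))
    (c : Gcl N (F.ghp (K.geo g Γ)) G0) : Cl (S := K.geo g Γ) N F
      ⟨K.prj G0.th, K.prj G0.tp, K.prj G0.et, K.prj G0.ep⟩ := by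
  obtain ⟨a, b, e, f⟩ := prj_ghp (g := g) (Γ := Γ) (F := F) k
  exact ⟨a ▸ (c.f 0).prj k h hd, b ▸ (c.f 1).prj k h hd, e ▸ (c.f 2).prj k h hd,
    f ▸ (c.f 3).prj k h hd⟩

theorem GCl.gcl (c : GCl N (F.ghp (K.geo g Γ)) G0) (s0 : ∀ a, Spn K (f4 G0 a))
    (b : Cl (S := K.geo g Γ) N F ⟨K.prj G0.th, K.prj G0.tp, K.prj G0.et, K.prj G0.ep⟩) :
    Gcl N (F.ghp (K.geo g Γ)) G0 := by
  obtain ⟨a1, a2, a3, a4⟩ := prj_ghp (g := g) (Γ := Γ) (F := F) k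
  have z : K.z 0 = K.co 0 := by simp [Hp.co, Hp.e0, Hp.om]
  refine ⟨fun a => ⟨spn_ghp k g Γ F a, s0 a, fun i => ?_⟩, fun i => ?_⟩
  · by_cases hi : i = 0
    · rw [hi, z]
      fin_cases a
      exacts [(b.l 0).of (congrFun a1 0), (b.n 0).of (congrFun a2 0), (b.m 0).of (congrFun a3 0),
        (b.mb 0).of (congrFun a4 0)]
    · have := Hen.Cg.refl (N := N) (h.z i hi)
      fin_cases a
      exacts [c.th this, c.tp this, c.et this, c.ep this]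
  · fin_cases i
    exacts [c.ka, c.si, c.rh, c.ta, c.ka', c.si', c.rh', c.ta', c.P0, c.P1, c.P2, c.P3, c.P4]

end cl

section met
variable {c : A →+* A} {N : Hen c} {n : Type} [Fintype n] [DecidableEq n]

theorem cg_mm {X X' Y Y' : Matrix n n A} (h : ∀ i k, N.Cg (X i k) (X' i k))
    (h' : ∀ i k, N.Cg (Y i k) (Y' i k)) (i k : n) : N.Cg ((X * Y) i k) ((X' * Y') i k) := by
  rw [mul_apply, mul_apply]
  exact .sum _ fun j _ => (h i j).mul (h' j k)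

/-- The frame determines the metric. -/
theorem cg_met {E E0 g g0 η : Matrix n n A} (h : ∀ i k, N.Cg (E i k) (E0 i k))
    (b : ∀ i k, g0 i k ∈ N.B) (e : E * g * Eᵀ = η) (e0 : E0 * g0 * E0ᵀ = η) (s : η * η = 1)
    (i k : n) : N.Cg (g i k) (g0 i k) := by
  have r0 : ∀ i k, N.Cg (E0 i k) (E0 i k) := fun i k => .refl (h i k).1
  have rg : ∀ i k, N.Cg (g0 i k) (g0 i k) := fun i k => .refl (b i k)
  have rη : ∀ i k, N.Cg (η i k) (η i k) := e0 ▸ cg_mm (cg_mm r0 rg) fun i k => r0 k i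
  have rY := cg_mm (cg_mm rg (Y := E0ᵀ) (Y' := E0ᵀ) fun i k => r0 k i) rη
  have y : E0 * (g0 * E0ᵀ * η) = 1 := by rw [← s, ← Matrix.mul_assoc, ← Matrix.mul_assoc, e0]
  have w := cg_mm h rY
  rw [y] at w
  obtain ⟨V, bV, hV⟩ := Hen.mat_inv w
  have v : ∀ i k, N.Cg (V i k) ((1 : Matrix n n A) i k) := fun i k => by
    have := cg_mm (X := V) (X' := V) (fun i k => .refl (bV i k)) w i k
    rw [hV, Matrix.mul_one] at this
    exact this.symm
  have key : ∀ {E g Y : Matrix n n A}, E * g * Eᵀ = η → Y * E = 1 → g = Y * η * Yᵀ :=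
    fun {E g Y} e y => by
      rw [← e, Matrix.mul_assoc, Matrix.mul_assoc, Matrix.mul_assoc, ← transpose_mul, y,
        transpose_one, Matrix.mul_one, ← Matrix.mul_assoc, y, Matrix.one_mul]
  have y1 : g0 * E0ᵀ * η * V * E = 1 := by
    rw [Matrix.mul_assoc _ V, mul_eq_one_comm, Matrix.mul_assoc, hV]
  have c1 := cg_mm rY v
  rw [Matrix.mul_one] at c1
  have := cg_mm (cg_mm c1 rη) (Y := (g0 * E0ᵀ * η * V)ᵀ) (Y' := (g0 * E0ᵀ * η)ᵀ)
    (fun i k => c1 k i) i k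
  rwa [← key e y1, ← key e0 (mul_eq_one_comm.1 y)] at this

end met

theorem cl_met {S S0 : Geo A} {N : Hen S.c} {F F0 : Fr A} (h : S.Is) (n : F.Nl S) (n0 : F0.Nl S0)
    (c0 : ∀ a b, S0.c (S0.g a b) = S0.g a b) (s0 : ∀ a b, S0.g a b = S0.g b a)
    (b : ∀ a b, S0.g a b ∈ N.B) (c : Cl N F F0) (a d : Fin 4) : N.Cg (S.g a d) (S0.g a d) :=
  cg_met (E := of ![F.l, F.n, F.m, F.mb]) (E0 := of ![F0.l, F0.n, F0.m, F0.mb]) (g := of S.g)
    (g0 := of S0.g) (fun i k => by fin_cases i; exacts [c.l k, c.n k, c.m k, c.mb k]) b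
    (P354BO.null_mat h.c_g h.g_symm n) (P354BO.null_mat c0 s0 n0)
    (by ext i k; fin_cases i <;> fin_cases k <;> simp [P354BO.eta, mul_apply, Fin.sum_univ_four])
    a d

/-- In a frame which is close to a transverse frame with small P0 and P4, P0 is quadratic in P1. -/
theorem p0_sq {S : Geo A} {N M : Hen S.c} {F F' : Fr A} (e : M.B = N.B) (h : S.Is)
    (hg : ∀ a b, S.g a b ∈ N.B) (n : F.Nl S) (n' : F'.Nl S) (c : Cl N F' F) {pi : A}
    (h2 : F.p2 S * pi = 1) (b2 : F.p2 S ∈ N.B) (bi : pi ∈ N.B) (h0 : F.p0 S ∈ M.I)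
    (h4 : F.p4 S ∈ M.I) (h1 : F.p1 S = 0) (h3 : F.p3 S = 0) :
    ∃ cc ∈ M.B, F'.p0 S - cc * F'.p1 S ^ 2 ∈ M.I := by
  obtain ⟨a, b, al, be, q, ha, hb, hal, -, hq, e1, -, e3, rfl⟩ := c.decomp h hg n n'
  obtain ⟨u, hu, bu⟩ := ((Hen.cg_one.add (((Hen.cg_num 2).mul ha).mul hb)).to
    (show (1 : A) + 2 * 0 * 0 = 1 by ring)).inv (mul_one 1) (one_mem _)
  obtain ⟨a0, a1, -⟩ := p_bo (F := (F.rn S a).rl S b) e1 e3
  obtain ⟨b0, b1, -⟩ := (n.rn h a).p_rl h b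
  obtain ⟨c0, c1, -⟩ := n.p_rn h a
  have t : (algebraMap ℂ A (2 / 3)) * 3 = 2 := by
    rw [← map_ofNat (algebraMap ℂ A) 3, ← map_mul, ← map_ofNat (algebraMap ℂ A) 2]; norm_num
  have m : ∀ {x}, x ∈ N.B → M.Cg x x := fun hx => .refl (e ▸ hx)
  have x0 := Hen.cg_zero.2 h0
  have x4 := Hen.cg_zero.2 h4
  have s := (m hal.mem).mul (m hq.mem)
  have A' := m ha.mem
  have P0 := (x0.add (((Hen.cg_num 6).mul (A'.pow 2)).mul (m b2))).add ((A'.pow 4).mul x4)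
  have P1 := ((((Hen.cg_num 3).mul A').mul (m b2)).add ((A'.pow 3).mul x4)).add ((m hb.mem).mul P0)
  have cc := ((Hen.cg_alg (N := M) (2 / 3)).mul (m bi)).mul ((m bu.mem).pow 2)
  refine ⟨_, cc.1, Hen.cg_zero.1 (((((s.pow 2).mul P0).sub (cc.mul ((s.mul P1).pow 2))).to ?_).of ?_)⟩
  · linear_combination (-(3 * (al * q) ^ 2 * a ^ 2 * F.p2 S ^ 2 * pi * ((1 + 2 * a * b) * u) ^ 2)) * t -
      6 * (al * q) ^ 2 * a ^ 2 * F.p2 S * ((1 + 2 * a * b) * u) ^ 2 * h2 -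
      6 * (al * q) ^ 2 * a ^ 2 * F.p2 S * ((1 + 2 * a * b) * u + 1) * hu
  · rw [a0, a1, b0, b1, c0, c1, h1, h3]; ring

theorem bo1 {S De Di sg : A} (W N h j a s sb e o u v : A) (g : sg * S = 1) (hD : De * Di = 1) :
    S * Di * ((2 * N * sg * W - N * sg * De * (h + 2 * W * Di)) * e + N * sg * De * o +
      (ii A * a * N * sg * s - N * sg * De * (j + a * Di) * (ii A * s)) * u +
      (-(ii A * a * N * sg * sb) + N * sg * De * (j + a * Di) * (ii A * sb)) * v) =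
    (0 - N * h) * e + N * o + (0 - N * j * (ii A * s)) * u + (0 + N * j * (ii A * sb)) * v := by
  linear_combination N * (o - h * e - j * ii A * s * u + j * ii A * sb * v) * De * Di * g +
    N * (o - h * e - j * ii A * s * u + j * ii A * sb * v -
      S * Di * sg * (2 * W * e + ii A * a * s * u - ii A * a * sb * v)) * hD

theorem bo2 {De Di : A} (sg W N h j a s sb e o u v : A) (hD : De * Di = 1) :
    sg * De * ((0 - -N * (h + 2 * W * Di)) * e + -N * o +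
      (0 - -N * (j + a * Di) * (ii A * s)) * u + (0 + -N * (j + a * Di) * (ii A * sb)) * v) =
    (2 * N * sg * W - -(N * sg * De) * h) * e + -(N * sg * De) * o +
      (ii A * a * s * N * sg - -(N * sg * De) * j * (ii A * s)) * u +
      (-(ii A * a * sb * N * sg) + -(N * sg * De) * j * (ii A * sb)) * v := by
  linear_combination N * sg * (2 * W * e + ii A * a * s * u - ii A * a * sb * v) * hD

section pin
variable {Di : A} (k : K.Is) (q : p.Is K) (hD : (kk K p).De * Di = 1)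
include k q hD

theorem pin_is : (pin K p Di).Is K := by
  have c1 : K.c (kk K p).De = (kk K p).De := by
    simp only [KC.De, kk, Hp.kc, map_add, map_sub, map_mul, map_ofNat, k.z1, q.ca, q.cM]
  have c2 : K.c Di = Di := by
    have := congrArg K.c hD
    rw [map_mul, c1, map_one] at this
    linear_combination Di * this - K.c Di * hD
  have d1 : ∀ i, i ≠ 1 → K.d i (K.z 1) = 0 := fun i hi => by rw [k.dz, if_neg hi]
  have d2 : ∀ i, i ≠ 1 → K.d i Di = 0 := fun i hi => d_inv _ hD (by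
    simp only [KC.De, kk, Hp.kc, D_add, D_sub, D_mul, D_num, d1 i hi, q.da, q.dM]; ring)
  refine ⟨q.ca, q.cM, ?_, ?_, q.da, q.dM, fun i hi => ?_, fun i hi => ?_, q.hg⟩
  · simp only [pin, KC.W, kk, Hp.kc, map_add, map_mul, map_ofNat, k.z1, q.ca, q.ch, c2]
  · simp only [pin, map_add, map_mul, q.ca, q.cj, c2]
  · simp only [pin, KC.W, kk, Hp.kc, D_add, D_mul, D_num, d1 i hi, q.da, q.dh i hi, d2 i hi]; ring
  · simp only [pin, D_add, D_mul, q.da, q.dj i hi, d2 i hi]; ring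

/-- The outgoing frame is a boost of the principal frame. -/
theorem frK_bo (S : Geo A) : (frK K (pin K p Di)).bo S
    ((K.z 1 * K.z 1 + p.a * p.a * K.kc.x * K.kc.x) * Di) (p.sg * (kk K p).De) 1 = frO K p := by
  have g := q.hg
  simp only [Fr.bo, frK, frO, map_one, one_smul, Fr.mk.injEq]
  refine ⟨funext fun a => ?_, funext fun a => ?_, funext fun a => ?_, funext fun a => ?_⟩
  all_goals simp only [Pi.smul_apply, smul_eq_mul, KC.th, KC.tp, KC.et, KC.ep, oth, otp, oet, oep,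
    kk_V, k.prj_V]
  · exact bo1 _ _ _ _ _ _ _ _ _ _ _ g hD
  · exact bo2 _ _ _ _ _ _ _ _ _ _ _ _ hD
  all_goals simp only [pin, kk, KC.z, KC.zb]; ring

end pin

theorem pin_pb {B : Subalgebra ℂ A} {Di : A} (h : HB K B) (q : PB p B) (b : Di ∈ B) :
    PB (pin K p Di) B :=
  ⟨q.a, q.M, q.sg, add_mem q.h1 (mul_mem (mul_mem (ofNat_mem _ 2) (kk_bd h q).2.2.1) b),
    add_mem q.j1 (mul_mem q.a b)⟩

end Vale.Agent.P354XD
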