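import Vale.Agent.P354XD.G1S
import Vale.Agent.P354YA.Uni

/-!
Uniform statements for the transverse frame of a metric which is close to Kerr at a point.
-/

set_option linter.all false

open scoped ContDiff
open Set Filter Topology

namespace Vale.Agent.P354XD

open Vale.Agent.P354XE (Tw gin)
open Vale.Agent.P354XG hiding Dom Dom0 Bd bdSub domI Keeps Low dom0_mk dom0_zero dom0_cst dom_of
  dom_zero dom_cst bd_alg dom_sum dom0_sum keeps_pd keeps_zero keeps_sum bd_closure dom_pb_aff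
  bd_fn bd_par
open Vale.Agent.P354MG hiding Sml
open Vale.Agent.P354XR hiding pw
open Vale.Agent.P354YA
open Vale.Agent.P354Z (f4 An)

/-- The grading which is given by a decreasing sequence of filters. -/
@[reducible] def grSeq {J : Type} (f : ℕ → Filter J) (h : Antitone f) : Gr (⨅ k, f k) where
  Th := Unit
  th _ := ()
  ph k _ := f k
  anti _ _ _ e := h e
  th_eq _ _ := Eventually.of_forall fun _ => rfl
  ev P := (mem_iInf_of_directed h.directed_ge _).trans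
    ⟨fun ⟨k, e⟩ => ⟨k, fun _ => e⟩, fun ⟨k, e⟩ => ⟨k, e ()⟩⟩

theorem qq_dom {J E : Type} [NormedAddCommGroup E] [NormedSpace ℝ E] {F : Filter J}
    {K : J → Set E} [Gr F] {μ : ℕ → J → ℝ} {ι : Type} [Fintype ι]
    (X : ι → Der (Sm (nb F K))) (q : J × E → ℕ → Sm (nb F K) → ℝ)
    (q0 : ∀ p f, q p 0 f = ‖rep f p‖ ^ 2)
    (q1 : ∀ p n f, q p (n + 1) f = q p n f + ∑ i, q p n (X i f))
    (hX : ∀ i f, Dom μ f → Dom μ (X i f)) (n : ℕ) {f : Sm (nb F K)} (hf : Dom μ f) :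
    ∀ᶠ k in atTop, ∀ θ, ∃ C, ∀ᶠ j in ph F k θ, ∀ x ∈ K j, q (j, x) n f ≤ C * μ k j ^ 2 := by
  induction n generalizing f with
  | zero =>
    refine Eventually.mono hf.dom0 fun k h θ => ?_
    obtain ⟨C, -, h⟩ := h θ
    exact ⟨C ^ 2, h.mono fun j h x hx => by
      rw [q0, ← mul_pow]; exact pow_le_pow_left₀ (norm_nonneg _) (h x hx) 2⟩
  | succ n ih =>
    filter_upwards [ih hf, eventually_all.2 fun i => ih (hX i f hf)] with k h1 h2 θ
    obtain ⟨C, h1⟩ := h1 θ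
    choose D h2 using fun i => h2 i θ
    refine ⟨C + ∑ i, D i, ?_⟩
    filter_upwards [h1, eventually_all.2 h2] with j h1 h2 x hx
    rw [q1, add_mul, Finset.sum_mul]
    exact add_le_add (h1 x hx) (Finset.sum_le_sum fun i _ => h2 i x hx)

theorem GCl.f4 {A : Type} [CommRing A] [Algebra ℂ A] {c : A →+* A} {N : Hen c} {G G0 : GHP A}
    (h : GCl N G G0) (i : Fin 4) {f f' : A} (e : N.Cg f f') : N.Cg (f4 G i f) (f4 G0 i f') := by
  fin_cases i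
  exacts [h.th e, h.tp e, h.et e, h.ep e]

section
variable (M a r1 r2 : ℝ)

/-- The metric g is a vacuum metric near the point x of a shell, and it is close to Kerr. -/
def Hy (k : ℕ) (j : Tw × E6 × ℝ) : Prop :=
  VacAt j.1 (pj j.2.1) ∧ r1 ≤ j.2.1.2.1 ∧ j.2.1.2.1 ≤ r2 ∧ An j.2.1 ∧
    P354XE.Bd k (j.1 - gin M a) (pj j.2.1) j.2.2

def fl (k : ℕ) : Filter (Tw × E6 × ℝ) := comap (fun j => j.2.2) (𝓝 0) ⊓ 𝓟 {j | Hy M a r1 r2 k j}

variable {M a r1 r2}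

theorem fl_anti : Antitone (fl M a r1 r2) := fun k k' e => inf_le_inf_left _
  (principal_mono.2 fun j h => ⟨h.1, h.2.1, h.2.2.1, h.2.2.2.1, fun m hm => h.2.2.2.2 m (hm.trans e)⟩)

theorem fl_hy (k : ℕ) : ∀ᶠ j in fl M a r1 r2 k, Hy M a r1 r2 k j :=
  mem_inf_of_right (mem_principal_self _)

theorem fl_ev {k : ℕ} {P : Tw × E6 × ℝ → Prop} (h : ∀ᶠ j in fl M a r1 r2 k, P j) :
    ∃ δ > 0, ∀ j, |j.2.2| ≤ δ → Hy M a r1 r2 k j → P j := by
  obtain ⟨δ, hδ, h⟩ := Metric.eventually_nhds_iff.1 (eventually_comap.1 (eventually_inf_principal.1 h))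
  refine ⟨δ / 2, half_pos hδ, fun j e => h ?_ j rfl⟩
  rw [Real.dist_eq, sub_zero]
  exact e.trans_lt (half_lt_self hδ)

theorem fl_lim (k : ℕ) : Tendsto (fun j : Tw × E6 × ℝ => |j.2.2|) (fl M a r1 r2 k) (𝓝 0) := by
  have : Tendsto (fun j : Tw × E6 × ℝ => j.2.2) (fl M a r1 r2 k) (𝓝 0) :=
    tendsto_comap.mono_left inf_le_left
  simpa using this.abs

theorem wgt_d : Wgt fun (_ : ℕ) (j : Tw × E6 × ℝ) => |j.2.2| :=
  ⟨fun _ _ => abs_nonneg _, fun _ _ _ _ => le_rfl⟩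

theorem Hy.rg {k : ℕ} {j : Tw × E6 × ℝ} (h : Hy M a r1 r2 k j) :
    Rg (min (min |M| r1) (1 / 2)) (max (max |M| |a|) (max r2 (3 / 2))) M a j.2.1 :=
  ⟨(min_le_left _ _).trans (min_le_left _ _), (le_max_left _ _).trans (le_max_left _ _),
    (le_max_right _ _).trans (le_max_left _ _), ((min_le_left _ _).trans (min_le_right _ _)).trans h.2.1,
    h.2.2.1.trans ((le_max_left _ _).trans (le_max_right _ _)),
    (min_le_right _ _).trans h.2.2.2.1.1,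
    h.2.2.2.1.2.trans ((le_max_right _ _).trans (le_max_right _ _))⟩

theorem Hy.bd {k m : ℕ} {j : Tw × E6 × ℝ} (h : Hy M a r1 r2 k j) (e : m ≤ k) :
    P354XE.Bd m (j.1 - gin M a) (pj j.2.1) (1 * |j.2.2|) := fun i hi v w =>
  (h.2.2.2.2 i (hi.trans e) v w).trans (mul_le_mul_of_nonneg_right
    ((le_abs_self _).trans_eq (one_mul _).symm) (by positivity))

end

/-- **(V)** The transverse frame is defined for a metric which is C2 close to Kerr. -/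
theorem ku_of (M a r1 r2 : ℝ) (hM : M ≠ 0) (h1 : 0 < r1) : ∃ e > 0, ∀ (g : Tw) (x : E6) (d : ℝ),
    |d| ≤ e → VacAt g (pj x) → r1 ≤ x.2.1 → x.2.1 ≤ r2 → An x →
      P354XE.Bd 2 (g - gin M a) (pj x) d → x ∈ KU M a g := by
  letI := Gr.triv (fl M a r1 r2 2)
  have r : Reg (fl M a r1 r2 2) (fun j => {j.2.1}) (fun _ => M) fun _ => a :=
    Eventually.of_forall fun k θ => ⟨_, lt_min (lt_min (abs_pos.2 hM) h1) (by norm_num), _,
      (fl_hy 2).mono fun j h x hx => hx ▸ h.rg⟩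
  have hv : ∀ᶠ j in fl M a r1 r2 2, ∀ x ∈ ({j.2.1} : Set E6), VacAt j.1 (pj x) :=
    (fl_hy 2).mono fun j h x hx => hx ▸ h.1
  have o := (r.near0 (g := fun j => j.1) hv wgt_d (Eventually.of_forall fun k θ => fl_lim 2)
    (Eventually.of_forall fun k θ => ⟨1, zero_le_one,
      (fl_hy 2).mono fun j h x hx => hx ▸ h.bd le_rfl⟩)).1
  obtain ⟨e, he, h⟩ := fl_ev (ev_nb_on ((okT_iff (r.pos.and (r.vac hv))).1 o))
  exact ⟨e, he, fun g x d a1 a2 a3 a4 a5 a6 => h (g, x, d) a1 ⟨a2, a3, a4, a5, a6⟩ x rfl⟩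

/-- **(D)** The jets of P0 and P4 of the transverse frame are small. -/
theorem eta_le (M a r1 r2 : ℝ) (hM : M ≠ 0) (h1 : 0 < r1) (n : ℕ) : ∃ m C, ∃ e > 0,
    ∀ (g : Tw) (x : E6) (d : ℝ), |d| ≤ e → VacAt g (pj x) → r1 ≤ x.2.1 → x.2.1 ≤ r2 → An x →
      P354XE.Bd m (g - gin M a) (pj x) d → eta M a n g x ≤ C * d ^ 2 := by
  letI := grSeq (fl M a r1 r2) fl_anti
  have r : Reg (⨅ k, fl M a r1 r2 k) (fun j => {j.2.1}) (fun _ => M) fun _ => a :=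
    Eventually.of_forall fun k θ => ⟨_, lt_min (lt_min (abs_pos.2 hM) h1) (by norm_num), _,
      (fl_hy k).mono fun j h x hx => hx ▸ h.rg⟩
  have hv : ∀ᶠ j in ⨅ k, fl M a r1 r2 k, ∀ x ∈ ({j.2.1} : Set E6), VacAt j.1 (pj x) :=
    ((fl_hy 0).mono fun j h x hx => hx ▸ h.1).filter_mono (iInf_le _ 0)
  have s : P354MG.Sml (⨅ k, fl M a r1 r2 k) fun _ j => |j.2.2| :=
    Eventually.of_forall fun k θ => fl_lim k
  obtain ⟨o, -, c⟩ := r.near (g := fun j => j.1) hv wgt_d s (ev_gr.2 ⟨0, fun n k e θ =>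
    ⟨1, zero_le_one, (fl_hy k).mono fun j h x hx => hx ▸ h.bd e⟩⟩)
  have u := (okT_iff (r.pos.and (r.vac hv))).1 o
  have hX : ∀ i f, Dom (fun _ j => |j.2.2|) f → Dom (fun _ j => |j.2.2|)
      (f4 (gT (nb (⨅ k, fl M a r1 r2 k) fun j => {j.2.1}) M a fun j => j.1) i f) := fun i f h =>
    Hen.cg_zero.1 ((c.f4 i (Hen.cg_zero.2 h)).to (D_zero _))
  obtain ⟨k, ⟨e0, e4⟩, e⟩ := (((qq_dom _ (qq _) (fun _ _ => rfl) (fun _ _ _ => rfl) hX n
    (Hen.cg_zero.1 c.P0)).and (qq_dom _ (qq _) (fun _ _ => rfl) (fun _ _ _ => rfl) hX n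
    (Hen.cg_zero.1 c.P4))).and (evk (ev_nb_on (etG_eq u n)))).exists
  obtain ⟨C0, e0⟩ := e0 ()
  obtain ⟨C4, e4⟩ := e4 ()
  obtain ⟨δ, hδ, h⟩ := fl_ev ((e0.and e4).and (e ()))
  refine ⟨k, C0 + C4, δ, hδ, fun g x d a1 a2 a3 a4 a5 a6 => ?_⟩
  obtain ⟨⟨b0, b4⟩, b⟩ := h (g, x, d) a1 ⟨a2, a3, a4, a5, a6⟩
  rw [← b x rfl, add_mul, ← sq_abs d]
  exact add_le_add (b0 x rfl) (b4 x rfl)

end Vale.Agent.P354XD
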