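import Vale.Agent.P354RI.Fun
import Vale.Agent.P354MG.Gg

/-!
The root of a quartic equation, the integral along the base curve, the connectivity of the slices.
-/

set_option linter.all false

open scoped ContDiff
open Set Filter Topology

namespace Vale.Agent.P354XD

open Vale.Agent.P354XG hiding Dom Dom0 Bd bdSub domI Keeps Low dom0_mk dom0_zero dom0_cst dom_of
  dom_zero dom_cst bd_alg dom_sum dom0_sum keeps_pd keeps_zero keeps_sum bd_closure dom_pb_aff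
  bd_fn bd_par Conn gron gron0 dom_of_sys dom_sub_ev0
open Vale.Agent.P354MG Vale.Agent.P354RI
open Vale.Agent.P354XO (Om)

theorem ex_psi4 : ∃ ψ : (Fin 3 → ℂ) → ℂ, ∃ δ > 0, ∀ w ∈ Metric.ball (0 : Fin 3 → ℂ) δ,
    ContDiffAt ℝ ∞ ψ w ∧ 1 + ψ w + w 0 * ψ w ^ 2 + w 1 * ψ w ^ 3 + w 2 * ψ w ^ 4 = 0 := by
  let f : (Fin 3 → ℂ) × ℂ → ℂ := fun u =>
    1 + u.2 + u.1 0 * u.2 ^ 2 + u.1 1 * u.2 ^ 3 + u.1 2 * u.2 ^ 4
  have hf : ContDiffAt ℂ ω f (0, -1) := by fun_prop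
  have hi : (fderiv ℂ f (0, -1) ∘L .inr ℂ (Fin 3 → ℂ) ℂ).IsInvertible := by
    have d1 := (hf.differentiableAt (by simp)).hasFDerivAt.comp (-1 : ℂ)
      (hasFDerivAt_prodMk_right (𝕜 := ℂ) (0 : Fin 3 → ℂ) (-1 : ℂ))
    have d2 : HasFDerivAt (f ∘ fun z => ((0 : Fin 3 → ℂ), z)) (ContinuousLinearMap.id ℂ ℂ) (-1) := by
      have : (f ∘ fun z => ((0 : Fin 3 → ℂ), z)) = fun z => 1 + z := by funext z; simp [f]
      rw [this]
      exact (hasFDerivAt_id _).const_add 1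
    rw [d1.unique d2]
    exact ⟨ContinuousLinearEquiv.refl ℂ ℂ, rfl⟩
  have c := hf.contDiffAt_implicitFunction (by simp) hi
  have e1 := c.eventually (by simp)
  have e2 := hf.eventually_apply_implicitFunction (by simp) hi
  generalize hf.implicitFunction (by simp) hi = ψ at c e1 e2
  obtain ⟨δ, hδ, h⟩ := Metric.eventually_nhds_iff_ball.1 (e1.and e2)
  exact ⟨ψ, δ, hδ, fun w hw => ⟨((h w hw).1.restrict_scalars ℝ).of_le le_top,
    by simpa [f] using (h w hw).2⟩⟩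

theorem qrt : QRT := fun J F _ K ν hν s a b c ha hb hc => by
  obtain ⟨ψ, δ, hδ, h⟩ := ex_psi4
  let u : Fin 3 → Sm (nb F K) := ![a, b, c]
  have hu : ∀ i, Dom ν (u i) := fun i => by fin_cases i <;> assumption
  have d := half_pos hδ
  have e : ∀ᶠ j in F, ∀ x ∈ K j, vec u (j, x) ∈ Metric.closedBall (0 : Fin 3 → ℂ) (δ / 2) :=
    (eventually_all.2 fun i => (hu i).ev_lt s _ d).mono fun j h x hx => by
      rw [mem_closedBall_zero_iff, pi_norm_le_iff_of_nonneg d.le]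
      exact fun i => (h i x hx).le
  have sb := Metric.closedBall_subset_ball (x := (0 : Fin 3 → ℂ)) (half_lt_self hδ)
  have hψ : ContDiffOn ℝ ∞ ψ (Metric.ball 0 δ) := fun w hw => (h w hw).1.contDiffWithinAt
  have r := rs_cmp Metric.isOpen_ball hψ (e.mono fun j h x hx => sb (h x hx))
  refine ⟨cmp ψ u, bd_cmp Metric.isOpen_ball hψ (fun i v => ((hu i).bd s hν).pd v)
    ((evk e).mono fun k h θ => ⟨_, isCompact_closedBall _ _, sb, h θ⟩), ?_⟩
  refine ((((rs_one.add r).add ((rs_rep a).mul (r.pow 2))).add ((rs_rep b).mul (r.pow 3))).add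
    ((rs_rep c).mul (r.pow 4))).ext rs_zero ?_
  filter_upwards [eventually_all.2 fun i => ev_of_on (P := fun z => ‖z‖ < δ)
    (isOpen_lt continuous_norm continuous_const) ((hu i).ev_lt s _ hδ)] with p hp
  exact (h (vec u p) (by rw [mem_ball_zero_iff, pi_norm_lt_iff hδ]; exact hp)).2

section tim
variable {J : Type} {F : Filter J} {K : J → Set E6} {t0 : J → ℝ} {R : ℝ}

def e0t : E6 := (1, 0, 0, 0)

/-- The segments of the base curve. -/
noncomputable def Xt (t0 : J → ℝ) (R : ℝ) (p : J × (ℝ × E6)) : E6 :=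
  (t0 p.1, R, 1, 1) + (p.2.1 * (p.2.2.1 - t0 p.1)) • e0t

noncomputable def tau (t0 : J → ℝ) : Sm (nb F K) := (hp _).z 0 - cst fun j => t0 j

theorem rs_tau : Rs (tau t0 : Sm (nb F K)) fun p => (p.2.1 : ℂ) - t0 p.1 :=
  (rs_z 0).sub (P354XR.rs_cst _)

theorem pd_tau (v : E6) : pd v (tau t0 : Sm (nb F K)) = algebraMap ℂ _ v.1 := by
  simp only [tau, D_sub, pd_cst, sub_zero, hp, zz, pd_clm]; rfl

variable (h : Mp F (cyl K) K (Xt t0 R))

theorem xt_co (l : E6 →L[ℝ] ℂ) : h.co l = cst (fun j => l (t0 j, R, 1, 1)) +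
    par * up (tau t0) * algebraMap ℂ _ (l e0t) := by
  have ru : Rs (up (tau t0 : Sm (nb F K))) fun p => (p.2.2.1 : ℂ) - t0 p.1 :=
    (mp_up.rep_pb _).trans ((mp_up.ev rs_tau).mono fun p h => by simpa [aff] using h)
  have rc : Rs (cst (fun j => l (t0 j, R, 1, 1)) : Sm (nb F (cyl K)))
      fun p => l (t0 p.1, R, 1, 1) := rs_mk (smF_const fun j => l (t0 j, R, 1, 1))
  have rp : Rs (par : Sm (nb F (cyl K))) fun p => (p.2.1 : ℂ) := rep_par
  have r0 : Rs (h.co l) fun p => l (Xt t0 R p) := rs_mk (h.sm_co l)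
  refine r0.ext (rc.add ((rp.mul ru).mul (rs_alg _))) (Eventually.of_forall fun p => ?_)
  simp only [Xt, map_add, map_smul, Complex.real_smul, Complex.ofReal_mul, Complex.ofReal_sub]

theorem xt_pd (f : Sm (nb F K)) : ∃ γ, ∀ (σ : ℝ) (v : E6), pd (σ, v) (h.pb f) =
    (algebraMap ℂ _ σ * up (tau t0) + par * algebraMap ℂ _ v.1) * γ := by
  let B := Module.finBasis ℝ E6
  refine ⟨∑ i, algebraMap ℂ _ (bco B i e0t) * h.pb (pd (B i) f), fun σ v => ?_⟩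
  rw [h.pd_pb B, Finset.mul_sum]
  refine Finset.sum_congr rfl fun i _ => ?_
  rw [xt_co, D_add, pd_cst, D_mul, D_mul, D_alg, pd_up, pd_tau, pd_par, AlgHom.commutes]
  ring

theorem xt_int (f : Sm (nb F K)) (v : E6) :
    pd v (tau t0 * int (h.pb f)) = algebraMap ℂ _ v.1 * lev1 (h.pb f) := by
  obtain ⟨γ, k⟩ := xt_pd h f
  generalize h.pb f = g at k ⊢
  have := int_pd (par * g)
  rw [map_mul lev1, map_mul lev0, lev0_par, lev1_par, D_mul, pd_par, k, int_add] at this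
  rw [D_mul, pd_int, k, pd_tau, ← int_up_mul, show up (tau t0) * ((algebraMap ℂ _ (0 : ℝ) *
    up (tau t0) + par * algebraMap ℂ _ v.1) * γ) = up (algebraMap ℂ _ v.1) *
      (par * (up (tau t0) * γ)) by
      rw [AlgHom.commutes]; simp only [Complex.ofReal_zero, map_zero]; ring, int_up_mul]
  simp only [Prod.fst_zero, Complex.ofReal_zero, Complex.ofReal_one, map_zero, map_one, mul_one,
    one_mul, mul_zero, zero_mul, add_zero, sub_zero] at this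
  rw [← this]; ring

end tim

theorem tim : TIM := fun J m _ o f hf => by
  have h : Mp m.F (cyl fun j => Om (m.D j)) (fun j => Om (m.D j)) (Xt m.t0 m.R1) := by
    refine ⟨Eventually.of_forall fun p => by simp only [Xt]; fun_prop,
      o.op.mono fun j h x hx => ⟨(h.2 _ hx.2.1).2.2 ?_, by simp [Xt, e0t]⟩⟩
    rw [segment_eq_image']
    exact ⟨x.1, hx.1, by simp [Xt, e0t]⟩
  have l1 : lev1 (h.pb f) = o.bs f := Rs.ext (rep_lev1 _) (o.rs_bs f)
    (((mp_lev (right_mem_Icc.2 zero_le_one)).ev (h.rep_pb f)).mono fun p h => by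
      simpa [aff, Xt, e0t] using h)
  have du := xt_int h f
  rw [l1] at du
  refine ⟨tau m.t0 * int (h.pb f), ?_, ?_, fun i hi => ?_⟩
  · rw [map_mul, ← int_cj, ← h.pb_cj, hf,
      (rs_tau (t0 := m.t0)).cj.ext (rs_tau (t0 := m.t0)) (Eventually.of_forall fun p => by simp)]
  · rw [hp_d, du, du]; simp [d1, d2, v1]
  · rw [hp_d, du, du]
    fin_cases i <;> first | exact absurd rfl hi | simp [v1, v2]

/-- Three segments in A from 1 to z. -/
def P3 (A : Set ℂ) (z : ℂ) : Prop :=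
  ∃ p q, segment ℝ 1 p ⊆ A ∧ segment ℝ p q ⊆ A ∧ segment ℝ q z ⊆ A

theorem cv_dsc : Convex ℝ Dsc := by
  simpa [Dsc, Metric.closedBall] using convex_closedBall (0 : ℂ) 4

theorem p3_dsc {z : ℂ} (h : z ∈ Dsc) : P3 Dsc z := by
  have e : (1 : ℂ) ∈ Dsc := by norm_num [Dsc]
  exact ⟨1, 1, cv_dsc.segment_subset e e, cv_dsc.segment_subset e e, cv_dsc.segment_subset e h⟩

theorem seg_ann {a b c : ℂ} (hc : ‖c‖ ≤ 1) (ha : a ∈ Dsc) (hb : b ∈ Dsc)
    (ea : 1 / 16 ≤ (a * c).re) (eb : 1 / 16 ≤ (b * c).re) : segment ℝ a b ⊆ Ann := fun z hz => by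
  refine ⟨?_, cv_dsc.segment_subset ha hb hz⟩
  obtain ⟨s, t, hs, ht, e, rfl⟩ := hz
  have e1 : ((s • a + t • b) * c).re = s * (a * c).re + t * (b * c).re := by simp; ring
  have e2 := Complex.re_le_norm ((s • a + t • b) * c)
  rw [norm_mul] at e2
  nlinarith [norm_nonneg (s • a + t • b), mul_le_mul_of_nonneg_left ea hs,
    mul_le_mul_of_nonneg_left eb ht]

theorem p3_ann {z : ℂ} (h : z ∈ Ann) : P3 Ann z := by
  have n : 0 < ‖z‖ := lt_of_lt_of_le (by norm_num) h.1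
  have sg : ∀ x : ℝ, ∃ s : ℝ, s * s = 1 ∧ |s| = 1 ∧ s * x = |x| := fun x => by
    rcases le_total 0 x with h | h
    exacts [⟨1, by simp [abs_of_nonneg h]⟩, ⟨-1, by simp [abs_of_nonpos h]⟩]
  obtain ⟨s, s1, s2, s3⟩ := sg z.re
  obtain ⟨t, t1, t2, t3⟩ := sg z.im
  have d : ∀ s : ℝ, |s| = 1 → (⟨s, t⟩ : ℂ) ∈ Dsc := fun s e =>
    (Complex.norm_le_abs_re_add_abs_im _).trans (by simp only [e, t2]; norm_num)
  refine ⟨⟨1, t⟩, ⟨s, t⟩, seg_ann (c := 1) (by simp) (by norm_num [Dsc]) (d 1 abs_one)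
    (by norm_num) (by norm_num), seg_ann (c := ⟨0, -t⟩) ?_ (d 1 abs_one) (d s s2)
    (by norm_num [t1]) (by norm_num [t1]), seg_ann (c := starRingEnd ℂ z * (‖z‖⁻¹ : ℝ)) ?_ (d s s2)
    h.2 ?_ ?_⟩
  · exact (Complex.norm_le_abs_re_add_abs_im _).trans (by simp [t2])
  · simp [n.ne']
  · have := Complex.norm_le_abs_re_add_abs_im z
    rw [← mul_assoc, Complex.re_mul_ofReal, le_mul_inv_iff₀ n]
    simp only [Complex.mul_re, Complex.conj_re, Complex.conj_im]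
    linarith
  · rw [← mul_assoc, Complex.mul_conj, Complex.normSq_eq_norm_sq, Complex.re_mul_ofReal,
      Complex.ofReal_re, sq, mul_inv_cancel_right₀ n.ne']
    exact h.1

theorem reach_sl {J : Type} (s : Sl J) (j : J) {S : Set (ℂ × ℂ)} {A B : Set ℂ} (hA : A ⊆ Dsc)
    (hB : B ⊆ Dsc) (hS : A ×ˢ B ⊆ S) {ra rb : ℝ} (h : s.R1 ∈ s.I j ∧ s.I j ⊆ Icc ra rb ∧
      ∀ r ∈ s.I j, segment ℝ s.R1 r ⊆ s.I j) {y : E6} (h1 : y.1 = s.tt j) (h2 : y.2.1 ∈ s.I j)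
    (a : P3 A y.2.2.1) (b : P3 B y.2.2.2) : Reach (s.K S j) (8 + (rb - ra)) (s.x0 j) 4 y := by
  have st : ∀ {r r' : ℝ} {a a' b b' : ℂ}, segment ℝ r r' ⊆ s.I j → segment ℝ a a' ⊆ A →
      segment ℝ b b' ⊆ B → segment ℝ ((s.tt j, r, a, b) : E6) (s.tt j, r', a', b') ⊆ s.K S j ∧
        ‖((s.tt j, r', a', b') : E6) - (s.tt j, r, a, b)‖ ≤ 8 + (rb - ra) := by
    intro r r' a a' b b' e1 e2 e3
    refine ⟨fun x hx => ?_, ?_⟩
    · have k1 := Prod.segment_subset _ _ hx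
      have k2 := Prod.segment_subset _ _ k1.2
      have k3 := Prod.segment_subset _ _ k2.2
      exact ⟨by simpa using k1.1, e1 k2.1, hS ⟨e2 k3.1, e3 k3.2⟩⟩
    · have k1 := h.2.1 (e1 (left_mem_segment ℝ _ _))
      have k2 := h.2.1 (e1 (right_mem_segment ℝ _ _))
      have n : ∀ {A : Set ℂ} {a a' : ℂ}, A ⊆ Dsc → segment ℝ a a' ⊆ A → ‖a' - a‖ ≤ 8 :=
        fun hA e => (norm_sub_le _ _).trans (by
          linarith [show ‖_‖ ≤ 4 from hA (e (left_mem_segment ℝ _ _)),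
            show ‖_‖ ≤ 4 from hA (e (right_mem_segment ℝ _ _))])
      simp only [Prod.mk_sub_mk, Prod.norm_def, max_le_iff, sub_self, norm_zero, Real.norm_eq_abs,
        abs_le]
      refine ⟨?_, ⟨?_, ?_⟩, ?_, ?_⟩ <;> linarith [k1.1, k1.2, k2.1, k2.2, n hA e2, n hB e3]
  obtain ⟨t, r, z, z'⟩ := y
  obtain rfl : t = s.tt j := h1
  obtain ⟨p, q, a1, a2, a3⟩ := a
  obtain ⟨p', q', b1, b2, b3⟩ := b
  have e : segment ℝ r r ⊆ s.I j := by simpa using h2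
  exact ⟨_, ⟨_, ⟨_, ⟨_, rfl, st (h.2.2 r h2) (by simpa using a1 (left_mem_segment ℝ _ _))
    (by simpa using b1 (left_mem_segment ℝ _ _))⟩, st e a1 b1⟩, st e a2 b2⟩, st e a3 b3⟩

theorem conn : CONN := fun J F s ⟨ra, rb, _, h⟩ => by
  refine ⟨⟨4, 8 + (rb - ra), h.mono fun j h y hy => ?_⟩, 4, 8 + (rb - ra), h.mono fun j h y hy =>
    reach_sl s j ann_dsc ann_dsc le_rfl h hy.1 hy.2.1 (p3_ann hy.2.2.1) (p3_ann hy.2.2.2)⟩
  have n1 : y.2.2.1 ∈ Dsc := (norm_fst_le _).trans hy.2.2.2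
  have n2 : y.2.2.2 ∈ Dsc := (norm_snd_le _).trans hy.2.2.2
  rcases le_max_iff.1 hy.2.2.1 with k | k
  · exact reach_sl s j ann_dsc le_rfl sn_sa h hy.1 hy.2.1 (p3_ann ⟨k, n1⟩) (p3_dsc n2)
  · exact reach_sl s j le_rfl ann_dsc ss_sa h hy.1 hy.2.1 (p3_dsc n1) (p3_ann ⟨k, n2⟩)

end Vale.Agent.P354XD
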