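import Vale.Agent.P354SA.Defs
import Vale.Agent.P354J.Uq
import Vale.Agent.P354PU.Gen

/-!
The data which are induced on a slice of the slab.
-/

set_option linter.all false

open scoped ContDiff
open Set Filter Topology

namespace Vale.Agent.P354XD

open Vale.Agent.P354n (R4 IsConn)
open Vale.Agent.P354H (X3 e)
open Vale.Agent.P354C (Ix met detP fr th eta con)
open Vale.Agent.P354I (X ee)
open Vale.Agent.P354R Vale.Agent.P354RC
open Vale.Agent.P354J (nU th_nU)
open Vale.Agent.P354SA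

theorem ee_sum (u : X) : u = ∑ i, u i • ee i := by
  ext j
  simp [ee, Pi.single_apply]

/-- The normal of the slice. -/
theorem nrm_eq {U : R4 → Ix → ℝ} {p m ξ : R4} (hO : 0 < U p .O) (hP : detP (U p) ≠ 0)
    (h1 : ∀ a : X3, met U p (0, a) m = 0) (h2 : met U p m m = -1) (h3 : met U p m ξ < 0)
    (h4 : met U p nv ξ < 0) (h5 : met U p ξ ξ < 0) : m = nU (U p) := by
  have a1 := h1 (fr (U p) 2).2
  have a2 := h1 (fr (U p) 3).2
  have a3 := h1 (fr (U p) 0 - fr (U p) 1).2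
  have b1 : ((0, (fr (U p) 2).2) : R4) = ∑ i, ![(0 : ℝ), 0, 1, 0] i • fr (U p) i := by
    simp [Fin.sum_univ_four, fr, P354C.vec, P354C.E]
  have b2 : ((0, (fr (U p) 3).2) : R4) = ∑ i, ![(0 : ℝ), 0, 0, 1] i • fr (U p) i := by
    simp [Fin.sum_univ_four, fr, P354C.vec, P354C.E]
  have b3 : ((0, (fr (U p) 0 - fr (U p) 1).2) : R4) = ∑ i, ![(1 : ℝ), -1, 0, 0] i • fr (U p) i := by
    simp [Fin.sum_univ_four, fr, P354C.vec, P354C.E]
  have b4 : nv = ∑ i, ![(0 : ℝ), 1, 0, 0] i • fr (U p) i := by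
    simp [Fin.sum_univ_four, fr, P354C.vec, P354C.E, nv]
  have b5 : m = ∑ i, th (U p) m i • fr (U p) i := by
    simp only [Fin.sum_univ_four, fr, P354C.vec, P354C.E, th, Matrix.cons_val, Prod.smul_mk,
      Prod.mk_add_mk, smul_eq_mul]
    refine Prod.ext ?_ (Prod.ext ?_ (Prod.ext ?_ ?_)) <;> simp only [] <;> field_simp <;>
      (try simp only [detP]) <;> ring
  rw [b1] at a1
  rw [b2] at a2
  rw [b3] at a3
  rw [b4] at h4
  simp only [met, P354J.th_sum hP, eta, Matrix.cons_val] at a1 a2 a3 h2 h3 h4 h5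
  rw [b5, nU, Fin.sum_univ_four]
  generalize th (U p) m = θ at *
  generalize th (U p) ξ = η at *
  generalize U p .O = O at *
  have o := (pow_pos hO 2).ne'
  have c1 : θ 2 = 0 := by simpa [hO.ne'] using a1
  have c2 : θ 3 = 0 := by simpa [hO.ne'] using a2
  have c3 : θ 1 = θ 0 := by have := (mul_eq_zero.1 a3).resolve_left o; linarith
  rw [c1, c2, c3] at h2 h3 ⊢
  have d1 : 0 < η 0 := by have := neg_of_mul_neg_right h4 (sq_nonneg O); linarith
  have d2 : 0 < η 1 := by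
    have := neg_of_mul_neg_right h5 (sq_nonneg O)
    exact (mul_pos_iff_of_pos_left d1).1 (by nlinarith [sq_nonneg (η 2), sq_nonneg (η 3)])
  have d3 : 0 < θ 0 := by
    have := neg_of_mul_neg_right h3 (sq_nonneg O)
    exact (mul_pos_iff_of_pos_left (add_pos d1 d2)).1 (by linarith)
  have d4 : θ 0 = (2 * O)⁻¹ := eq_inv_of_mul_eq_one_left
    ((pow_left_inj₀ (by positivity) zero_le_one two_ne_zero).1 (by linarith))
  rw [d4, zero_smul, zero_smul, add_zero, add_zero, smul_add]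

theorem indx : INDX := fun Ψ U B D g Xf J d j W t t' L P F o sJ I hW sj k z hz => by
  let c : X3 → R4 := fun w => (t, w.1 - t', w.2)
  have dc : ∀ w, HasFDerivAt c (ContinuousLinearMap.inr ℝ ℝ X3) w := fun w => by
    have : c = fun w => ((t, -t', 0) : R4) + ContinuousLinearMap.inr ℝ ℝ X3 w := by
      funext w; simp [c, sub_eq_neg_add, Prod.ext_iff]
    rw [this]
    exact (ContinuousLinearMap.hasFDerivAt _).const_add _
  have aΨ : ∀ w ∈ W, ContDiffAt ℝ ∞ Ψ (c w) := fun w hw =>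
    P.smooth.contDiffAt (P.open'.mem_nhds (k w hw).2.1)
  have aJ : ∀ w ∈ W, ContDiffAt ℝ ∞ J (j w) := fun w hw =>
    sJ.contDiffAt (isOpen_compl_singleton.mem_nhds (k w hw).1)
  have aj : ∀ w ∈ W, ContDiffAt ℝ ∞ j w := fun w hw => sj.contDiffAt (hW.mem_nhds hw)
  have e1 : ∀ w ∈ W, ∀ a, fderiv ℝ Ψ (c w) (0, a) = fderiv ℝ J (j w) (fderiv ℝ j w a) :=
    fun w hw a => DFunLike.congr_fun (((at_df (aΨ w hw)).hasFDerivAt.comp w (dc w)).unique
      ((((aJ w hw).differentiableAt (by simp)).hasFDerivAt.comp w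
        ((aj w hw).differentiableAt (by simp)).hasFDerivAt).congr_of_eventuallyEq
        (mem_of_superset (hW.mem_nhds hw) fun v hv => (k v hv).2.2))) a
  have dJ : ContDiffAt ℝ ∞ (fderiv ℝ J) (j z) := (aJ z hz).fderiv_right (by simp)
  have dj := ((aj z hz).differentiableAt (by simp)).hasFDerivAt
  have e2 : ∀ a b, ∃ v, fderiv ℝ (fun q => fderiv ℝ Ψ q (0, b)) (c z) (0, a) =
      fderiv ℝ (fderiv ℝ J) (j z) (fderiv ℝ j z a) (fderiv ℝ j z b) + fderiv ℝ J (j z) v :=
    fun a b => by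
      have s : DifferentiableAt ℝ (fun w => fderiv ℝ j w b) z :=
        (((aj z hz).fderiv_right (m := ∞) (by simp)).clm_apply contDiffAt_const).differentiableAt
          (by simp)
      exact ⟨_, DFunLike.congr_fun (((at_df ((at_fd (aΨ z hz)).clm_apply
        contDiffAt_const)).hasFDerivAt.comp z (dc z)).unique
        ((((dJ.differentiableAt (by simp)).hasFDerivAt.comp z dj).clm_apply
          s.hasFDerivAt).congr_of_eventuallyEq
          (mem_of_superset (hW.mem_nhds hz) fun v hv => e1 v hv b))) a |>.trans (add_comm _ _)⟩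
  obtain ⟨y0, hp, ex⟩ := k z hz
  change c z ∈ B at hp
  change Ψ (c z) = _ at ex
  change P354J.Ind (U (c z)) _ _
  replace e1 := e1 z hz
  generalize c z = p at *
  obtain ⟨G, n, cG, n1, n2, n3⟩ := I _ y0
  obtain ⟨H, r⟩ := rp_of_met L.isOpen L.met
  have hx : J (j z) ∈ D := ex ▸ P.maps hp
  have pe : ∀ a b, met U p a b = H (J (j z)) (fderiv ℝ Ψ p a) (fderiv ℝ Ψ p b) := fun a b => by
    rw [P.eq p hp, ex, r.eq _ hx]
  simp only [r.eq _ hx, P354I.pd] at n1 n2 n3
  have n0 : ∀ u, H (J (j z)) (fderiv ℝ J (j z) u) n = 0 := fun u => by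
    rw [ee_sum u]
    simp [fun i => (n3 i i).1]
  obtain ⟨m, rfl⟩ := surj_of_inj (P.inj p hp) n
  obtain ⟨ξ, hξ⟩ := surj_of_inj (P.inj p hp) (Xf (J (j z)))
  obtain ⟨hO, hP, -⟩ := F.2 p hp
  obtain rfl : m = nU (U p) := nrm_eq (ξ := ξ) hO hP (fun a => by rw [pe, e1, n0])
    (by rw [pe, n1]) (by rwa [pe, hξ]) (by rw [pe, hξ, ← r.eq _ hx, ← ex]; exact o p hp)
    (by rw [pe, hξ, ← r.eq _ hx]; exact L.tl _ hx)
  have i := (P354J.ind U p hP hO.ne').2
  have pg : ∀ (F : X → P354J.M3) a b, P354PU.pg j F z a b =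
      ∑ i, ∑ l, fderiv ℝ j z (e a) i * fderiv ℝ j z (e b) l * F (j z) i l := fun F a b => by
    simp only [P354PU.pg, Matrix.mul_apply, Matrix.transpose_apply, Finset.sum_mul,
      P354PU.JG_eq dj.differentiableAt]
    rw [Finset.sum_comm]
    exact Finset.sum_congr rfl fun _ _ => Finset.sum_congr rfl fun _ _ => by ring
  intro a b
  rw [pg, pg, ← (i _ _).2.2.1, ← (i _ _).2.2.2, pe, e1, e1]
  have q := k2.2.2.2.2 _ _ _ _ _ P _ hp (0, e a) (0, e b) (nU (U p))
  obtain ⟨v, e2⟩ := e2 (e a) (e b)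
  rw [chr, ← (F.vac P.open').1 p hp, e2, e1, e1, ex, r.chr hx, r.eq _ hx, map_add,
    ContinuousLinearMap.add_apply, n0, add_zero, mul_div_cancel_left₀ _ two_ne_zero] at q
  rw [(F.vac P.open').2.2.symm p hp, q]
  generalize fderiv ℝ j z (e a) = u
  generalize fderiv ℝ j z (e b) = v
  have s : ∀ i l, fderiv ℝ (P354I.pd l J) (j z) (ee i) =
      fderiv ℝ (fderiv ℝ J) (j z) (ee i) (ee l) := fun i l => by
    unfold P354I.pd
    rw [fderiv_clm_apply (dJ.differentiableAt (by simp)) (differentiableAt_const _)]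
    simp
  simp only [← fun i l => (n3 i l).2.1, ← fun i l => (n3 i l).2.2, (r.conn hx).1 cG, s, map_add,
    r.symm _ hx (fderiv ℝ Ψ p _), r.gm hx, C1_ap, ContinuousLinearMap.add_apply]
  rw [ee_sum u, ee_sum v]
  simp only [map_sum, map_smul, ContinuousLinearMap.sum_apply, ContinuousLinearMap.smul_apply,
    smul_eq_mul]
  rw [← ee_sum u, ← ee_sum v]
  simp only [Fin.sum_univ_three]
  constructor <;> ring

end Vale.Agent.P354XD
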