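import Vale.Agent.P354XD.UniS
import Vale.Agent.P354MG.Gp

/-!
Simple roots can be lifted in the graded classes.
-/

set_option linter.all false

open scoped ContDiff
open Set Filter Topology

namespace Vale.Agent.P354XD

open Vale.Agent.P354XG hiding Dom Dom0 Bd bdSub domI Keeps Low dom0_mk dom0_zero dom0_cst dom_of
  dom_zero dom_cst bd_alg dom_sum dom0_sum keeps_pd keeps_zero keeps_sum bd_closure dom_pb_aff
  bd_fn bd_par
open Vale.Agent.P354MG hiding Sml

variable {J E : Type} [NormedAddCommGroup E] [NormedSpace ℝ E] {F : Filter J} {K : J → Set E}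
  [Gr F] {μ : ℕ → J → ℝ} {a b : Sm (nb F K)}

theorem sml_gr (h : P354MG.Sml F μ) (ha : Dom0 μ a) : Sml a := fun ε hε =>
  (ha.ev_lt h ε hε).mono fun _ h x hx => (h x hx).le

theorem rt_gr0 (h : P354MG.Sml F μ) (ha : Dom0 μ a) (hb : Dom0 μ b) :
    (opsS rfl).ok a b ∧ Dom0 (w1 J) ((opsS rfl).rt a b) :=
  have k := rt_val (sml_gr h ha) (sml_gr h hb)
  ⟨k.1, dom0_old wgt_one k.2⟩

theorem rt_gr [FiniteDimensional ℝ E] (hμ : Wgt μ) (h : P354MG.Sml F μ) (ha : Dom μ a)
    (hb : Dom μ b) : Bd ((opsS rfl).rt a b) := by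
  obtain ⟨k, z0⟩ := rt_gr0 h ha.dom0 hb.dom0
  have e := (opsS rfl).eq k
  generalize (opsS rfl).rt a b = z at z0 e
  have b2 : Bd (2 : Sm (nb F K)) := ofNat_mem (bdSub F K) 2
  have b3 : Bd (3 : Sm (nb F K)) := ofNat_mem (bdSub F K) 3
  have lo := low_one.add_sml (((Dom0.bmul wgt_one b2.dom0 z0).bmul hμ ha.dom0).add hμ
    ((Dom0.bmul wgt_one b3.dom0 (Dom0.bmul wgt_one z0 z0)).bmul hμ hb.dom0)) h
  obtain ⟨W, hW⟩ := lo.unit.exists_right_inv
  have w0 := lo.dom0 hW
  have ha := ha.bd h hμ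
  have hb := hb.bd h hμ
  let R := Subring.closure (({z, W} : Set _) ∪ {a : Sm (nb F K) | Bd a})
  have mz : z ∈ R := Subring.subset_closure (Or.inl (Or.inl rfl))
  have mW : W ∈ R := Subring.subset_closure (Or.inl (Or.inr rfl))
  have mb : ∀ a, Bd a → a ∈ R := fun a h => Subring.subset_closure (Or.inr h)
  have dz : ∀ v, pd v z ∈ R := fun v => by
    have := congrArg (pd v) e
    simp only [pow_succ, pow_zero, one_mul, D_add, D_mul, D_one, D_zero] at this
    rw [show pd v z = -(W * (pd v a * (z * z) + pd v b * (z * z * z))) by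
      linear_combination W * this - pd v z * hW]
    exact neg_mem (mul_mem mW (add_mem (mul_mem (mb _ (ha.pd v)) (mul_mem mz mz))
      (mul_mem (mb _ (hb.pd v)) (mul_mem (mul_mem mz mz) mz))))
  refine bd_closure {z, W} (Set.toFinite _) ?_ ?_ z mz
  · rintro s (rfl | rfl)
    exacts [z0, w0]
  · rintro s (rfl | rfl) v
    · exact dz v
    · have := congrArg (pd v) hW
      simp only [D_add, D_mul, D_one, D_num] at this
      rw [show pd v s = -(s * s * (2 * (z * pd v a + a * pd v z) +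
          3 * (z * z * pd v b + 2 * (b * z * pd v z)))) by
        linear_combination s * this - pd v s * hW]
      exact neg_mem (mul_mem (mul_mem mW mW) (add_mem (mul_mem (mb _ b2) (add_mem
        (mul_mem mz (mb _ (ha.pd v))) (mul_mem (mb _ ha) (dz v)))) (mul_mem (mb _ b3) (add_mem
        (mul_mem (mul_mem mz mz) (mb _ (hb.pd v))) (mul_mem (mb _ b2)
          (mul_mem (mul_mem (mb _ hb) mz) (dz v)))))))

variable (K) in
/-- The graded classes. -/
noncomputable def henG [FiniteDimensional ℝ E] (hμ : Wgt μ) (h : P354MG.Sml F μ) :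
    Hen (cj : Sm (nb F K) →+* _) where
  B := bdSub F K
  I := { carrier := {a | Dom μ a}
         add_mem' := fun ha hb => Dom.add hμ ha hb
         zero_mem' := dom_zero hμ
         neg_mem' := fun ha => Dom.neg hμ ha }
  le _ ha := Dom.bd ha h hμ
  mul _ hb _ ha := Dom.bmul hμ hb ha
  cB _ ha := Dom.cj ha
  cI _ ha := Dom.cj ha
  inv _ ha := Low.inv (add_mem (one_mem (bdSub F K)) (Dom.bd ha h hμ)) (Dom.low_one_add ha h)
  root _ ha _ hb := ⟨_, rt_gr hμ h ha hb, (opsS rfl).eq (rt_gr0 h (Dom.dom0 ha) (Dom.dom0 hb)).1⟩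

variable (K) in
/-- The graded classes of the values. -/
noncomputable def henG0 (hμ : Wgt μ) (h : P354MG.Sml F μ) : Hen (cj : Sm (nb F K) →+* _) where
  B := { carrier := {a | Dom0 (w1 J) a}
         mul_mem' := fun ha hb => Dom0.bmul wgt_one ha hb
         add_mem' := fun ha hb => Dom0.add wgt_one ha hb
         algebraMap_mem' := fun z => (bd_alg z).dom0 }
  I := { carrier := {a | Dom0 μ a}
         add_mem' := fun ha hb => Dom0.add hμ ha hb
         zero_mem' := dom0_zero hμ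
         neg_mem' := fun ha => Dom0.neg hμ ha }
  le _ ha := Dom0.mono ha (h.le hμ)
  mul _ hb _ ha := Dom0.bmul hμ hb ha
  cB _ ha := Dom0.cj ha
  cI _ ha := Dom0.cj ha
  inv _ ha :=
    have lo := low_one.add_sml ha h
    let ⟨b, e⟩ := lo.unit.exists_right_inv
    ⟨b, lo.dom0 e, e⟩
  root _ ha _ hb := ⟨_, (rt_gr0 h ha hb).2, (opsS rfl).eq (rt_gr0 h ha hb).1⟩

theorem fit_G [FiniteDimensional ℝ E] (hμ : Wgt μ) (h : P354MG.Sml F μ) :
    (opsS rfl).Fit (henG K hμ h) :=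
  fun _ ha _ hb => ⟨(rt_gr0 h (Dom.dom0 ha) (Dom.dom0 hb)).1, rt_gr hμ h ha hb⟩

theorem fit_G0 (hμ : Wgt μ) (h : P354MG.Sml F μ) : (opsS rfl).Fit (henG0 K hμ h) :=
  fun _ ha _ hb => rt_gr0 h ha hb

theorem henG_cg [FiniteDimensional ℝ E] (hμ : Wgt μ) (h : P354MG.Sml F μ) :
    (henG K hμ h).Cg a b ↔ Bd b ∧ Dom μ (a - b) := Iff.rfl
theorem henG0_cg (hμ : Wgt μ) (h : P354MG.Sml F μ) :
    (henG0 K hμ h).Cg a b ↔ Dom0 (w1 J) b ∧ Dom0 μ (a - b) := Iff.rfl

end Vale.Agent.P354XD
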