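import Vale.Agent.P354XD.Cmp
import Vale.Agent.P354CV.Bas

/-!
Transport along the outgoing rays: the triangular system for the differences of two GHP structures
in the outgoing gauge.
-/

set_option linter.all false

namespace Vale.Agent.P354XD

open Vale.Agent.P354XG Vale.Agent.P354XR
open Vale.Agent.P354CV (Spn)

variable {A : Type} [CommRing A] [Algebra ℂ A] {K : Hp A}

/-- Linear systems along D with small sources whose solution lies in I0 have small solutions. -/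
structure Trp (N : Hen K.c) (D : Der A) (I0 : AddSubgroup A) : Prop where
  d : ∀ i {f f'}, N.Cg f f' → N.Cg (K.d i f) (K.d i f')
  mul : ∀ b ∈ N.B, ∀ a ∈ I0, b * a ∈ I0
  tg : ∀ (n : ℕ) (X : Fin n → A), (∀ i, ∃ M : Fin n → A, (∀ k, M k ∈ N.B) ∧
    D (X i) - ∑ k, M k * X k ∈ N.I) → (∀ i, X i ∈ I0) → ∀ i, X i ∈ N.I

/-- Close fields. -/
structure DCl (N : Hen K.c) (E E0 : Der A) : Prop where
  s : Spn K E
  s0 : Spn K E0
  z : ∀ i, N.Cg (E (K.z i)) (E0 (K.z i))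

variable {N : Hen K.c} {D E E0 : Der A} {I0 : AddSubgroup A} {f f' x y m : A}

theorem DCl.symm (h : DCl N E E0) : DCl N E0 E := ⟨h.s0, h.s, fun i => (h.z i).symm⟩
theorem DCl.self (h : DCl N E E0) : DCl N E E := ⟨h.s, h.s, fun i => .refl (h.z i).mem⟩
theorem DCl.self0 (h : DCl N E E0) : DCl N E0 E0 := h.symm.self

theorem DCl.ap' (h : DCl N E E0) (k : ∀ i, N.Cg (K.d i f) (K.d i f')) : N.Cg (E f) (E0 f') := by
  rw [h.s f, h.s0 f']
  exact .sum _ fun i _ => (h.z i).mul (k i)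

namespace Trp
variable (t : Trp N D I0)
include t

theorem ap (h : DCl N E E0) (k : N.Cg f f') : N.Cg (E f) (E0 f') := h.ap' fun i => t.d i k

theorem bd (h : DCl N E E0) (k : f ∈ N.B) : E f ∈ N.B := (t.ap h (.refl k)).mem

theorem sm (h : DCl N E E0) (k : f ∈ N.I) : E f ∈ N.I :=
  Hen.cg_zero.1 ((t.ap h (Hen.cg_zero.2 k)).to (D_zero _))

theorem one (hm : m ∈ N.B) (h0 : x ∈ I0) (h : D x - m * x ∈ N.I) : x ∈ N.I :=
  t.tg 1 (fun _ => x) (fun _ => ⟨fun _ => m, fun _ => hm, by simpa using h⟩) (fun _ => h0) 0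

/-- A scalar equation for a difference. -/
theorem dif {x0 : A} (hm : m ∈ N.B) (b : x0 ∈ N.B) (h0 : x - x0 ∈ I0) {u u0 : A}
    (e : D x = m * x + u) (e0 : D x0 = m * x0 + u0) (h : N.Cg u u0) : N.Cg x x0 :=
  ⟨b, t.one hm h0 (by
    have : D (x - x0) - m * (x - x0) = u - u0 := by rw [D_sub, e, e0]; ring
    exact this ▸ h.2)⟩

theorem two {a b c d : A} (ha : a ∈ N.B) (hb : b ∈ N.B) (hc : c ∈ N.B) (hd : d ∈ N.B)
    (hx : x ∈ I0) (hy : y ∈ I0) (e : D x - (a * x + b * y) ∈ N.I)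
    (e' : D y - (c * x + d * y) ∈ N.I) : x ∈ N.I ∧ y ∈ N.I := by
  have := t.tg 2 ![x, y] (Fin.forall_fin_two.2 ⟨⟨![a, b], Fin.forall_fin_two.2 ⟨ha, hb⟩, by
    simpa [Fin.sum_univ_two] using e⟩, ⟨![c, d], Fin.forall_fin_two.2 ⟨hc, hd⟩, by
    simpa [Fin.sum_univ_two] using e'⟩⟩) (Fin.forall_fin_two.2 ⟨hx, hy⟩)
  exact ⟨this 0, this 1⟩

/-- The transport of the components of a field. -/
theorem fld (s : Spn K E) (b : DCl N E0 E0) (hD : ∀ i, D (K.z i) ∈ N.B) (hm : m ∈ N.B)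
    (h0 : ∀ i, E (K.z i) - E0 (K.z i) ∈ I0) {u u0 : Fin 6 → A}
    (e : ∀ i, D (E (K.z i)) = E (D (K.z i)) + m * E (K.z i) + u i)
    (e0 : ∀ i, D (E0 (K.z i)) = E0 (D (K.z i)) + m * E0 (K.z i) + u0 i)
    (h : ∀ i, N.Cg (u i) (u0 i)) : DCl N E E0 := by
  refine ⟨s, b.s, fun i => ⟨(b.z i).1, t.tg 6 (fun i => E (K.z i) - E0 (K.z i)) (fun i =>
    ⟨fun k => K.d k (D (K.z i)) + if k = i then m else 0, fun k => add_mem
      (t.d k (.refl (hD i))).1 (by split_ifs; exacts [hm, zero_mem _]), ?_⟩) h0 i⟩⟩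
  have : D (E (K.z i) - E0 (K.z i)) - ∑ k, (K.d k (D (K.z i)) + if k = i then m else 0) *
      (E (K.z k) - E0 (K.z k)) = u i - u0 i := by
    simp only [add_mul, Finset.sum_add_distrib, ite_mul, zero_mul, Finset.sum_ite_eq',
      Finset.mem_univ, if_true]
    rw [D_sub, e, e0, s (D (K.z i)), b.s (D (K.z i))]
    simp only [Fin.sum_univ_six]; ring
  exact this ▸ (h i).2

end Trp

/-- The equations along a geodesic congruence. -/
structure Tq (G : GHP A) : Prop where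
  rh : G.th G.rh = G.rh ^ 2 + G.si * G.c G.si
  si : G.th G.si = (G.rh + G.c G.rh) * G.si + G.P0
  ta : G.th G.ta = (G.ta - G.c G.ta') * G.rh + (G.c G.ta - G.ta') * G.si + G.P1
  si' : G.th G.si' = G.rh * G.si' + (G.ep G.ta' + G.c G.si * G.rh' - G.ta' ^ 2)
  rh' : G.th G.rh' = G.c G.rh * G.rh' + (G.et G.ta' + G.si' * G.si - G.ta' * G.c G.ta' - G.P2)
  ka' : G.th G.ka' = 0 * G.ka' + (G.tp G.ta' - (G.ta' - G.c G.ta) * G.rh' -
    (G.c G.ta' - G.ta) * G.si' - G.P3)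
  P1 : G.th G.P1 = G.ep G.P0 - G.ta' * G.P0 + 4 * G.rh * G.P1
  P2 : G.th G.P2 = 3 * G.rh * G.P2 + (G.ep G.P1 + G.si' * G.P0 - 2 * G.ta' * G.P1)
  P3 : G.th G.P3 = 2 * G.rh * G.P3 + (G.ep G.P2 + 2 * G.si' * G.P1 - 3 * G.ta' * G.P2)
  P4 : G.th G.P4 = G.rh * G.P4 + (G.ep G.P3 + 3 * G.si' * G.P2 - 4 * G.ta' * G.P3)
  et : ∀ f, G.th (G.et f) = G.et (G.th f) + G.c G.rh * G.et f + (G.si * G.ep f -
    G.c G.ta' * G.th f - (G.P1 - G.ta' * G.si) * G.H f + G.c G.rh * G.c G.ta' * G.Hb f)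
  tp : ∀ f, G.th (G.tp f) = G.tp (G.th f) + 0 * G.tp f + ((G.c G.ta - G.ta') * G.et f +
    (G.ta - G.c G.ta') * G.ep f - (G.P2 - G.ta * G.ta') * G.H f -
    (G.c G.P2 - G.c G.ta * G.c G.ta') * G.Hb f)

theorem tq {G : GHP A} (h : G.Is) (k : G.ka = 0) : Tq G := by
  have a1 := h.r1
  have a2 := h.r2
  have a3 := h.r3
  have a4 := h.r5'
  have a5 := h.r6'
  have a6 := h.r3'
  have b1 := h.b1
  have b2 := h.b2
  have b3 := h.b3
  have b4 := h.b4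
  have c1 := h.th_et
  have c2 := h.th_tp
  simp only [k, D_zero, map_zero] at a1 a2 a3 a4 a5 b1 b2 b3 c1 c2
  exact ⟨by linear_combination a1, by linear_combination a2, by linear_combination a3,
    by linear_combination -a4, by linear_combination -a5, by linear_combination -a6,
    by linear_combination b1, by linear_combination b2, by linear_combination b3,
    by linear_combination b4, fun f => by linear_combination c1 f,
    fun f => by linear_combination c2 f⟩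

/-- Two structures in the same gauge: G is bounded, G0 is the model, and the differences lie in
I0. -/
structure Gp (N : Hen K.c) (I0 : AddSubgroup A) (G G0 : GHP A) : Prop where
  is : G.Is
  is0 : G0.Is
  c : G.c = K.c
  c0 : G0.c = K.c
  th : G0.th = G.th
  H : G0.H = G.H
  Hb : G0.Hb = G.Hb
  ka : G.ka = 0
  ka0 : G0.ka = 0
  ta' : G0.ta' = G.ta'
  si0 : G0.si = 0
  si0' : G0.si' = 0
  P00 : G0.P0 = 0
  P10 : G0.P1 = 0
  bth : DCl N G.th G.th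
  bH : DCl N G.H G.H
  bHb : DCl N G.Hb G.Hb
  btp : Spn K G.tp
  bet : Spn K G.et
  bep : DCl N G.ep G.ep
  btp0 : DCl N G0.tp G0.tp
  bet0 : DCl N G0.et G0.et
  bep0 : Spn K G0.ep
  bsc : ∀ i, P354Z.sc G i ∈ N.B
  bsc0 : ∀ i, P354Z.sc G0 i ∈ N.B
  atp : ∀ i, G.tp (K.z i) - G0.tp (K.z i) ∈ I0
  aet : ∀ i, G.et (K.z i) - G0.et (K.z i) ∈ I0
  asc : ∀ i, P354Z.sc G i - P354Z.sc G0 i ∈ I0

/-- Close frames and close scalars. -/
structure Gcl (N : Hen K.c) (G G0 : GHP A) : Prop where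
  f : ∀ a, DCl N (P354Z.f4 G a) (P354Z.f4 G0 a)
  s : ∀ i, N.Cg (P354Z.sc G i) (P354Z.sc G0 i)

namespace Gp
variable {G G0 : GHP A} (g : Gp N I0 G G0) (t : Trp N G.th I0)
include g t

theorem p1 {cc : A} (hc : cc ∈ N.B) (h : G.P0 - cc * G.P1 ^ 2 ∈ N.I) :
    G.P0 ∈ N.I ∧ G.P1 ∈ N.I := by
  have q := tq g.is g.ka
  have b1 : G.P1 ∈ N.B := g.bsc 9
  have bt : G.ta' ∈ N.B := g.bsc 7
  have br : G.rh ∈ N.B := g.bsc 2
  have a : G.P1 - G0.P1 ∈ I0 := g.asc 9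
  rw [g.P10, sub_zero] at a
  have k : G.P1 ∈ N.I := by
    refine t.one (m := G.ep cc * G.P1 + 2 * cc * G.ep G.P1 - G.ta' * cc * G.P1 + 4 * G.rh)
      (add_mem (sub_mem (add_mem (mul_mem (t.bd g.bep hc) b1) (mul_mem (mul_mem (ofNat_mem _ 2) hc)
        (t.bd g.bep b1))) (mul_mem (mul_mem bt hc) b1)) (mul_mem (ofNat_mem _ 4) br)) a ?_
    have : G.th G.P1 - (G.ep cc * G.P1 + 2 * cc * G.ep G.P1 - G.ta' * cc * G.P1 + 4 * G.rh) * G.P1 =
        G.ep (G.P0 - cc * G.P1 ^ 2) - G.ta' * (G.P0 - cc * G.P1 ^ 2) := by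
      rw [q.P1, D_sub, D_mul, D_sq]; ring
    exact this ▸ sub_mem (t.sm g.bep h) (N.mul _ bt _ h)
  refine ⟨?_, k⟩
  have : G.P0 = G.P0 - cc * G.P1 ^ 2 + cc * G.P1 * G.P1 := by ring
  exact this ▸ add_mem h (N.mul _ (mul_mem hc b1) _ k)

variable (h0 : G.P0 ∈ N.I) (h1 : G.P1 ∈ N.I)
include h0

theorem rs : N.Cg G.rh G0.rh ∧ G.si ∈ N.I := by
  have q := tq g.is g.ka
  have q0 := tq g.is0 g.ka0
  have br : G.rh ∈ N.B := g.bsc 2
  have br0 : G0.rh ∈ N.B := g.bsc0 2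
  have bs : G.si ∈ N.B := g.bsc 1
  have a1 : G.rh - G0.rh ∈ I0 := g.asc 2
  have a2 : G.si - G0.si ∈ I0 := g.asc 1
  rw [g.si0, sub_zero] at a2
  have e0 := q0.rh
  rw [g.th, g.si0] at e0
  have := t.two (add_mem br br0) (N.cB _ bs) (zero_mem _) (add_mem br (N.cB _ br)) a1 a2
    (by rw [D_sub, q.rh, e0, g.c]; convert zero_mem N.I using 1; ring)
    (by rw [q.si, g.c]; convert h0 using 1; ring)
  exact ⟨⟨br0, this.1⟩, this.2⟩

include h1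

theorem p2 : N.Cg G.P2 G0.P2 := by
  have q := tq g.is g.ka
  have e0 := (tq g.is0 g.ka0).P2
  rw [g.th, g.P00, g.P10, D_zero] at e0
  have r := (g.rs t h0).1
  have b2 : G0.P2 ∈ N.B := g.bsc0 10
  refine t.dif (mul_mem (ofNat_mem _ 3) r.mem) b2 (g.asc 10) q.P2
    (u0 := 3 * (G0.rh - G.rh) * G0.P2) (by rw [e0]; ring) ?_
  refine (Hen.cg_zero.2 (sub_mem (add_mem (t.sm g.bep h1) (N.mul _ (g.bsc 5) _ h0))
    (N.mul _ (mul_mem (ofNat_mem _ 2) (g.bsc 7)) _ h1))).trans (Hen.Cg.symm ?_)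
  exact (((Hen.cg_num 3).mul (r.symm.sub (.refl r.mem))).mul (.refl b2)).to (by ring)

theorem ta : N.Cg G.ta G0.ta := by
  have q := tq g.is g.ka
  have e0 := (tq g.is0 g.ka0).ta
  rw [g.th, g.si0, g.P10, g.ta', g.c0] at e0
  obtain ⟨r, s⟩ := g.rs t h0
  have bt : G.ta ∈ N.B := g.bsc 3
  have bt0 : G0.ta ∈ N.B := g.bsc0 3
  have bp : G.ta' ∈ N.B := g.bsc 7
  refine t.dif r.mem bt0 (g.asc 3)
    (u := -(K.c G.ta' * G.rh) + ((K.c G.ta - G.ta') * G.si + G.P1))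
    (u0 := -(K.c G.ta' * G0.rh) + G0.ta * (G0.rh - G.rh)) (by rw [q.ta, g.c]; ring)
    (by rw [e0]; ring) (((Hen.Cg.refl bp).cj.mul r).neg.add ?_)
  refine (Hen.cg_zero.2 (add_mem (N.mul _ (sub_mem (N.cB _ bt) bp) _ s) h1)).trans (Hen.Cg.symm ?_)
  exact ((Hen.Cg.refl bt0).mul (r.symm.sub (.refl r.mem))).to (by ring)

theorem et : DCl N G.et G0.et := by
  have q := tq g.is g.ka
  have e0 := (tq g.is0 g.ka0).et
  simp only [g.th, g.si0, g.P10, g.ta', g.c0, g.H, g.Hb] at e0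
  obtain ⟨r, s⟩ := g.rs t h0
  have bp : N.Cg G.ta' G.ta' := .refl (g.bsc 7)
  refine t.fld g.bet g.bet0 (fun i => (g.bth.z i).1) r.cj.mem g.aet (fun i => g.c ▸ q.et _)
    (u0 := fun i => (K.c G0.rh - K.c G.rh) * G0.et (K.z i) - K.c G.ta' * G.th (K.z i) -
      0 * G.H (K.z i) + K.c G0.rh * K.c G.ta' * G.Hb (K.z i)) (fun i => by rw [e0]; ring)
    fun i => ?_
  have s' := Hen.cg_zero.2 s
  refine ((Hen.Cg.sub ?_ (bp.cj.mul (g.bth.z i))).sub (Hen.Cg.mul ?_ (g.bH.z i))).add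
    ((r.cj.mul bp.cj).mul (g.bHb.z i))
  · exact ((s'.mul (g.bep.z i)).to (zero_mul _)).trans
      (((r.cj.symm.sub (.refl r.cj.mem)).mul (g.bet0.z i)).to (by ring)).symm
  · exact ((Hen.cg_zero.2 h1).sub (bp.mul s')).to (by ring)

theorem ep (k : K.Is) : DCl N G.ep G0.ep := by
  have e := g.et t h0 h1
  have z : ∀ i, ∃ j, K.z i = K.c (K.z j) := fun i => by
    fin_cases i
    exacts [⟨0, k.z0.symm⟩, ⟨1, k.z1.symm⟩, ⟨4, k.z4.symm⟩, ⟨5, k.z5.symm⟩, ⟨2, k.z2.symm⟩,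
      ⟨3, k.z3.symm⟩]
  refine ⟨g.bep.s, g.bep0, fun i => ?_⟩
  obtain ⟨j, hj⟩ := z i
  have a := g.is.ep_c (K.z j)
  have b := g.is0.ep_c (K.z j)
  rw [g.c] at a
  rw [g.c0] at b
  rw [hj, a, b]
  exact (e.z j).cj

theorem tp (k : K.Is) : DCl N G.tp G0.tp := by
  have q := tq g.is g.ka
  have e0 := (tq g.is0 g.ka0).tp
  simp only [g.th, g.ta', g.c0, g.H, g.Hb] at e0
  have bp : N.Cg G.ta' G.ta' := .refl (g.bsc 7)
  have a := g.ta t h0 h1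
  have b := g.p2 t h0 h1
  refine t.fld g.btp g.btp0 (fun i => (g.bth.z i).1) (zero_mem _) g.atp (fun i => q.tp _)
    (fun i => e0 _) fun i => ?_
  rw [g.c]
  exact ((((a.cj.sub bp).mul ((g.et t h0 h1).z i)).add ((a.sub bp.cj).mul
    ((g.ep t h0 h1 k).z i))).sub ((b.sub (a.mul bp)).mul (g.bH.z i))).sub
    ((b.cj.sub (a.cj.mul bp.cj)).mul (g.bHb.z i))

theorem si' (k : K.Is) : N.Cg G.si' G0.si' := by
  have q := tq g.is g.ka
  have e0 := (tq g.is0 g.ka0).si'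
  rw [g.th, g.ta', g.si0, map_zero] at e0
  obtain ⟨r, s⟩ := g.rs t h0
  have bp : N.Cg G.ta' G.ta' := .refl (g.bsc 7)
  refine t.dif r.mem (g.bsc0 5) (g.asc 5) q.si' (u0 := G0.ep G.ta' + 0 - G.ta' ^ 2)
    (by rw [e0, g.si0']; ring) (((t.ap (g.ep t h0 h1 k) bp).add ?_).sub (bp.pow 2))
  rw [g.c]
  exact ((Hen.cg_zero.2 (N.cI _ s)).mul (.refl (g.bsc 6))).to (zero_mul _)

theorem rh' (k : K.Is) : N.Cg G.rh' G0.rh' := by
  have q := tq g.is g.ka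
  have e0 := (tq g.is0 g.ka0).rh'
  rw [g.th, g.ta', g.si0, g.c0] at e0
  obtain ⟨r, s⟩ := g.rs t h0
  have bp : N.Cg G.ta' G.ta' := .refl (g.bsc 7)
  have b0 : G0.rh' ∈ N.B := g.bsc0 6
  refine t.dif r.cj.mem b0 (g.asc 6) (g.c ▸ q.rh') (u0 := G0.et G.ta' +
    (K.c G0.rh - K.c G.rh) * G0.rh' - G.ta' * K.c G.ta' - G0.P2) (by rw [e0]; ring) ?_
  refine (((t.ap (g.et t h0 h1) bp).add ?_).sub (bp.mul bp.cj)).sub (g.p2 t h0 h1)
  exact (((Hen.Cg.refl (g.bsc 5)).mul (Hen.cg_zero.2 s)).to (mul_zero _)).trans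
    (((r.cj.symm.sub (.refl r.cj.mem)).mul (.refl b0)).to (by ring)).symm

theorem p3 (k : K.Is) : N.Cg G.P3 G0.P3 := by
  have q := tq g.is g.ka
  have e0 := (tq g.is0 g.ka0).P3
  rw [g.th, g.ta', g.P10] at e0
  have r := (g.rs t h0).1
  have bp : N.Cg G.ta' G.ta' := .refl (g.bsc 7)
  have b0 : G0.P3 ∈ N.B := g.bsc0 11
  have b := g.p2 t h0 h1
  refine t.dif (mul_mem (ofNat_mem _ 2) r.mem) b0 (g.asc 11) q.P3 (u0 := G0.ep G0.P2 +
    2 * (G0.rh - G.rh) * G0.P3 - 3 * G.ta' * G0.P2) (by rw [e0]; ring)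
    (((t.ap (g.ep t h0 h1 k) b).add ?_).sub (((Hen.cg_num 3).mul bp).mul b))
  exact ((((Hen.cg_num 2).mul (.refl (g.bsc 5))).mul (Hen.cg_zero.2 h1)).to (mul_zero _)).trans
    ((((Hen.cg_num 2).mul (r.symm.sub (.refl r.mem))).mul (.refl b0)).to (by ring)).symm

theorem p4 (k : K.Is) : N.Cg G.P4 G0.P4 := by
  have q := tq g.is g.ka
  have e0 := (tq g.is0 g.ka0).P4
  rw [g.th, g.ta'] at e0
  have r := (g.rs t h0).1
  have bp : N.Cg G.ta' G.ta' := .refl (g.bsc 7)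
  have b0 : G0.P4 ∈ N.B := g.bsc0 12
  have b := g.p3 t h0 h1 k
  refine t.dif r.mem b0 (g.asc 12) q.P4 (u0 := G0.ep G0.P3 + 3 * G0.si' * G0.P2 -
    4 * G.ta' * G0.P3 + (G0.rh - G.rh) * G0.P4) (by rw [e0]; ring) ?_
  refine (((((t.ap (g.ep t h0 h1 k) b).add (((Hen.cg_num 3).mul (g.si' t h0 h1 k)).mul
    (g.p2 t h0 h1))).sub (((Hen.cg_num 4).mul bp).mul b)).add ?_).of (add_zero _).symm)
  exact (((r.symm.sub (.refl r.mem)).mul (.refl b0)).to (by ring)).symm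

theorem ka' (k : K.Is) : N.Cg G.ka' G0.ka' := by
  have q := tq g.is g.ka
  have e0 := (tq g.is0 g.ka0).ka'
  rw [g.th, g.ta', g.c0] at e0
  have bp : N.Cg G.ta' G.ta' := .refl (g.bsc 7)
  have a := g.ta t h0 h1
  refine t.dif (zero_mem _) (g.bsc0 4) (g.asc 4) q.ka' e0 ?_
  rw [g.c]
  exact (((t.ap (g.tp t h0 h1 k) bp).sub ((bp.sub a.cj).mul (g.rh' t h0 h1 k))).sub
    ((bp.cj.sub a).mul (g.si' t h0 h1 k))).sub (g.p3 t h0 h1 k)

/-- The hierarchy. -/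
theorem gc (k : K.Is) : Gcl N G G0 := by
  obtain ⟨r, s⟩ := g.rs t h0
  refine ⟨fun a => ?_, fun i => ?_⟩
  · fin_cases a
    exacts [show DCl N G.th G0.th from g.th.symm ▸ g.bth, g.tp t h0 h1 k, g.et t h0 h1, g.ep t h0 h1 k]
  · fin_cases i
    exacts [(Hen.Cg.refl (g.bsc 0)).to (g.ka.trans g.ka0.symm),
      (Hen.cg_zero.2 s).to g.si0.symm, r, g.ta t h0 h1, g.ka' t h0 h1 k, g.si' t h0 h1 k,
      g.rh' t h0 h1 k, (Hen.Cg.refl (g.bsc 7)).to g.ta'.symm, (Hen.cg_zero.2 h0).to g.P00.symm,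
      (Hen.cg_zero.2 h1).to g.P10.symm, g.p2 t h0 h1, g.p3 t h0 h1 k, g.p4 t h0 h1 k]

end Gp

end Vale.Agent.P354XD
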