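import Vale.Agent.P354XD.GS

/-!
Rings with bounded and small elements in which simple roots can be lifted. Existence, closeness
and uniqueness of the normalised frame and of the transverse frame.
-/

set_option linter.all false

namespace Vale.Agent.P354XD

open Vale.Agent.P354XG Vale.Agent.P354XG.Geo

variable {A : Type*} [CommRing A] [Algebra ℂ A]

/-- B are the bounded elements, I the small ones. -/
structure Hen (c : A →+* A) where
  B : Subalgebra ℂ A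
  I : AddSubgroup A
  le : ∀ a ∈ I, a ∈ B
  mul : ∀ b ∈ B, ∀ a ∈ I, b * a ∈ I
  cB : ∀ b ∈ B, c b ∈ B
  cI : ∀ a ∈ I, c a ∈ I
  inv : ∀ a ∈ I, ∃ b ∈ B, (1 + a) * b = 1
  root : ∀ a ∈ I, ∀ b ∈ I, ∃ z ∈ B, 1 + z + a * z ^ 2 + b * z ^ 3 = 0

namespace Hen

variable {c : A →+* A} (N : Hen c)

/-- a is close to the bounded element b. -/
def Cg (a b : A) : Prop := b ∈ N.B ∧ a - b ∈ N.I

/-- The same for vectors. -/
def Cv (X Y : Vec A) : Prop := ∀ d, N.Cg (X d) (Y d)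

variable {N} {a b a' b' : A}

theorem Cg.refl (h : b ∈ N.B) : N.Cg b b := ⟨h, by rw [sub_self]; exact zero_mem _⟩
theorem Cg.mem (h : N.Cg a b) : a ∈ N.B := by
  simpa only [sub_add_cancel] using add_mem (N.le _ h.2) h.1
theorem Cg.symm (h : N.Cg a b) : N.Cg b a := ⟨h.mem, by simpa only [neg_sub] using neg_mem h.2⟩
theorem Cg.trans (h : N.Cg a b) (h' : N.Cg b a') : N.Cg a a' :=
  ⟨h'.1, by simpa only [sub_add_sub_cancel] using add_mem h.2 h'.2⟩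
theorem Cg.to (h : N.Cg a b) (e : b = b') : N.Cg a b' := e ▸ h
theorem Cg.of (h : N.Cg a b) (e : a' = a) : N.Cg a' b := e ▸ h
theorem Cg.add (h : N.Cg a b) (h' : N.Cg a' b') : N.Cg (a + a') (b + b') :=
  ⟨add_mem h.1 h'.1, by rw [add_sub_add_comm]; exact add_mem h.2 h'.2⟩
theorem Cg.neg (h : N.Cg a b) : N.Cg (-a) (-b) :=
  ⟨neg_mem h.1, by rw [neg_sub_neg, ← neg_sub]; exact neg_mem h.2⟩
theorem Cg.sub (h : N.Cg a b) (h' : N.Cg a' b') : N.Cg (a - a') (b - b') := by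
  simpa only [sub_eq_add_neg] using h.add h'.neg
theorem Cg.mul (h : N.Cg a b) (h' : N.Cg a' b') : N.Cg (a * a') (b * b') :=
  ⟨mul_mem h.1 h'.1, by
    rw [show a * a' - b * b' = a' * (a - b) + b * (a' - b') by ring]
    exact add_mem (N.mul _ h'.mem _ h.2) (N.mul _ h.1 _ h'.2)⟩
theorem cg_alg (z : ℂ) : N.Cg (algebraMap ℂ A z) (algebraMap ℂ A z) := .refl (algebraMap_mem _ z)
theorem cg_one : N.Cg 1 1 := .refl (one_mem _)
theorem cg_hf : N.Cg (hf A) (hf A) := cg_alg _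
theorem cg_num (n : ℕ) [n.AtLeastTwo] : N.Cg (ofNat(n) : A) ofNat(n) :=
  .refl (ofNat_mem _ n)
theorem Cg.pow (h : N.Cg a b) (n : ℕ) : N.Cg (a ^ n) (b ^ n) := by
  induction n with
  | zero => simpa only [pow_zero] using cg_one
  | succ n ih => simpa only [pow_succ] using ih.mul h
theorem Cg.cj (h : N.Cg a b) : N.Cg (c a) (c b) :=
  ⟨N.cB _ h.1, by rw [← map_sub]; exact N.cI _ h.2⟩
theorem cg_zero : N.Cg a 0 ↔ a ∈ N.I :=
  ⟨fun h => by simpa only [sub_zero] using h.2, fun h => ⟨zero_mem _, by rwa [sub_zero]⟩⟩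
theorem Cg.sum {ι : Type*} (s : Finset ι) {f g : ι → A} (h : ∀ i ∈ s, N.Cg (f i) (g i)) :
    N.Cg (∑ i ∈ s, f i) (∑ i ∈ s, g i) :=
  ⟨sum_mem fun i hi => (h i hi).1, by
    rw [← Finset.sum_sub_distrib]; exact sum_mem fun i hi => (h i hi).2⟩

/-- An element which is close to a bounded unit is a bounded unit. -/
theorem Cg.inv (h : N.Cg a b) (e : b * b' = 1) (hb : b' ∈ N.B) : ∃ u, a * u = 1 ∧ N.Cg u b' := by
  obtain ⟨u, hu, e'⟩ := N.inv _ (N.mul _ hb _ h.2)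
  refine ⟨b' * u, by linear_combination e' + u * e, hb, ?_⟩
  rw [show b' * u - b' = -(b' * u * b') * (a - b) by linear_combination b' * e']
  exact N.mul _ (neg_mem (mul_mem (mul_mem hb hu) hb)) _ h.2

theorem Cg.unit (h : N.Cg a b) (e : b * b' = 1) (hb : b' ∈ N.B) : IsUnit a :=
  let ⟨u, hu, _⟩ := h.inv e hb
  IsUnit.of_mul_eq_one u hu

theorem hens {c0 c2 c3 : A} (h0 : c0 ∈ N.I) (h2 : c2 ∈ N.B) (h3 : c3 ∈ N.B) :
    ∃ y ∈ N.I, c0 + y + c2 * y ^ 2 + c3 * y ^ 3 = 0 := by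
  obtain ⟨z, hz, e⟩ := N.root _ (N.mul _ h2 _ h0) _ (N.mul _ (mul_mem h3 (N.le _ h0)) _ h0)
  exact ⟨z * c0, N.mul _ hz _ h0, by linear_combination c0 * e⟩

theorem sqrt_uniq (h : N.Cg a 1) (h' : N.Cg b 1) (e : a ^ 2 = b ^ 2) : a = b := by
  have u := (h.add h').unit (b' := hf A) (by linear_combination two_hf (A := A)) cg_hf.1
  rw [← sub_eq_zero]
  apply u.mul_right_eq_zero.1
  linear_combination e

/-- The square root close to 1. -/
theorem Cg.sqrt (h : N.Cg a 1) : ∃ s, s ^ 2 = a ∧ N.Cg s 1 ∧ (c a = a → c s = s) := by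
  obtain ⟨y, hy, e⟩ := hens (N.mul _ cg_hf.1 _ (neg_mem h.2)) cg_hf.1 (zero_mem N.B)
  have e1 : (1 + y) ^ 2 = a := by
    linear_combination 2 * e - (1 - a + y ^ 2) * two_hf (A := A)
  have e2 : N.Cg (1 + y) 1 := ⟨one_mem _, by rwa [add_sub_cancel_left]⟩
  exact ⟨1 + y, e1, e2, fun r => sqrt_uniq (e2.cj.to (map_one c)) e2 (by rw [← map_pow, e1, r])⟩

section vec
variable {X Y X' Y' : Vec A}
theorem Cv.refl (h : ∀ d, X d ∈ N.B) : N.Cv X X := fun d => .refl (h d)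
theorem Cv.symm (h : N.Cv X Y) : N.Cv Y X := fun d => (h d).symm
theorem Cv.trans (h : N.Cv X Y) (h' : N.Cv Y X') : N.Cv X X' := fun d => (h d).trans (h' d)
theorem Cv.add (h : N.Cv X Y) (h' : N.Cv X' Y') : N.Cv (X + X') (Y + Y') :=
  fun d => (h d).add (h' d)
theorem Cv.smul (h : N.Cg a b) (h' : N.Cv X Y) : N.Cv (a • X) (b • Y) := fun d => h.mul (h' d)
theorem Cv.to (h : N.Cv X Y) (e : Y = Y') : N.Cv X Y' := e ▸ h
end vec

/-- Existence of the eigenvalue and of the normalisations of the transverse frame. -/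
theorem ex_Tr {x0 x1 x2 x3 x4 pi : A} (h2 : x2 * pi = 1) (hu : x0 * x4 * pi ^ 2 ∈ N.I)
    (hv : x1 * x3 * pi ^ 2 ∈ N.I) (hw : (x1 ^ 2 * x4 + x3 ^ 2 * x0) * pi ^ 3 ∈ N.I) :
    ∃ n D y wi, N.Cg n 3 ∧ N.Cg D (algebraMap ℂ A (1 / 9)) ∧ N.Cg y 1 ∧ N.Cg wi (hf A) ∧
      Fr.Tr x0 x1 x2 x3 x4 (x2 * n) (pi ^ 2 * D) y wi ∧
      IsUnit (2 * (x2 * n) * (3 * x2 - x2 * n) - ((x2 * n) ^ 2 - x0 * x4) - 4 * x1 * x3) := by
  generalize eu : x0 * x4 * pi ^ 2 = u at hu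
  generalize ev : x1 * x3 * pi ^ 2 = v at hv
  generalize ew : (x1 ^ 2 * x4 + x3 ^ 2 * x0) * pi ^ 3 = w at hw
  have hu := cg_zero.2 hu
  have hv := cg_zero.2 hv
  have hw := cg_zero.2 hw
  have n9 : 9 * algebraMap ℂ A (1 / 9) = 1 := by
    rw [← map_ofNat (algebraMap ℂ A) 9, ← map_mul]; norm_num
  obtain ⟨e, he, ce⟩ := (((cg_num 9).sub hu).add ((cg_num 4).mul hv)).inv
    (b' := algebraMap ℂ A (1 / 9)) (by linear_combination n9) (cg_alg _).1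
  obtain ⟨z, hz, ez⟩ := hens (N.mul _ ce.mem _ (cg_zero.1
    ((((cg_num 12).mul hv).sub ((cg_num 2).mul hw)).to (by ring))))
    (mul_mem (cg_num 6).1 ce.mem) ce.mem
  have cn : N.Cg (3 + z) 3 := ((cg_num 3).add (cg_zero.2 hz)).to (add_zero _)
  have en : (3 - (3 + z)) * ((3 + z) ^ 2 - u) + 2 * w - 4 * (3 + z) * v = 0 := by
    linear_combination -(9 - u + 4 * v) * ez + (12 * v - 2 * w + 6 * z ^ 2 + z ^ 3) * he
  generalize 3 + z = n at cn en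
  obtain ⟨D, hD, cD⟩ := ((cn.pow 2).sub hu).inv (b' := algebraMap ℂ A (1 / 9))
    (by linear_combination n9) (cg_alg _).1
  obtain ⟨s, hs, cs, -⟩ := ((cg_one.sub ((cg_num 4).mul (((hu.mul hv).sub (cn.mul hw)).add
    ((cn.pow 2).mul hv)) |>.mul (cD.pow 2))).to (b' := 1) (by ring)).sqrt
  obtain ⟨y, hy, cy⟩ := cs.inv (one_mul 1) (one_mem _)
  obtain ⟨wi, hi, ci⟩ := (cg_one.add cy).inv (b' := hf A)
    (by linear_combination two_hf (A := A)) cg_hf.1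
  have p2 : x2 ^ 2 * pi ^ 2 = 1 := by rw [← mul_pow, h2, one_pow]
  have p3 : x2 ^ 3 * pi ^ 3 = 1 := by rw [← mul_pow, h2, one_pow]
  refine ⟨n, D, y, wi, cn, cD, cy, ci, ⟨?_, ?_, ?_, hi⟩, ?_⟩
  · rw [← eu, ← ev, ← ew] at en
    rw [Fr.cub]
    linear_combination x2 ^ 3 * en + ((3 - n) * x2 * x0 * x4 + 4 * n * x2 * x1 * x3) * p2 -
      2 * (x1 ^ 2 * x4 + x3 ^ 2 * x0) * p3
  · rw [← eu] at hD
    linear_combination hD + n ^ 2 * D * p2
  · have : 1 - 4 * (x1 * x4 - x2 * n * x3) * (x0 * x3 - x2 * n * x1) * (pi ^ 2 * D) ^ 2 = s ^ 2 := by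
      rw [hs, ← eu, ← ev, ← ew]
      linear_combination 4 * n * (x1 ^ 2 * x4 + x3 ^ 2 * x0) * pi ^ 3 * D ^ 2 * h2 -
        4 * n ^ 2 * x1 * x3 * pi ^ 2 * D ^ 2 * p2
    rw [this]
    linear_combination (s * y + 1) * hy
  · have := (((((cg_num 2).mul cn).mul ((cg_num 3).sub cn)).sub ((cn.pow 2).sub hu)).sub
      ((cg_num 4).mul hv)).unit (b' := -algebraMap ℂ A (1 / 9)) (by linear_combination n9)
      (neg_mem (cg_alg _).1)
    have := ((IsUnit.of_mul_eq_one pi h2).pow 2).mul this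
    convert this using 1
    rw [← eu, ← ev]
    linear_combination (4 * x1 * x3 - x0 * x4) * p2

end Hen

namespace Fr

variable {S : Geo A} (N : Hen S.c)

/-- Close frames. -/
structure Cl (F F' : Fr A) : Prop where
  l : N.Cv F.l F'.l
  n : N.Cv F.n F'.n
  m : N.Cv F.m F'.m
  mb : N.Cv F.mb F'.mb

/-- Almost null. -/
structure AN (F : Fr A) : Prop where
  ll : N.Cg (S.dot F.l F.l) 0
  nn : N.Cg (S.dot F.n F.n) 0
  ln : N.Cg (S.dot F.l F.n) (-1)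
  ml : N.Cg (S.dot F.m F.l) 0
  mn : N.Cg (S.dot F.m F.n) 0
  mm : N.Cg (S.dot F.m F.m) 0
  mmb : N.Cg (S.dot F.m F.mb) 1

variable {N} {F F' F'' : Fr A}

theorem Cl.symm (h : Cl N F F') : Cl N F' F := ⟨h.l.symm, h.n.symm, h.m.symm, h.mb.symm⟩
theorem Cl.trans (h : Cl N F F') (h' : Cl N F' F'') : Cl N F F'' :=
  ⟨h.l.trans h'.l, h.n.trans h'.n, h.m.trans h'.m, h.mb.trans h'.mb⟩
theorem Cl.self (h : Cl N F F') : Cl N F F := h.trans h.symm

theorem cg_dot (hg : ∀ a b, S.g a b ∈ N.B) {X Y X' Y' : Vec A} (h : N.Cv X X') (h' : N.Cv Y Y') :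
    N.Cg (S.dot X Y) (S.dot X' Y') :=
  .sum _ fun a _ => .sum _ fun b _ => ((Hen.Cg.refl (hg a b)).mul (h a)).mul (h' b)

theorem cg_W (hg : ∀ a b, S.g a b ∈ N.B) (hR : ∀ a b e d, S.R a b e d ∈ N.B)
    {X Y Z U X' Y' Z' U' : Vec A} (h1 : N.Cv X X') (h2 : N.Cv Y Y') (h3 : N.Cv Z Z')
    (h4 : N.Cv U U') : N.Cg (S.W X Y Z U) (S.W X' Y' Z' U') :=
  cg_dot hg (fun d => .sum _ fun a _ => .sum _ fun b _ => .sum _ fun e _ =>
    (((Hen.Cg.refl (hR a b e d)).mul (h1 a)).mul (h2 b)).mul (h3 e)) h4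

theorem Cl.rn (b : Cl N F F') {a : A} (ha : N.Cg a 0) : Cl N (F.rn S a) F' := by
  have hc := ha.cj.to (map_zero _)
  exact ⟨(((b.l.add (.smul hc b.m)).add (.smul ha b.mb)).add (.smul (ha.mul hc) b.n)).to
    (by module), b.n, (b.m.add (.smul ha b.n)).to (by module),
    (b.mb.add (.smul hc b.n)).to (by module)⟩

theorem Cl.rl (b : Cl N F F') {a : A} (ha : N.Cg a 0) : Cl N (F.rl S a) F' := by
  have hc := ha.cj.to (map_zero _)
  exact ⟨b.l, (((b.n.add (.smul hc b.mb)).add (.smul ha b.m)).add (.smul (ha.mul hc) b.l)).to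
    (by module), (b.m.add (.smul hc b.l)).to (by module),
    (b.mb.add (.smul ha b.l)).to (by module)⟩

theorem Cl.bo (b : Cl N F F') {al be q al' be' q' : A} (h1 : N.Cg al al') (h2 : N.Cg be be')
    (h3 : N.Cg q q') : Cl N (F.bo S al be q) (F'.bo S al' be' q') :=
  ⟨.smul h1 b.l, .smul h2 b.n, .smul h3 b.m, .smul h3.cj b.mb⟩

/-- Existence of the normalised frame. -/
theorem ex_gs (h : S.Is) (hg : ∀ a b, S.g a b ∈ N.B) (R : F.RW S) (b : Cl N F F) (a : AN N F) :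
    ∃ s u si u2 k, (F.gs S s u si u2 k).WN S ∧ Cl N (F.gs S s u si u2 k) F := by
  have t := two_hf (A := A)
  have mbl : N.Cg (S.dot F.mb F.l) 0 := by
    simpa only [h.c_dot, R.c_m, R.c_l, map_zero] using a.ml.cj
  have mbn : N.Cg (S.dot F.mb F.n) 0 := by
    simpa only [h.c_dot, R.c_m, R.c_n, map_zero] using a.mn.cj
  have mbb : N.Cg (S.dot F.mb F.mb) 0 := by
    simpa only [h.c_dot, R.c_m, map_zero] using a.mm.cj
  obtain ⟨s, s1, s2, s3⟩ := (((a.ln.pow 2).sub (a.ll.mul a.nn)).to (b' := 1) (by ring)).sqrt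
  obtain ⟨u, u1, u2⟩ := (s2.sub a.ln).inv (b' := hf A) (by linear_combination t) Hen.cg_hf.1
  obtain ⟨si, i1, i2⟩ := s2.inv (one_mul 1) (one_mem _)
  have e : F.E1 S s u si := ⟨s1, s3 (by
    simp only [map_sub, map_mul, map_pow, h.c_dot, R.c_l, R.c_n]), u1, i1⟩
  have cl : N.Cv (F.gl S u) F.l := (b.l.add (.smul (a.ll.mul u2) b.n)).to (by module)
  have cn : N.Cv (F.gn S s u si) F.n :=
    (Hen.Cv.smul ((Hen.cg_hf.mul (s2.sub a.ln)).mul (i2.pow 2))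
      (b.n.add (.smul (a.nn.mul u2) b.l))).to (by
        match_scalars
        · linear_combination t
        · ring)
  have b1 : Cl N (F.g1 S s u si) F := ⟨cl, cn,
    ((b.m.add (.smul ((cg_dot hg b.m cn).trans a.mn) cl)).add
      (.smul ((cg_dot hg b.m cl).trans a.ml) cn)).to (by module),
    ((b.mb.add (.smul ((cg_dot hg b.mb cn).trans mbn) cl)).add
      (.smul ((cg_dot hg b.mb cl).trans mbl) cn)).to (by module)⟩
  have R1 := (R.g1 h e).1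
  have d1 := (cg_dot hg b1.m b1.mb).trans a.mmb
  have d2 := (cg_dot hg b1.m b1.m).trans a.mm
  have d3 := (cg_dot hg b1.mb b1.mb).trans mbb
  have cq : S.c (S.dot (F.g1 S s u si).m (F.g1 S s u si).mb) =
      S.dot (F.g1 S s u si).m (F.g1 S s u si).mb := by
    rw [h.c_dot, R1.c_m, R1.c_mb h, h.dot_comm]
  obtain ⟨r, r1, r2, r3⟩ := (((d1.pow 2).sub (d2.mul d3)).to (b' := 1) (by ring)).sqrt
  have r4 := r3 (by
    simp only [map_sub, map_mul, map_pow, cq]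
    rw [h.c_dot, h.c_dot, R1.c_m, R1.c_mb h]; ring)
  obtain ⟨v, v1, v2⟩ := (d1.add r2).inv (b' := hf A) (by linear_combination t) Hen.cg_hf.1
  obtain ⟨ri, j1, j2⟩ := r2.inv (one_mul 1) (one_mem _)
  obtain ⟨k, k1, k2, k3⟩ := (((Hen.cg_hf.mul (d1.add r2)).mul (j2.pow 2)).to (b' := 1)
    (by linear_combination t)).sqrt
  have e' : (F.g1 S s u si).E2 S r v k := ⟨r1, r4, k3 (by
    simp only [map_mul, map_add, map_pow, c_hf h, cq, r4, c_inv h j1 r4]), v1, by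
      rw [k1]
      linear_combination (S.dot (F.g1 S s u si).m (F.g1 S s u si).mb + r) *
        (r ^ 2 * ri ^ 2 * t + (r * ri + 1) * j1)⟩
  exact ⟨s, u, si, v, k, R.gs h e e', b1.l, b1.n,
    (Hen.Cv.smul k2 (b1.m.add (.smul (d2.mul v2).neg b1.mb))).to (by module),
    (Hen.Cv.smul k2 (b1.mb.add (.smul (d3.mul v2).neg b1.m))).to (by module)⟩

/-- Existence of the transverse frame. -/
theorem ex_tr (h : S.Is) (W : F.WN S) (b : Cl N F F') {pi : A} (h2 : F.p2 S * pi = 1)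
    (h0 : N.Cg (F.p0 S * pi) 0) (h1 : N.Cg (F.p1 S * pi) 0) (h3 : N.Cg (F.p3 S * pi) 0)
    (h4 : N.Cg (F.p4 S * pi) 0) :
    ∃ nu Di y wi, Tr (F.p0 S) (F.p1 S) (F.p2 S) (F.p3 S) (F.p4 S) nu Di y wi ∧
      N.Cg (nu * pi) 3 ∧ N.Cg (Di * F.p2 S ^ 2) (algebraMap ℂ A (1 / 9)) ∧ N.Cg y 1 ∧
      N.Cg wi (hf A) ∧ N.Cg (ta (F.p0 S) (F.p1 S) (F.p3 S) nu Di y wi) 0 ∧
      N.Cg (tb (F.p1 S) (F.p3 S) (F.p4 S) nu Di y) 0 ∧
      (F.tr S nu Di y wi).WN S ∧ (F.tr S nu Di y wi).p1 S = 0 ∧ (F.tr S nu Di y wi).p3 S = 0 ∧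
      Cl N (F.tr S nu Di y wi) F' := by
  obtain ⟨n, D, y, wi, c1, c2, c3, c4, t, u⟩ := N.ex_Tr (x0 := F.p0 S) (x1 := F.p1 S)
    (x3 := F.p3 S) (x4 := F.p4 S) h2
    (Hen.cg_zero.1 (((h0.mul h4).of (by ring)).to (by ring)))
    (Hen.cg_zero.1 (((h1.mul h3).of (by ring)).to (by ring)))
    (Hen.cg_zero.1 (((((h1.pow 2).mul h4).add ((h3.pow 2).mul h0)).of (by ring)).to (by ring)))
  have ca : N.Cg (ta (F.p0 S) (F.p1 S) (F.p3 S) (F.p2 S * n) (pi ^ 2 * D) y wi) 0 :=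
    (((((((Hen.cg_num 2).mul c3).mul ((h0.mul h3).sub (c1.mul h1))).mul c2).mul c4).of (by
      rw [ta]; linear_combination -2 * y * n * F.p1 S * pi * D * wi * h2)).to (by ring))
  have cb : N.Cg (tb (F.p1 S) (F.p3 S) (F.p4 S) (F.p2 S * n) (pi ^ 2 * D) y) 0 :=
    ((((c3.mul ((h1.mul h4).sub (c1.mul h3))).mul c2).of (by
      rw [tb]; linear_combination -y * n * F.p3 S * pi * D * h2)).to (by ring))
  have T := W.nl.tr h t
  exact ⟨_, _, y, wi, t, c1.of (by linear_combination n * h2),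
    c2.of (by linear_combination D * (F.p2 S * pi + 1) * h2), c3, c4, ca, cb, W.tr h t u, T.2.1,
    T.2.2.1, (b.rn ca).rl cb⟩

/-- A rotation between two transverse frames is trivial. -/
theorem rot_uniq {x0 x2 x4 a b : A}
    (e1 : 3 * a * x2 + a ^ 3 * x4 + b * (x0 + 6 * a ^ 2 * x2 + a ^ 4 * x4) = 0)
    (e3 : a * x4 + 3 * b * (x2 + a ^ 2 * x4) + 3 * b ^ 2 * (3 * a * x2 + a ^ 3 * x4) +
      b ^ 3 * (x0 + 6 * a ^ 2 * x2 + a ^ 4 * x4) = 0)
    (hu : IsUnit ((3 * x2 * (1 + 2 * a * b) + a ^ 2 * x4 * (1 + a * b)) *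
      (3 * x2 * (1 + 3 * a * b + 2 * a ^ 2 * b ^ 2) + b ^ 2 * x0) -
      x0 * x4 * (1 + a * b) ^ 3)) : a = 0 ∧ b = 0 := by
  constructor <;> apply hu.mul_right_eq_zero.1
  · linear_combination (3 * x2 * (1 + 3 * a * b + 2 * a ^ 2 * b ^ 2) + b ^ 2 * x0) * e1 - x0 * e3
  · linear_combination (3 * x2 * (1 + 2 * a * b) + a ^ 2 * x4 * (1 + a * b)) * e3 -
      x4 * (1 + a * b) ^ 3 * e1

theorem rn_zero : F.rn S 0 = F := by cases F; simp [Fr.rn]
theorem rl_zero : F.rl S 0 = F := by cases F; simp [Fr.rl]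

/-- Two close null frames differ by small rotations, a boost and a spin close to 1. -/
theorem Cl.decomp (h : S.Is) (hg : ∀ a b, S.g a b ∈ N.B) (M : F.Nl S) (M' : F'.Nl S)
    (b : Cl N F' F) : ∃ a b al be q, N.Cg a 0 ∧ N.Cg b 0 ∧ N.Cg al 1 ∧ N.Cg be 1 ∧ N.Cg q 1 ∧
      al * be = 1 ∧ S.c al = al ∧ q * S.c q = 1 ∧ F' = ((F.rn S a).rl S b).bo S al be q := by
  have K : Null S F.l F.n F.m F.mb := M
  have K' : Null S F'.l F'.n F'.m F'.mb := M'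
  have b0 := b.symm.self
  have c1 := (cg_dot hg b.l b0.n).neg.to (b' := 1) (by rw [K.ln, neg_neg])
  obtain ⟨be, e1, c2⟩ := c1.inv (one_mul 1) (one_mem _)
  have c3 := (c2.mul (cg_dot hg b.l b0.m)).to (b' := 0) (by rw [K.lm, mul_zero])
  have c4 := (cg_dot hg b.m (b0.rn c3).mb).to K.mmb
  obtain ⟨qi, e2, c5⟩ := c4.inv (one_mul 1) (one_mem _)
  have c6 := (c5.mul (cg_dot hg b.m b0.n)).neg.cj.to (b' := 0)
    (by rw [K.mn h, mul_zero, neg_zero, map_zero])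
  have d := Fr.decomp h M M' e1 rfl e2
  exact ⟨_, _, _, be, _, c3, c6, c1, c2, c4, e1, by rw [map_neg, h.c_dot, K'.c_l, K.c_n], d.1, d.2⟩

/-- Two close transverse frames differ by a boost and a spin close to 1. -/
theorem tr_uniq (h : S.Is) (hg : ∀ a b, S.g a b ∈ N.B) (M : F.Nl S) (M' : F'.Nl S)
    (b : Cl N F' F) {pi : A} (h2 : F.p2 S * pi = 1) (h0 : N.Cg (F.p0 S * pi) 0)
    (h4 : F.p4 S * pi ∈ N.B) (t1 : F.p1 S = 0) (t3 : F.p3 S = 0) (t1' : F'.p1 S = 0)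
    (t3' : F'.p3 S = 0) : ∃ al be q, N.Cg al 1 ∧ N.Cg be 1 ∧ N.Cg q 1 ∧
      al * be = 1 ∧ S.c al = al ∧ q * S.c q = 1 ∧ F' = F.bo S al be q := by
  obtain ⟨a, b, al, be, q, ca, cb, c1, c2, c3, e1, e2, e3, e⟩ := b.decomp h hg M M'
  have p := p_bo (S := S) (F := (F.rn S a).rl S b) e1 e3
  rw [← e, t1', t3'] at p
  have z1 : ((F.rn S a).rl S b).p1 S = 0 := by
    linear_combination -(be * S.c q) * p.2.1 -
      ((F.rn S a).rl S b).p1 S * (q * S.c q * e1 + e3)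
  have z3 : ((F.rn S a).rl S b).p3 S = 0 := by
    linear_combination -(al * q) * p.2.2.2.1 -
      ((F.rn S a).rl S b).p3 S * (q * S.c q * e1 + e3)
  simp only [(M.rn h a).p_rl h, M.p_rn h, t1, t3] at z1 z3
  have c4 := Hen.Cg.refl h4
  have ab := (ca.mul cb).to (mul_zero _)
  have n9 : 9 * algebraMap ℂ A (1 / 9) = 1 := by
    rw [← map_ofNat (algebraMap ℂ A) 9, ← map_mul]; norm_num
  have u := ((((((Hen.cg_num 3).mul (Hen.cg_one.add ((Hen.cg_num 2).mul ab))).add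
    (((ca.pow 2).mul c4).mul (Hen.cg_one.add ab))).mul
    (((Hen.cg_num 3).mul ((Hen.cg_one.add ((Hen.cg_num 3).mul ab)).add
      ((Hen.cg_num 2).mul (ab.pow 2)))).add ((cb.pow 2).mul h0))).sub
    ((h0.mul c4).mul ((Hen.cg_one.add ab).pow 3))).unit (b' := algebraMap ℂ A (1 / 9))
      (by linear_combination n9) (Hen.cg_alg _).1)
  have z := rot_uniq (x0 := F.p0 S) (x2 := F.p2 S) (x4 := F.p4 S) (a := a) (b := b)
    (by linear_combination z1) (by linear_combination z3) (by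
      convert ((IsUnit.of_mul_eq_one pi h2).pow 2).mul u using 1
      linear_combination (F.p0 S * F.p4 S * (1 + a * b) ^ 3 * (1 + F.p2 S * pi) -
        F.p2 S * (3 * (1 + 2 * (a * b))) * b ^ 2 * F.p0 S -
        F.p2 S * a ^ 2 * F.p4 S * (1 + a * b) * (3 * (1 + 3 * (a * b) + 2 * (a * b) ^ 2)) -
        a ^ 2 * F.p4 S * (1 + a * b) * b ^ 2 * F.p0 S * (1 + F.p2 S * pi)) * h2)
  rw [z.1, z.2, rn_zero, rl_zero] at e
  exact ⟨al, be, q, c1, c2, c3, e1, e2, e3, e⟩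

end Fr
end Vale.Agent.P354XD
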