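import Vale.Agent.P354XG.Inst
import Vale.Agent.P354XR.KC

/-!
The chart (t, r, xi1, xi2) of the bundle of dyads: the Hopf map, the coordinates of the base and
the lifts of the coordinate fields.
-/

set_option linter.all false

namespace Vale.Agent.P354XD

open Vale.Agent.P354XG Vale.Agent.P354XG.Geo Vale.Agent.P354XR

/-- The coordinates z = (t, r, xi1, xi2, conj xi1, conj xi2) and their derivations d. -/
structure Hp (A : Type*) [CommRing A] [Algebra ℂ A] where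
  c : A →+* A
  d : Fin 6 → Der A
  z : Fin 6 → A
  ri : A
  Ni : A

variable {A : Type*} [CommRing A] [Algebra ℂ A]

namespace Hp

variable (K : Hp A)

def N : A := K.z 2 * K.z 4 + K.z 3 * K.z 5

/-- The relations. -/
structure Is : Prop where
  cc : ∀ f, K.c (K.c f) = f
  calg : ∀ z : ℂ, K.c (algebraMap ℂ A z) = algebraMap ℂ A (starRingEnd ℂ z)
  c0 : ∀ f, K.c (K.d 0 f) = K.d 0 (K.c f)
  c1 : ∀ f, K.c (K.d 1 f) = K.d 1 (K.c f)
  c2 : ∀ f, K.c (K.d 2 f) = K.d 4 (K.c f)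
  c3 : ∀ f, K.c (K.d 3 f) = K.d 5 (K.c f)
  z0 : K.c (K.z 0) = K.z 0
  z1 : K.c (K.z 1) = K.z 1
  z2 : K.c (K.z 2) = K.z 4
  z3 : K.c (K.z 3) = K.z 5
  comm : ∀ i j f, K.d i (K.d j f) = K.d j (K.d i f)
  dz : ∀ i j, K.d i (K.z j) = if i = j then 1 else 0
  hr : K.z 1 * K.ri = 1
  hN : K.N * K.Ni = 1

noncomputable def P : Der A := K.z 4 • K.d 3 - K.z 5 • K.d 2
noncomputable def Q : Der A := K.z 2 • K.d 5 - K.z 3 • K.d 4
noncomputable def H : Der A := K.z 2 • K.d 2 + K.z 3 • K.d 3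
noncomputable def B : Der A := K.z 4 • K.d 4 + K.z 5 • K.d 5

theorem P_ap (f : A) : K.P f = K.z 4 * K.d 3 f - K.z 5 * K.d 2 f := by simp [P]
theorem Q_ap (f : A) : K.Q f = K.z 2 * K.d 5 f - K.z 3 * K.d 4 f := by simp [Q]
theorem H_ap (f : A) : K.H f = K.z 2 * K.d 2 f + K.z 3 * K.d 3 f := by simp [H]
theorem B_ap (f : A) : K.B f = K.z 4 * K.d 4 f + K.z 5 * K.d 5 f := by simp [B]

/-- The chart algebra of flat space. -/
noncomputable def kc : KC A where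
  c := K.c
  T := K.d 0
  R := K.d 1
  P := K.P
  Q := K.Q
  H := K.H
  B := K.B
  r := K.z 1
  x := (K.z 2 * K.z 4 - K.z 3 * K.z 5) * K.Ni
  s := 2 * K.z 2 * K.z 3 * K.Ni
  sb := 2 * K.z 4 * K.z 5 * K.Ni
  N := K.N
  Ni := K.Ni
  sg := K.ri * K.ri
  a := 0
  M := 0

/-- The Hopf map and its derivatives Q om = mu, P om = mub. -/
noncomputable def om : Vec A := ![0, (K.z 4 * K.z 3 + K.z 2 * K.z 5) * K.Ni,
  -(ii A * (K.z 4 * K.z 3 - K.z 2 * K.z 5) * K.Ni), (K.z 2 * K.z 4 - K.z 3 * K.z 5) * K.Ni]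
noncomputable def mu : Vec A := ![0, (K.z 2 * K.z 2 - K.z 3 * K.z 3) * K.Ni,
  ii A * (K.z 2 * K.z 2 + K.z 3 * K.z 3) * K.Ni, -(2 * K.z 2 * K.z 3 * K.Ni)]
noncomputable def mub : Vec A := ![0, (K.z 4 * K.z 4 - K.z 5 * K.z 5) * K.Ni,
  -(ii A * (K.z 4 * K.z 4 + K.z 5 * K.z 5) * K.Ni), -(2 * K.z 4 * K.z 5 * K.Ni)]
def e0 (A : Type*) [CommRing A] : Vec A := ![1, 0, 0, 0]

/-- The coordinates (t, r om) of the base. -/
noncomputable def co : Vec A := fun a => K.z 0 * e0 A a + K.z 1 * K.om a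

/-- The lifts of the coordinate fields. -/
noncomputable def L (a : Fin 4) : Der A :=
  K.kc.V (e0 A a) (K.om a) (hf A * K.ri * K.mu a) (hf A * K.ri * K.mub a) 0 0

/-- The vertical part of the brackets. -/
noncomputable def v (a b : Fin 4) : A :=
  (hf A * K.ri) ^ 2 * (K.mu a * K.mub b - K.mub a * K.mu b)

/-- The projection of a field. -/
noncomputable def prj (D : Der A) : Vec A := dv D K.co

/-- The geometry with given metric and Christoffel symbols. -/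
noncomputable def geo (g : Fin 4 → Fin 4 → A) (Γ : Fin 4 → Fin 4 → Fin 4 → A) : Geo A where
  c := K.c
  L := K.L
  H := K.H
  Hb := K.B
  g := g
  Γ := Γ
  v := K.v
  vb a b := -K.v a b

theorem L_ap (a : Fin 4) (f : A) : K.L a f = e0 A a * K.d 0 f + K.om a * K.d 1 f +
    hf A * K.ri * K.mu a * K.P f + hf A * K.ri * K.mub a * K.Q f := by
  simp [L, KC.V_ap, kc]

variable {K}

theorem D_hf (D : Der A) : D (hf A) = 0 := D_alg D _

theorem D_e0 (D : Der A) (a : Fin 4) : D (e0 A a) = 0 := by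
  fin_cases a <;> simp [e0]

namespace Is
variable (h : K.Is)
include h

theorem z4 : K.c (K.z 4) = K.z 2 := by rw [← h.z2, h.cc]
theorem z5 : K.c (K.z 5) = K.z 3 := by rw [← h.z3, h.cc]
theorem c4 (f : A) : K.c (K.d 4 f) = K.d 2 (K.c f) := by
  have := congrArg K.c (h.c2 (K.c f))
  rw [h.cc, h.cc] at this
  exact this.symm
theorem c5 (f : A) : K.c (K.d 5 f) = K.d 3 (K.c f) := by
  have := congrArg K.c (h.c3 (K.c f))
  rw [h.cc, h.cc] at this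
  exact this.symm
theorem c_N : K.c K.N = K.N := by
  simp only [N, map_add, map_mul, h.z2, h.z3, h.z4, h.z5]; ring
theorem c_Ni : K.c K.Ni = K.Ni := by
  have := congrArg K.c h.hN
  rw [map_mul, map_one, h.c_N] at this
  linear_combination K.Ni * this - K.c K.Ni * h.hN
theorem c_ri : K.c K.ri = K.ri := by
  have := congrArg K.c h.hr
  rw [map_mul, map_one, h.z1] at this
  linear_combination K.ri * this - K.c K.ri * h.hr
theorem c_ii : K.c (ii A) = -ii A := by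
  rw [ii, h.calg, Complex.conj_I, map_neg]
theorem c_hf : K.c (hf A) = hf A := by
  rw [hf, h.calg, map_div₀, map_one, map_ofNat]
theorem c_P (f : A) : K.c (K.P f) = K.Q (K.c f) := by
  simp only [P_ap, Q_ap, map_sub, map_mul, h.z4, h.z5, h.c2, h.c3]
theorem c_Q (f : A) : K.c (K.Q f) = K.P (K.c f) := by
  simp only [P_ap, Q_ap, map_sub, map_mul, h.z2, h.z3, h.c4, h.c5]
theorem c_H (f : A) : K.c (K.H f) = K.B (K.c f) := by
  simp only [H_ap, B_ap, map_add, map_mul, h.z2, h.z3, h.c2, h.c3]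

theorem d_Ni (i : Fin 6) : K.d i K.Ni = -(K.Ni * K.Ni * K.d i K.N) :=
  KC.D_inv _ (by rw [mul_comm, h.hN])
theorem d_ri (i : Fin 6) : K.d i K.ri = -(K.ri * K.ri * K.d i (K.z 1)) :=
  KC.D_inv _ (by rw [mul_comm, h.hr])

/-- The derivatives of the generators. -/
theorem tab : K.d 0 K.Ni = 0 ∧ K.d 1 K.Ni = 0 ∧ K.P K.Ni = 0 ∧ K.Q K.Ni = 0 ∧ K.H K.Ni = -K.Ni ∧
    K.B K.Ni = -K.Ni ∧ K.d 0 K.ri = 0 ∧ K.d 1 K.ri = -(K.ri * K.ri) ∧ K.P K.ri = 0 ∧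
    K.Q K.ri = 0 ∧ K.H K.ri = 0 ∧ K.B K.ri = 0 ∧
    (∀ j, K.P (K.z j) = ![0, 0, -K.z 5, K.z 4, 0, 0] j) ∧
    (∀ j, K.Q (K.z j) = ![0, 0, 0, 0, -K.z 3, K.z 2] j) ∧
    (∀ j, K.H (K.z j) = ![0, 0, K.z 2, K.z 3, 0, 0] j) ∧
    ∀ j, K.B (K.z j) = ![0, 0, 0, 0, K.z 4, K.z 5] j := by
  have e := h.hN
  simp only [N] at e
  refine ⟨?_, ?_, ?_, ?_, ?_, ?_, ?_, ?_, ?_, ?_, ?_, ?_, fun j => ?_, fun j => ?_, fun j => ?_,
    fun j => ?_⟩
  any_goals (fin_cases j <;> simp [P_ap, Q_ap, H_ap, B_ap, h.dz])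
  all_goals simp [P_ap, Q_ap, H_ap, B_ap, h.d_Ni, h.d_ri, N, D_add, D_mul, h.dz]
  · ring
  · ring
  · linear_combination -K.Ni * e
  · linear_combination -K.Ni * e

theorem kc : K.kc.Is := by
  obtain ⟨a1, a2, a3, a4, a5, a6, b1, b2, b3, b4, b5, b6, p, q, u, w⟩ := h.tab
  have e := h.hN
  simp only [N] at e
  constructor
  case cc => exact h.cc
  case calg => exact h.calg
  case c_T => exact h.c0
  case c_R => exact h.c1
  case c_P => exact h.c_P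
  case c_H => exact h.c_H
  case c_r => exact h.z1
  case c_N => exact h.c_N
  case hN => exact h.hN
  case R_T => exact h.comm 1 0
  case c_x => simp only [Hp.kc, map_mul, map_sub, h.z2, h.z3, h.z4, h.z5, h.c_Ni]; ring
  case c_s => simp only [Hp.kc, map_mul, map_ofNat, h.z2, h.z3, h.c_Ni]
  case hs => simp only [Hp.kc]; linear_combination (1 + (K.z 2 * K.z 4 + K.z 3 * K.z 5) * K.Ni) * e
  case hg => simp only [Hp.kc]; linear_combination (1 + K.z 1 * K.ri) * h.hr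
  case P_T => intro f; simp [Hp.kc, P_ap, D_sub, D_mul, h.dz, h.comm 0]
  case H_T => intro f; simp [Hp.kc, H_ap, D_add, D_mul, h.dz, h.comm 0]
  case P_R => intro f; simp [Hp.kc, P_ap, D_sub, D_mul, h.dz, h.comm 1]
  case H_R => intro f; simp [Hp.kc, H_ap, D_add, D_mul, h.dz, h.comm 1]
  case P_Q =>
    intro f
    simp [Hp.kc, P_ap, Q_ap, H_ap, B_ap, D_sub, D_mul, h.dz, h.comm 5 2, h.comm 5 3, h.comm 4 2,
      h.comm 4 3]
    ring
  case H_P =>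
    intro f
    simp [Hp.kc, P_ap, H_ap, D_add, D_sub, D_mul, h.dz, h.comm 3 2]
    ring
  case H_Q =>
    intro f
    simp [Hp.kc, Q_ap, H_ap, D_add, D_sub, D_mul, h.dz, h.comm 5 2, h.comm 5 3, h.comm 4 2,
      h.comm 4 3]
    ring
  case B_H =>
    intro f
    simp [Hp.kc, B_ap, H_ap, D_add, D_mul, h.dz, h.comm 5 2, h.comm 5 3, h.comm 4 2, h.comm 4 3]
    ring
  all_goals
    simp [Hp.kc, N, D_add, D_sub, D_mul, D_num, h.dz, a1, a2, a3, a5, p, u]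
    try ring

theorem c_Bf (f : A) : K.c (K.B f) = K.H (K.c f) := h.kc.c_B f

theorem c_e0 (a : Fin 4) : K.c (e0 A a) = e0 A a := by fin_cases a <;> simp [e0]
theorem c_om (a : Fin 4) : K.c (K.om a) = K.om a := by
  fin_cases a <;> simp [om, h.z2, h.z3, h.z4, h.z5, h.c_Ni, h.c_ii] <;> ring
theorem c_mu (a : Fin 4) : K.c (K.mu a) = K.mub a := by
  fin_cases a <;> simp [mu, mub, h.z2, h.z3, h.c_Ni, h.c_ii, map_ofNat]
theorem c_mub (a : Fin 4) : K.c (K.mub a) = K.mu a := by rw [← h.c_mu, h.cc]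
theorem c_co (a : Fin 4) : K.c (K.co a) = K.co a := by
  simp only [co, map_add, map_mul, h.z0, h.z1, h.c_e0, h.c_om]

/-- The derivatives of the Hopf map. -/
theorem tom (a : Fin 4) : K.d 0 (K.om a) = 0 ∧ K.d 1 (K.om a) = 0 ∧ K.P (K.om a) = K.mub a ∧
    K.Q (K.om a) = K.mu a ∧ K.H (K.om a) = 0 ∧ K.B (K.om a) = 0 ∧
    K.d 0 (K.mu a) = 0 ∧ K.d 1 (K.mu a) = 0 ∧ K.P (K.mu a) = -(2 * K.om a) ∧
    K.Q (K.mu a) = 0 ∧ K.H (K.mu a) = K.mu a ∧ K.B (K.mu a) = -K.mu a ∧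
    K.d 0 (K.mub a) = 0 ∧ K.d 1 (K.mub a) = 0 ∧ K.P (K.mub a) = 0 ∧
    K.Q (K.mub a) = -(2 * K.om a) ∧ K.H (K.mub a) = -K.mub a ∧ K.B (K.mub a) = K.mub a := by
  obtain ⟨a1, a2, a3, a4, a5, a6, -, -, -, -, -, -, p, q, u, w⟩ := h.tab
  fin_cases a <;>
    simp [om, mu, mub, D_add, D_sub, D_mul, D_num, D_neg, D_ii, h.dz, a1, a2, a3, a4, a5, a6, p, q,
      u, w] <;>
    (repeat' apply And.intro) <;> ring

/-- Completeness of the frame om, mu, mub. -/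
theorem cmpl (a b : Fin 4) : e0 A a * e0 A b + K.om a * K.om b +
    hf A * (K.mu a * K.mub b + K.mub a * K.mu b) = if a = b then 1 else 0 := by
  have e : (K.N * K.Ni) ^ 2 = 1 := by rw [h.hN, one_pow]
  have t := two_hf (A := A)
  have i := ii_sq (A := A)
  have k : ∀ a b, 2 * (K.om a * K.om b) + (K.mu a * K.mub b + K.mub a * K.mu b) =
      2 * ((if a = b then 1 else 0) - e0 A a * e0 A b) * (K.N * K.Ni) ^ 2 := by
    intro a b
    fin_cases a <;> fin_cases b <;> simp [om, mu, mub, e0, N]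
    all_goals first
      | ring1
      | linear_combination (2 * K.Ni ^ 2 * ((K.z 4 * K.z 3 - K.z 2 * K.z 5) ^ 2 -
          (K.z 2 * K.z 2 + K.z 3 * K.z 3) * (K.z 4 * K.z 4 + K.z 5 * K.z 5))) * i
  have k1 := k a b
  rw [e] at k1
  linear_combination hf A * k1 + ((if a = b then 1 else 0) - e0 A a * e0 A b -
    K.om a * K.om b) * t

theorem tco (a : Fin 4) : K.d 0 (K.co a) = e0 A a ∧ K.d 1 (K.co a) = K.om a ∧
    K.P (K.co a) = K.z 1 * K.mub a ∧ K.Q (K.co a) = K.z 1 * K.mu a ∧ K.H (K.co a) = 0 ∧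
    K.B (K.co a) = 0 := by
  obtain ⟨-, -, -, -, -, -, -, -, -, -, -, -, p, q, u, w⟩ := h.tab
  simp [co, D_add, D_mul, D_e0, h.tom a, h.dz, p, q, u, w]

theorem L_co (a b : Fin 4) : K.L a (K.co b) = if a = b then 1 else 0 := by
  simp only [L_ap, h.tco b]
  linear_combination h.cmpl a b + hf A * (K.mu a * K.mub b + K.mub a * K.mu b) * h.hr

theorem c_L (a : Fin 4) (f : A) : K.c (K.L a f) = K.L a (K.c f) := by
  simp only [L_ap, map_add, map_mul, h.c_e0, h.c_om, h.c_mu, h.c_mub, h.c_hf, h.c_ri, h.c0, h.c1,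
    h.c_P, h.c_Q]
  ring

theorem HL (a : Fin 4) (f : A) : K.H (K.L a f) = K.L a (K.H f) := by
  have k := h.kc
  have e1 : ∀ f, K.H (K.d 0 f) = _ := k.H_T
  have e2 : ∀ f, K.H (K.d 1 f) = _ := k.H_R
  have e3 : ∀ f, K.H (K.P f) = _ := k.H_P
  have e4 : ∀ f, K.H (K.Q f) = _ := k.H_Q
  simp only [L_ap, D_add, D_mul, e1, e2, e3, e4, D_e0, D_hf, h.tom a, h.tab, Hp.kc]
  ring

theorem LL (a b : Fin 4) (f : A) :
    K.L a (K.L b f) = K.L b (K.L a f) + K.v a b * K.H f + -K.v a b * K.B f := by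
  rw [h.kc.V_comm (E := K.L a) (F := K.L b) rfl rfl]
  generalize K.L b (K.L a f) = u
  simp only [KC.V_ap, L_ap, D_mul, D_e0, D_hf, D_zero, h.tom a, h.tom b, h.tab, v, Hp.kc]
  linear_combination (hf A * K.ri ^ 2 * ((K.om a * K.mu b - K.om b * K.mu a) * K.P f +
    (K.om a * K.mub b - K.om b * K.mub a) * K.Q f)) * two_hf (A := A)

theorem d0_eq (f : A) : K.d 0 f = K.L 0 f := by simp [L_ap, e0, om, mu, mub]

/-- The Euclidean products. -/
theorem prods : ∑ a, K.om a * K.om a = 1 ∧ ∑ a, K.om a * K.mu a = 0 ∧ ∑ a, K.om a * K.mub a = 0 ∧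
    ∑ a, K.mu a * K.mu a = 0 ∧ ∑ a, K.mub a * K.mub a = 0 ∧ ∑ a, K.mu a * K.mub a = 2 := by
  have e : (K.N * K.Ni) ^ 2 = 1 := by rw [h.hN, one_pow]
  have i := ii_sq (A := A)
  simp only [N] at e
  simp [Fin.sum_univ_four, om, mu, mub]
  refine ⟨?_, ?_, ?_, ?_, ?_, ?_⟩
  · linear_combination e + K.Ni ^ 2 * (K.z 4 * K.z 3 - K.z 2 * K.z 5) ^ 2 * i
  · linear_combination -(K.Ni ^ 2 * (K.z 4 * K.z 3 - K.z 2 * K.z 5) *
      (K.z 2 * K.z 2 + K.z 3 * K.z 3)) * i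
  · linear_combination K.Ni ^ 2 * (K.z 4 * K.z 3 - K.z 2 * K.z 5) *
      (K.z 4 * K.z 4 + K.z 5 * K.z 5) * i
  · linear_combination K.Ni ^ 2 * (K.z 2 * K.z 2 + K.z 3 * K.z 3) ^ 2 * i
  · linear_combination K.Ni ^ 2 * (K.z 4 * K.z 4 + K.z 5 * K.z 5) ^ 2 * i
  · linear_combination 2 * e - K.Ni ^ 2 * (K.z 2 * K.z 2 + K.z 3 * K.z 3) *
      (K.z 4 * K.z 4 + K.z 5 * K.z 5) * i

theorem prj_V (e1 e2 e3 e4 e5 e6 : A) (a : Fin 4) : K.prj (K.kc.V e1 e2 e3 e4 e5 e6) a =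
    e1 * e0 A a + e2 * K.om a + e3 * (K.z 1 * K.mub a) + e4 * (K.z 1 * K.mu a) := by
  simp only [prj, dv, KC.V_ap, Hp.kc, h.tco a, mul_zero, add_zero]

/-- Every field is given by its projection and its vertical part. -/
theorem act_prj (g : Fin 4 → Fin 4 → A) (Γ : Fin 4 → Fin 4 → Fin 4 → A) (e1 e2 e3 e4 e5 e6 f : A) :
    (K.geo g Γ).act ⟨K.prj (K.kc.V e1 e2 e3 e4 e5 e6), e5, e6⟩ f = K.kc.V e1 e2 e3 e4 e5 e6 f := by
  obtain ⟨p1, p2, p3, p4, p5, p6⟩ := h.prods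
  have t := two_hf (A := A)
  have r := h.hr
  have o0 : K.om 0 = 0 := rfl
  have m0 : K.mu 0 = 0 := rfl
  have n0 : K.mub 0 = 0 := rfl
  rw [act_apply]
  simp only [h.prj_V, Fin.sum_univ_four, o0, m0, n0] at p1 p2 p3 p4 p5 p6 ⊢
  simp [KC.V_ap, Hp.kc, Hp.geo, L_ap, e0, o0, m0, n0]
  linear_combination e2 * K.d 1 f * p1 + (e2 * hf A * K.ri * K.P f + e4 * K.z 1 * K.d 1 f) * p2 +
    (e2 * hf A * K.ri * K.Q f + e3 * K.z 1 * K.d 1 f) * p3 +
    e4 * K.z 1 * hf A * K.ri * K.P f * p4 + e3 * K.z 1 * hf A * K.ri * K.Q f * p5 +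
    K.z 1 * hf A * K.ri * (e3 * K.P f + e4 * K.Q f) * p6 +
    (e3 * K.P f + e4 * K.Q f) * (K.z 1 * K.ri * t + r)

theorem prj_act (g : Fin 4 → Fin 4 → A) (Γ : Fin 4 → Fin 4 → Fin 4 → A) (u : Op A) :
    K.prj ((K.geo g Γ).act u) = u.X := by
  funext b
  simp [prj, dv, act_apply, Hp.geo, h.L_co, h.tco b]

/-- The equations of the geometry. -/
theorem geo_is {g : Fin 4 → Fin 4 → A} {Γ : Fin 4 → Fin 4 → Fin 4 → A}
    (c_g : ∀ a b, K.c (g a b) = g a b) (c_Γ : ∀ a b d, K.c (Γ a b d) = Γ a b d)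
    (H_g : ∀ a b, K.H (g a b) = 0) (H_Γ : ∀ a b d, K.H (Γ a b d) = 0)
    (g_symm : ∀ a b, g a b = g b a) (Γ_symm : ∀ a b d, Γ a b d = Γ b a d)
    (compat : ∀ a b d, K.L a (g b d) = ∑ f, (Γ a b f * g f d + Γ a d f * g b f))
    (ric : ∀ b d, ∑ a, (K.geo g Γ).R a b d a = 0) : (K.geo g Γ).Is :=
  ⟨h.cc, h.calg, h.c_L, h.c_H, c_g, c_Γ, h.LL, h.HL, fun f => (h.kc.B_H f).symm, H_g, H_Γ, g_symm,
    Γ_symm, compat, ric⟩

end Is
end Hp
end Vale.Agent.P354XD
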