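import Vale.Agent.P354MG.Parts
import Vale.Agent.P354XD.VD
import Vale.Agent.P354DR.Cht
import Vale.Agent.P354BO.Outb
import Vale.Agent.P354CN.Kcn
import Vale.Agent.P354XO.Nat

/-!
Kerr in the chart of the estimates, and the transverse frame of the family of all metrics and of
all parameters.
-/

set_option linter.all false

open scoped ContDiff
open Set Filter Topology Complex

noncomputable section

namespace Vale.Agent.P354XD

open Vale.Agent.P354XE (Tw gin rd)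
open Vale.Agent.P354XG Vale.Agent.P354XG.Geo Vale.Agent.P354XI Vale.Agent.P354YA
open Vale.Agent.P354XR hiding pw
open Vale.Agent.P354Z (hs js pI kI ge Cone lt f4 q2 dat)
open Vale.Agent.P354CV
open Vale.Agent.P354YO (sh IsTh sh_cd sh_inj sh_inv sh_inv' rd_sh)
open Vale.Agent.P354MG (kE)
open Vale.Agent.P354BO (th_sm Em Em_kerr Em_J met_J Jm kS_is kS_pm kk_S fv_pq U0 U0_cone map_gK)
open Vale.Agent.P354XO (sc sc_ap ev_euler pj_sc sc_inv)
open Vale.Agent.P354CN (sf sf_ok euler K0_sc)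
open Vale.Agent.P354DR (dd dd_hom)

section one
variable {M0 M a : ℝ} {A B : ℝ → ℝ} (h0 : 0 < M0) (t : IsTh M0 M a A B)
include h0 t

theorem vac_kE {x : E6} (h : 0 < x.2.1 ∧ x.2.2 ≠ 0) : VacAt (kE M a A B) (pj x) := by
  obtain ⟨hA, hB, -⟩ := th_sm h0 t
  have r : 0 < rd (pj x) := by rw [rd_pj h.1 h.2]; exact h.1
  exact P354XO.vacAt_pb (U := {y | 0 < rd y}) ⟨P354YJ.open_rd,
    fun y hy => sh_cd (ne_of_gt hy) hA.contDiffAt hB.contDiffAt,
    fun y hy => sh_inj (ne_of_gt hy) hA.contDiffAt hB.contDiffAt,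
    fun y _ z _ e => by simpa only [sh_inv] using congrArg (sh (-A) (-B)) e⟩ r
    ⟨_, P354YJ.open_rd, by show 0 < rd _; rwa [rd_sh], P354YJ.gin_met M a, P354YJ.gin_vac M a⟩

theorem kE_back {y : P354n.R4} (hy : 0 < rd y) :
    P354XE.pb (sh (-A) (-B)) (kE M a A B) y = gin M a y := by
  obtain ⟨hA, hB, -⟩ := th_sm h0 t
  have e : ∀ v, fderiv ℝ (sh A B) (sh (-A) (-B) y) (fderiv ℝ (sh (-A) (-B)) y v) = v := fun v => by
    have := fderiv_comp y ((sh_cd (p := sh (-A) (-B) y) (by rw [rd_sh]; exact hy.ne') hA.contDiffAt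
      hB.contDiffAt).differentiableAt (by simp))
      ((sh_cd hy.ne' hA.neg.contDiffAt hB.neg.contDiffAt).differentiableAt (by simp))
    rw [show sh A B ∘ sh (-A) (-B) = id from funext (sh_inv' A B), fderiv_id] at this
    exact (congrArg (· v) this).symm
  funext v w
  simp only [kE, P354XE.pb, sh_inv', e]

/-- The metric of the model is Kerr in the chart of the estimates. -/
theorem kE_on {O : Set E6} (c : Cone O) :
    (ge O (kE M a A B)).g = gK (hp (on O)) (pI O M0 M a) := by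
  obtain ⟨hA, hB, -⟩ := th_sm h0 t
  have r : ∀ y ∈ O, 0 < rd (sh A B (pj y)) := fun y hy => by
    rw [rd_sh, rd_pj (c.pos y hy).1 (c.pos y hy).2]; exact (c.pos y hy).1
  have z : ∀ b d, ∀ y, 0 < rd y →
      gc (P354XE.pb (sh (-A) (-B)) (kE M a A B) - gin M a) b d y = 0 := fun b d y hy => by
    simp only [gc, Pi.sub_apply, kE_back h0 t hy, sub_self]
  have e1 : Jm O A B * Matrix.of (ge O (kE M a A B)).g * (Jm O A B).transpose =
      Matrix.of (gK (P354BO.kS O A B) (pm _ (fun _ => M) fun _ => a)) :=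
    sub_eq_zero.1 (Matrix.ext fun b d => by
      have k := (met_J c hA hB (M := M) (a := a) (fun y hy => vac_kE h0 t (c.pos y hy)) b d).trans
        (b := _) (c := 0) (ext_fv c.op fun y hy => by
          rw [fv_pq c hA hB (fun x hx => contDiffAt_const.congr_of_eventuallyEq
            ((P354YJ.open_rd.eventually_mem (r x hx)).mono (z b d))) hy, z b d _ (r y hy), fv_zero]
          rfl)
      rw [Matrix.zero_apply]
      linear_combination hf _ * k - (Jm O A B * Matrix.of (ge O (kE M a A B)).g *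
        (Jm O A B).transpose - Matrix.of (gK (P354BO.kS O A B) (pm _ (fun _ => M) fun _ => a))) b d *
        two_hf (A := Sm (on O)))
  have e2 := Em_kerr (kS_is c hA hB) (kS_pm c hA hB M a)
  have e3 := Em_kerr (cone_hp c) (pI_is c h0 M a)
  rw [kk_S c h0 t, ← e1] at e2
  have e4 := Em_J c hA hB (spn_kerr (p := pI O M0 M a) (cone_hp c))
  have u : IsUnit (Em (hp (on O)) (kk (hp (on O)) (pI O M0 M a)).kerr).det := by
    have := congrArg Matrix.det e3
    rw [Matrix.det_mul, Matrix.det_mul, P354BO.eta_det, mul_assoc] at this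
    exact .of_mul_eq_one _ this
  have e5 : Em (hp (on O)) (kk (hp (on O)) (pI O M0 M a)).kerr * Matrix.of (ge O (kE M a A B)).g *
      (Em (hp (on O)) (kk (hp (on O)) (pI O M0 M a)).kerr).transpose = _ := Eq.trans (by
    rw [e4, Matrix.transpose_mul]; simp only [Matrix.mul_assoc]) (e2.trans e3.symm)
  exact ((Matrix.isUnit_iff_isUnit_det _).2 u).mul_left_cancel
    (((Matrix.isUnit_iff_isUnit_det _).2 (Matrix.isUnit_det_transpose _ u)).mul_right_cancel e5)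

end one

section fam
variable {J : Type} (G : Filter (J × E6)) [Loc G] (M0 : ℝ) (M a : J → ℝ) (g : J → Tw)

/-- Functions of the parameters and of the radius. -/
def fm3 (φ : ℝ × ℝ × ℝ → ℝ) : Sm G := gm G fun p => (φ (M p.1, a p.1, p.2.2.1) : ℂ)

/-- The parameters, the frame of the model, the transverse frame and its data. -/
def pFm : Pm (Sm G) := { pm G M a with h1 := fm3 G M a (hs M0), j1 := fm3 G M a (js M0) }
def eK : Fr (Sm G) := frK (hp G) (pFm G M0 M a)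
def eW : Fr (Sm G) := (eK G M0 M a).full (S := sG G g) (opsS rfl) (sG G g).R
def eG : GHP (Sm G) := (eW G M0 M a g).ghp (sG G g)
def OkF : Prop := (eK G M0 M a).Ok (S := sG G g) (opsS rfl) (sG G g).R

variable {G M0 M a g} {φ : ℝ × ℝ × ℝ → ℝ}

theorem rs_f3' (hφ : ContDiff ℝ ∞ φ) :
    Rs (fm3 G M a φ) fun p => (φ (M p.1, a p.1, p.2.2.1) : ℂ) :=
  rs_gm (Eventually.of_forall fun p => ofRealCLM.contDiff.contDiffAt.comp p.2
    (hφ.comp (f := fun y : E6 => (M p.1, a p.1, y.2.1)) (by fun_prop)).contDiffAt)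

theorem d_f3 (hφ : ContDiff ℝ ∞ φ) (i : Fin 6) (hi : i ≠ 1) : (hp G).d i (fm3 G M a φ) = 0 := by
  have e : ∀ v : E6, v.2.1 = 0 → pd v (fm3 G M a φ) = 0 := fun v hv =>
    ((rs_f3' hφ).pd v).ext rs_zero (Eventually.of_forall fun p => by
      have d := ofRealCLM.hasFDerivAt.comp p.2 (((hφ.comp (f := fun r : ℝ => (M p.1, a p.1, r))
        (by fun_prop)).differentiable (by simp) p.2.2.1).hasDerivAt.comp_hasFDerivAt p.2
          (hasFDerivAt_snd (𝕜 := ℝ) (p := p.2)).fst)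
      refine (congrArg (· v) d.fderiv).trans ?_
      simp [hv])
  rw [hp_d, e, e, mul_zero, mul_zero, add_zero]
  all_goals fin_cases i <;> first | rfl | exact absurd rfl hi

theorem pF_is (o : Pos G) (h0 : 0 < M0) (M a : J → ℝ) : (pFm G M0 M a).Is (hp G) :=
  have c : ∀ {φ}, ContDiff ℝ ∞ φ → cj (fm3 G M a φ) = fm3 G M a φ := fun h =>
    (rs_f3' h).cj.ext (rs_f3' h) (Eventually.of_forall fun _ => conj_ofReal _)
  pm_upd (pm_is o M a) (c (hs_cd h0)) (c (js_cd h0)) (d_f3 (hs_cd h0)) (d_f3 (js_cd h0))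

theorem eK_rw (o : Pos G) (h0 : 0 < M0) : (eK G M0 M a).RW (sG G g) :=
  have w := (frK_wn (hp_is o.off) (pF_is o h0 M a) (sG G g).Γ).rw
  ⟨w.c_l, w.c_n, w.c_m, w.H_l, w.H_n, w.H_m, w.Hb_m⟩

variable {J' : Type} {G' : Filter (J' × E6)} [Loc G'] {κ : J' → J} (h : Rx G' G κ) (o : Pos G)
  (h0 : 0 < M0)
include h o h0

theorem rx_pF : PHom (pFm G M0 M a) (pFm G' M0 (fun j => M (κ j)) fun j => a (κ j)) h.rix :=
  ⟨h.rix_cst _, h.rix_cst _, (h.rs (rs_sg o M a)).ext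
    (rs_sg (h.ev o) (fun j => M (κ j)) fun j => a (κ j)) EventuallyEq.rfl,
    (h.rs (rs_f3' (hs_cd h0))).ext (rs_f3' (hs_cd h0)) EventuallyEq.rfl,
    (h.rs (rs_f3' (js_cd h0))).ext (rs_f3' (js_cd h0)) EventuallyEq.rfl⟩

theorem rx_gK (b d : Fin 4) : h.rix (gK (hp G) (pFm G M0 M a) b d) =
    gK (hp G') (pFm G' M0 (fun j => M (κ j)) fun j => a (κ j)) b d :=
  have q := rx_pF (M := M) (a := a) h o h0
  map_gK (h.hp o.off).z (hp_is o.off) (hp_is (h.off o.off)) (pF_is o h0 _ _)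
    (pF_is (h.ev o) h0 _ _) q.a q.M q.h1 q.j1 b d

theorem rx_lt (i : Fin 5) (f : Sm G) : h.rix (lt (hp G) (pFm G M0 M a) i f) =
    lt (hp G') (pFm G' M0 (fun j => M (κ j)) fun j => a (κ j)) i (h.rix f) := by
  have k := h.hp o.off
  have r := k.kkV (rx_pF (M := M) (a := a) h o h0) 0 1 0 0 0 0 f
  simp only [KC.V_ap, map_zero, map_one, zero_mul, one_mul, zero_add, add_zero] at r
  fin_cases i
  exacts [k.d 0 f, r, by simp [lt, Om, k.z, k.d, map_ii, map_hf],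
    by simp [lt, Om, k.z, k.d, map_ii, map_hf], P354DR.Om_hom k f]

end fam

/-! ### The family of all metrics and parameters -/

abbrev IU : Type := Tw × ℝ × ℝ
abbrev GA : Filter (IU × E6) := nb ⊤ fun u => K0 u.1

theorem GA_ev : ∀ᶠ p in GA, p.2 ∈ K0 p.1.1 :=
  ev_nb.2 (Eventually.of_forall fun _ _ hx => K0_ev hx)

theorem GA_pos : Pos GA := GA_ev.mono fun _ k => k.1

/-- The values of the frame of the model. -/
def vEf (M0 : ℝ) (p : IU × E6) : Fr ℂ :=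
  ⟨fun d => rep ((eK GA M0 (·.2.1) (·.2.2)).l d) p, fun d => rep ((eK GA M0 (·.2.1) (·.2.2)).n d) p,
    fun d => rep ((eK GA M0 (·.2.1) (·.2.2)).m d) p,
    fun d => rep ((eK GA M0 (·.2.1) (·.2.2)).mb d) p⟩

/-- The points near which the transverse frame is defined. -/
def KE (M0 : ℝ) (u : IU) : Set E6 :=
  {x | ∀ᶠ y in 𝓝 x, y ∈ K0 u.1 ∧ (vEf M0 (u, y)).Ok (S := pt (vg (u.1, y))) opsC (vR (u.1, y))}
abbrev GE (M0 : ℝ) : Filter (IU × E6) := nb ⊤ (KE M0)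

variable {M0 : ℝ} {J : Type} {G : Filter (J × E6)} [Loc G] {M a : J → ℝ} {g : J → Tw}
  (h0 : 0 < M0)

theorem KE_open (u : IU) : IsOpen (KE M0 u) := isOpen_setOfPred_eventually_nhds

theorem GE_ev : ∀ᶠ p in GE M0, p.2 ∈ KE M0 (p.1.1, p.1.2.1, p.1.2.2) :=
  ev_nb.2 (Eventually.of_forall fun u _ hx => (KE_open u).mem_nhds hx)

include h0

/-- The family of the model metrics. -/
theorem kE_eq {A B : J → ℝ → ℝ} (o : Pos G) (t : ∀ᶠ p in G, IsTh M0 (M p.1) (a p.1) (A p.1) (B p.1))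
    (b d : Fin 4) : (geo G (1 / 2) fun j => kE (M j) (a j) (A j) (B j)).g b d =
      gK (hp G) (pFm G M0 M a) b d := by
  have r := rx_of (K := fun u : IU => K0 u.1) (κ := fun j => (gin 0 0, M j, a j))
    (o.mono fun p e => ⟨e, vac_gin 0 0 e⟩)
  rw [← rx_gK r GA_pos h0 (M := (·.2.1)) (a := (·.2.2))]
  refine ((rs_alg _).mul (rs_pb o.off (f := fun j => gc (kE (M j) (a j) (A j) (B j)) b d)
    ((o.and t).mono fun p e => (vac_kE h0 e.2 e.1).sm_g b d))).ext (r.rep _)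
    ((o.and t).mono fun p e => ?_)
  have r' := rx_of (G := on U0) (K := fun u : IU => K0 u.1) (κ := fun _ => (gin 0 0, M p.1, a p.1))
    (on_of U0_cone.op fun x e => ⟨e, vac_gin 0 0 e⟩)
  have k := fv_rs (r'.rep (gK (hp GA) (pFm GA M0 (·.2.1) (·.2.2)) b d)) (x := p.2) e.1
  rw [rx_gK r' GA_pos h0] at k
  refine Eq.trans ?_ ((congrArg (fv · p.2) (congrFun₂ (kE_on h0 e.2 U0_cone) b d)).trans k)
  exact (fv_rs ((rs_alg _).mul (rs_pb (cone_pos U0_cone).off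
    (f := fun _ => gc (kE (M p.1) (a p.1) (A p.1) (B p.1)) b d)
    (on_of U0_cone.op fun x hx => (vac_kE h0 e.2 hx).sm_g b d))) e.1).symm

theorem valE (h : ∀ᶠ p in G, p.2 ∈ K0 (g p.1)) :
    Rf (eK G M0 M a) fun p => vEf M0 ((g p.1, M p.1, a p.1), p.2) := by
  have r := rx_of (K := fun u : IU => K0 u.1) (κ := fun j => (g j, M j, a j)) h
  rw [eK, ← (r.hp GA_pos.off).frK (rx_pF r GA_pos h0 (M := (·.2.1)) (a := (·.2.2)))]
  exact r.rf ⟨fun _ => rs_rep _, fun _ => rs_rep _, fun _ => rs_rep _, fun _ => rs_rep _⟩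

theorem okF_iff (h : ∀ᶠ p in G, p.2 ∈ K0 (g p.1)) :
    OkF G M0 M a g ↔ ∀ᶠ p in G, p.2 ∈ KE M0 (g p.1, M p.1, a p.1) := by
  obtain ⟨h1, h2, -⟩ := vals (M := 0) (a := 0) h
  have h3 := valE (M := M) (a := a) h0 h
  exact ⟨fun k => Loc.ev _ (h.and (full_rs h1 h2 h3 (Or.inl k)).2.1),
    fun k => (full_rs h1 h2 h3 (Or.inr (k.mono fun _ e => e.self_of_nhds.2))).1⟩

omit h0 in
theorem homJ {K : J → Set E6} (c : ∀ j, ∀ x ∈ K j, ∀ z : ℂ, z ≠ 0 → sc z x ∈ K j)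
    {u : Sm (nb ⊤ K)} {m n : ℂ} (hH : (hp _).H u = algebraMap ℂ _ m * u)
    (hB : (hp _).B u = algebraMap ℂ _ n * u) {j : J} {x : E6} (hx : x ∈ K j) (w : ℂ) :
    rep u (j, sc (exp w) x) = exp (m * w + n * starRingEnd ℂ w) * rep u (j, x) :=
  euler (f := sl (rep u) j) (c j) (eventually_top.1 (ev_nb_on (rep_sm u).diff) j)
    (eventually_top.1 (ev_nb_on (ev_euler hH hB)) j) hx w

theorem okE_sc {u : IU} {y : E6} (h : y ∈ K0 u.1) (w : ℂ)
    (k : (vEf M0 (u, y)).Ok (S := pt (vg (u.1, y))) opsC (vR (u.1, y))) :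
    (vEf M0 (u, sc (exp w) y)).Ok (S := pt (vg (u.1, sc (exp w) y))) opsC
      (vR (u.1, sc (exp w) y)) := by
  have s0 : (sG G0 id).Is := geo_is (Pos.off (G0_ev.mono fun _ k => k.1)) _
    (G0_ev.mono fun _ k => k.2)
  have s : (sG GA (·.1)).Is := geo_is GA_pos.off _ (GA_ev.mono fun _ k => k.2)
  have r := eK_rw (M := (·.2.1)) (a := (·.2.2)) (g := (·.1)) GA_pos h0
  have z : ∀ v : Sm G0, (sG G0 id).H v = 0 → (sG G0 id).Hb v = 0 →
      rep v (u.1, sc (exp w) y) = rep v (u.1, y) := fun v e1 e2 => by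
    simpa using homJ K0_sc (u := v) (m := 0) (n := 0) (e1.trans (by simp)) (e2.trans (by simp)) h w
  have e1 : vg (u.1, sc (exp w) y) = vg (u.1, y) :=
    funext₂ fun b c => z _ (s0.H_g b c) (s0.Hb_g b c)
  have e2 : vR (u.1, sc (exp w) y) = vR (u.1, y) :=
    funext₂ fun b c => funext₂ fun d e => z _ (s0.vertH.R b c d e) (s0.vertHb.R b c d e)
  have v : ∀ (X : Vec (Sm GA)) (m n : ℂ), dv (sG GA (·.1)).H X = algebraMap ℂ (Sm GA) m • X →
      dv (sG GA (·.1)).Hb X = algebraMap ℂ (Sm GA) n • X →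
      (fun d => rep (X d) (u, sc (exp w) y)) =
        exp (m * w + n * starRingEnd ℂ w) • fun d => rep (X d) (u, y) := fun X m n e1 e2 =>
    funext fun d => homJ (fun u : IU => K0_sc u.1) (congrFun e1 d) (congrFun e2 d) h w
  have e3 : vEf M0 (u, sc (exp w) y) = sf (vEf M0 (u, y)) (exp (1 * w + 1 * starRingEnd ℂ w))
      (exp (-1 * w + -1 * starRingEnd ℂ w)) (exp (1 * w + -1 * starRingEnd ℂ w))
      (exp (-1 * w + 1 * starRingEnd ℂ w)) := by
    simp only [vEf, sf, Fr.mk.injEq]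
    exact ⟨v _ _ _ (by simp [r.H_l]) (by simp [r.Hb_l s]), v _ _ _ (by simp [r.H_n])
      (by simp [r.Hb_n s]), v _ _ _ (by simp [r.H_m]) (by simp [r.Hb_m]),
      v _ _ _ (by simp [r.H_mb s]) (by simp [r.Hb_mb s])⟩
  rw [e1, e2, e3]
  exact sf_ok (by rw [← exp_add]; ring_nf; exact exp_zero)
    (by rw [← exp_add]; ring_nf; exact exp_zero) k

theorem KE_sc (u : IU) (x : E6) (hx : x ∈ KE M0 u) (z : ℂ) (hz : z ≠ 0) : sc z x ∈ KE M0 u := by
  have t : Tendsto (sc z⁻¹) (𝓝 (sc z x)) (𝓝 x) := by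
    simpa only [P354XO.inv_sc hz] using (sc z⁻¹).continuous.tendsto (sc z x)
  filter_upwards [t.eventually hx] with y h
  have k := okE_sc h0 h.1 (log z) h.2
  have k0 := K0_sc _ _ h.1 z hz
  rw [exp_log hz] at k
  rw [sc_inv hz] at k k0
  exact ⟨k0, k⟩

variable (h : ∀ᶠ p in G, p.2 ∈ KE M0 (g p.1, M p.1, a p.1))
include h

omit h0 [Loc G] in
theorem k0E : ∀ᶠ p in G, p.2 ∈ K0 (g p.1) := h.mono fun _ e => e.self_of_nhds.1

omit h0 in
theorem sE_is : (sG G g).Is :=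
  geo_is (Pos.off ((k0E h).mono fun _ k => k.1)) _ ((k0E h).mono fun _ k => k.2)

theorem eT_rf : Rf (eW G M0 M a g) fun p => (vEf M0 ((g p.1, M p.1, a p.1), p.2)).full
    (S := pt (vg (g p.1, p.2))) opsC (vR (g p.1, p.2)) := by
  obtain ⟨h1, h2, -⟩ := vals (M := 0) (a := 0) (k0E h)
  exact (full_rs h1 h2 (valE h0 (k0E h)) (Or.inr (h.mono fun _ e => e.self_of_nhds.2))).2.2.2

theorem eT_wn : (eW G M0 M a g).WN (sG G g) ∧ (eG G M0 M a g).P1 = 0 ∧ (eG G M0 M a g).P3 = 0 :=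
  Fr.full_wn (sE_is h) (eK_rw ((k0E h).mono fun _ k => k.1) h0) ((okF_iff h0 (k0E h)).2 h)

omit h0 [Loc G] in
theorem rxE : Rx G (GE M0) fun j => (g j, M j, a j) := rx_of h

omit h0 h in
theorem GE_k0 : ∀ᶠ p in GE M0, p.2 ∈ K0 p.1.1 := GE_ev.mono fun _ e => e.self_of_nhds.1

theorem eG_g : GHom (sG (GE M0) (·.1)) (sG G g) (rxE h).rix := (rxE h).geo
    (Pos.off (GE_k0.mono fun _ k => k.1)) _ (g := fun u : IU => u.1) (GE_k0.mono fun _ k => k.2)

theorem eG_f : fm (rxE h).rix (eW (GE M0) M0 (·.2.1) (·.2.2) (·.1)) = eW G M0 M a g := by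
  have k := eT_rf (g := fun u : IU => u.1) (M := (·.2.1)) (a := (·.2.2)) h0 GE_ev
  have k2 := (rxE h).rf k
  have k3 := eT_rf h0 h
  refine k2.ext k3 (Eventually.of_forall fun p => ?_)
  dsimp only

theorem eG_hom : GHP.Hom (eG (GE M0) M0 (·.2.1) (·.2.2) (·.1)) (eG G M0 M a g) (rxE h).rix := by
  rw [eG, eG, ← eG_f h0 h]
  exact (eG_g h0 h).ghp _

/-- The sizes of the differences to Kerr. -/
def qEf (M0 : ℝ) (n : ℕ) (i : (Fin 4 × Fin 6) ⊕ Fin 13) (p : IU × E6) : ℝ :=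
  qq (lt (hp (GE M0)) (pFm _ M0 (·.2.1) (·.2.2))) p n
    (dd (hp _) (pFm _ M0 (·.2.1) (·.2.2)) (eG (GE M0) M0 (·.2.1) (·.2.2) (·.1)) i)

theorem qE_eq (n : ℕ) (i : (Fin 4 × Fin 6) ⊕ Fin 13) : ∀ᶠ p in G, qq (lt (hp G) (pFm G M0 M a)) p n
    (dd (hp G) (pFm G M0 M a) (eG G M0 M a g) i) = qEf M0 n i ((g p.1, M p.1, a p.1), p.2) := by
  have o : Pos (GE M0) := GE_k0.mono fun _ k => k.1
  have q := rx_pF (rxE h) o h0 (M := (·.2.1)) (a := (·.2.2))
  have e := dd_hom ((rxE h).hp o.off) (pFm _ M0 (·.2.1) (·.2.2)) (eG_hom h0 h) i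
  rw [P354DR.pmap, q.a, q.M, q.sg, q.h1, q.j1] at e
  have k := (rxE h).qq (rx_lt (M := (·.2.1)) (a := (·.2.2)) (rxE h) o h0) n
    (dd (hp _) (pFm _ M0 (·.2.1) (·.2.2)) (eG (GE M0) M0 (·.2.1) (·.2.2) (·.1)) i)
  rw [e] at k
  exact k

end Vale.Agent.P354XD
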