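import Vale.Agent.P354F2.Parts
import Vale.Agent.P354XD.NoA

/-!
Kerr in the outgoing chart, and the bounds of the generators, of the letters and of the metric in
the scale of the family.
-/

set_option linter.all false

open scoped ContDiff
open Set Filter Topology Complex

noncomputable section

namespace Vale.Agent.P354XD

open Vale.Agent.P354n (R4)
open Vale.Agent.P354RC (bs)
open Vale.Agent.P354XE (Tw gin)
open Vale.Agent.P354XG Vale.Agent.P354XG.Geo Vale.Agent.P354XI Vale.Agent.P354XR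
open Vale.Agent.P354Z (hs js pI pO ge Cone rf cut An q2)
open Vale.Agent.P354CV Vale.Agent.P354F2
open Vale.Agent.P354YO (sh IsTh)
open Vale.Agent.P354YK (gO pin gO_eq)
open Vale.Agent.P354BO (Oq Gz Gp fv_z q2_cj oq_e0)
open Vale.Agent.P354BF (De)

section one
variable {O : Set E6} (c : Cone O) {M0 M a s : ℝ}
include c

theorem kb_met (h0 : 0 < M0) (ha : |a| < M) (hM : M ≤ 5 / 4 * M0) (hr : ∀ x ∈ O, 7 * M0 ≤ x.2.1) :
    gK (hp (on O)) (pI O M0 M a) = gO (hp _) (pO O M0 M a) := by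
  have o := cone_pos c
  have d : ∀ x ∈ O, (De M a x.2.1 : ℂ) ≠ 0 := fun x hx => ofReal_ne_zero.2 (ne_of_gt (by
    have := hr x hx
    unfold De
    nlinarith [sq_nonneg a, mul_pos h0 h0]))
  have k : ∀ x ∈ O, cut M0 (M, a, x.2.1) = 1 := fun x hx => by
    have := hr x hx
    have a1 : 1 ≤ (x.2.1 - 5 * M0) / (6 * M0 - 5 * M0) := (one_le_div (by linarith)).2 (by linarith)
    have a2 : (M - 3 / 2 * M0) / (2 * M0 - 3 / 2 * M0) ≤ 0 :=
      div_nonpos_of_nonpos_of_nonneg (by linarith) (by linarith)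
    simp [cut, P354XT.dn, P354XT.up, Real.smoothTransition.one_of_one_le a1,
      Real.smoothTransition.zero_of_nonpos a2]
  have ra : Rs (pO O M0 M a).a fun _ => (a : ℂ) := rs_alg _
  have rM : Rs (pO O M0 M a).M fun _ => (M : ℂ) := rs_alg _
  have rD : Rs (kk (hp (on O)) (pO O M0 M a)).De fun p => (De M a p.2.2.1 : ℂ) :=
    ((((rs_z 1).mul (rs_z 1)).sub (((rs_num 2).mul rM).mul (rs_z 1))).add (ra.mul ra)).congr
      (Eventually.of_forall fun p => by simp [zc, De, pow_two])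
  have rI := rD.inv (on_of c.op d)
  rw [gO_eq (cone_hp c) (pO_is c M0 M a) (Ring.mul_inverse_cancel _ (rD.unit (on_of c.op d)))]
  have e1 : (pI O M0 M a).h1 = (pO O M0 M a).h1 + 2 * (kk (hp (on O)) (pO O M0 M a)).W *
      Ring.inverse (kk (hp (on O)) (pO O M0 M a)).De :=
    (rs_rf c (hs_on h0 M a)).ext ((rs_rf c (ho_on M0)).add (((rs_num 2).mul
      (((rs_z 1).mul (rs_z 1)).add (ra.mul ra))).mul rI)) (on_of c.op fun x hx => by
        simp only [hs, k x hx]
        simp [zc, div_eq_mul_inv]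
        ring)
  have e2 : (pI O M0 M a).j1 = (pO O M0 M a).j1 + (pO O M0 M a).a *
      Ring.inverse (kk (hp (on O)) (pO O M0 M a)).De :=
    (rs_rf c (js_on h0 M a)).ext (rs_zero.add (ra.mul rI)) (on_of c.op fun x hx => by
      simp only [js, k x hx]
      simp [div_eq_mul_inv])
  rw [pin, ← e1, ← e2]
  rfl

/-- The slope of the outgoing chart. -/
abbrev hO (O : Set E6) (M : ℝ) : Sm (on O) := rf O fun r => -(4 * M ^ 2 / r ^ 2)

omit c in
theorem lx0 (f : Sm (on O)) : lx O M s 0 f = Ibp.rl _ s * (hp _).d 0 f := rfl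

omit c in
theorem lx1 (f : Sm (on O)) :
    lx O M s 1 f = Ibp.rl _ s * ((hp _).d 1 f - hO O M * (hp _).d 0 f) :=
  congrArg (Ibp.rl _ s * ·) (R_ap (K := hp (on O)) (p := pO O M M 0) rfl f)

/-- The directions of the spinor letters. -/
def ez : Fin 4 → E6 := ![v1 2, v2 2, v1 3, v2 3]

omit c in
theorem lx2 (b : Fin 4) : lx O M s b.succ.succ = pd (ez b) := by fin_cases b <;> rfl

omit c in
theorem pd_z (v : E6) (k : Fin 6) : pd v ((hp (on O)).z k) = algebraMap ℂ _ (zc k v) := pd_clm v _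

omit c in
theorem rl_inv (hs : s ≠ 0) : Ibp.rl (Sm (on O)) s * Ibp.rl _ s⁻¹ = 1 := by
  rw [Ibp.rl, Ibp.rl, ← map_mul, ← ofReal_mul, mul_inv_cancel₀ hs, ofReal_one, map_one]

theorem lx_z (b : Fin 6) (k : Fin 4) : lx O M s b ((hp _).z k.succ.succ) =
    algebraMap ℂ _ (zc k.succ.succ (![0, 0, ez 0, ez 1, ez 2, ez 3] b)) := by
  have d := (cone_hp c).dz
  induction b using Fin.cases with
  | zero => rw [lx0, d, if_neg (Fin.succ_ne_zero _).symm]; simp
  | succ b =>
    induction b using Fin.cases with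
    | zero =>
      refine (lx1 _).trans ?_
      rw [d, d, if_neg (Fin.succ_ne_zero _).symm, if_neg (by fin_cases k <;> decide)]
      simp
    | succ b => rw [lx2, pd_z]; fin_cases b <;> rfl

theorem lx_s (hs : s ≠ 0) (b : Fin 6) :
    lx O M s b ((hS O s).z 0) = ![1, -hO O M, 0, 0, 0, 0] b ∧
      lx O M s b ((hS O s).z 1) = ![0, 1, 0, 0, 0, 0] b := by
  have d := (cone_hp c).dz
  have e0 : (hS O s).z 0 = Ibp.rl _ s⁻¹ * (hp _).z 0 := rfl
  have e1 : (hS O s).z 1 = Ibp.rl _ s⁻¹ * (hp _).z 1 := rfl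
  have i := rl_inv (O := O) hs
  have z : ∀ D : Der (Sm (on O)), D (Ibp.rl _ s⁻¹) = 0 := fun D => D_alg D _
  rw [e0, e1, D_mul, D_mul, z, mul_zero, mul_zero, add_zero, add_zero]
  induction b using Fin.cases with
  | zero =>
    rw [lx0, lx0, d, d]
    simpa [mul_comm] using i
  | succ b =>
    induction b using Fin.cases with
    | zero =>
      rw [show (Fin.succ 0 : Fin 6) = 1 from rfl, lx1, lx1, d, d, d, d]
      simp
      exact ⟨by linear_combination hO O M * i, by linear_combination i⟩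
    | succ b => rw [lx2, pd_z, pd_z]; fin_cases b <;> simp [ez, zc, v1, v2]

theorem hO_eq (hs : s ≠ 0) :
    hO O M = algebraMap ℂ _ (-(4 * M ^ 2 / s ^ 2) : ℝ) * ((hS O s).ri * (hS O s).ri) := by
  have r : Rs (hS O s).ri _ := (rs_alg s).mul (rs_ri (cone_pos c).off)
  refine (rs_rf c (ho_on M)).ext ((rs_alg _).mul (r.mul r)) (Eventually.of_forall fun p => ?_)
  have := ofReal_ne_zero.2 hs
  simp [zc]
  field_simp

theorem lx_cj (b : Fin 6) (f : Sm (on O)) : cj (lx O M s b f) = lx O M s b (cj f) := by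
  have r : cj (Ibp.rl (Sm (on O)) s) = Ibp.rl _ s := by rw [Ibp.rl, cj_alg, conj_ofReal]
  have d0 : ∀ f, cj ((hp (on O)).d 0 f) = (hp _).d 0 (cj f) := (cone_hp c).c0
  have d1 : ∀ f, cj ((hp (on O)).d 1 f) = (hp _).d 1 (cj f) := (cone_hp c).c1
  induction b using Fin.cases with
  | zero => rw [lx0, lx0, map_mul, r, d0]
  | succ b =>
    induction b using Fin.cases with
    | zero =>
      rw [show (Fin.succ 0 : Fin 6) = 1 from rfl, lx1, lx1, map_mul, map_sub, map_mul, r, d0, d1,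
        cj_rf c (ho_on M)]
    | succ b => rw [lx2, cj_pd]

theorem lx_pb (hs : s ≠ 0) {f : R4 → ℝ} (hf : SmB (on O) fun _ => f) (b : Fin 6) :
    lx O M s b (pb _ fun _ => f) =
      ∑ a, (pb _ fun _ y => fderiv ℝ f y (s • bs a)) * lx O M s b ((hS O s).co a) := by
  have o := (cone_pos c).off
  have i := rl_inv (O := O) hs
  have e : ∀ a, (pb (on O) fun _ y => fderiv ℝ f y (s • bs a)) =
      Ibp.rl _ s * pb _ fun _ => db a f := fun a =>
    (rs_pb o (hf.mono fun _ e => (P354RC.at_fd e).clm_apply contDiffAt_const)).ext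
      ((rs_alg _).mul (rs_pb o (hf.db a))) (Eventually.of_forall fun p => by simp [db])
  have e' : ∀ a, lx O M s b ((hS O s).co a) = Ibp.rl _ s⁻¹ * lx O M s b ((hp _).co a) := fun a => by
    rw [show (hS O s).co a = Ibp.rl _ s⁻¹ * (hp _).co a from
      show _ * _ * _ + _ * _ * (hp (on O)).om a = _ * (_ * _ + _ * _) by ring, D_mul]
    rw [show lx O M s b (Ibp.rl _ s⁻¹) = 0 from D_alg _ _, mul_zero, add_zero]
  have k : lx O M s b (pb _ fun _ => f) =
      ∑ a, (pb _ fun _ => db a f) * lx O M s b ((hp _).co a) := by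
    induction b using Fin.cases with
    | zero => simp only [lx0, d_pb o hf, Fin.sum_univ_four]; ring
    | succ b =>
      induction b using Fin.cases with
      | zero =>
        simp only [show (Fin.succ 0 : Fin 6) = 1 from rfl, lx1, d_pb o hf, Fin.sum_univ_four]
        ring
      | succ b => rw [lx2, pd_pb o hf]
  rw [k]
  exact Finset.sum_congr rfl fun a _ => by
    rw [e, e']
    linear_combination -(pb _ fun _ => db a f) * lx O M s b ((hp _).co a) * i

end one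

/-- The coordinate fields along the letters. -/
def cfm {A : Type} [CommRing A] [Algebra ℂ A] (h : A) : Fin 6 → Fin 6 → A :=
  ![![1, 0, 0, 0, 0, 0], ![h, 1, 0, 0, 0, 0],
    ![0, 0, algebraMap ℂ A (d1 2), algebraMap ℂ A (d2 2), 0, 0],
    ![0, 0, 0, 0, algebraMap ℂ A (d1 3), algebraMap ℂ A (d2 3)],
    ![0, 0, algebraMap ℂ A (d1 4), algebraMap ℂ A (d2 4), 0, 0],
    ![0, 0, 0, 0, algebraMap ℂ A (d1 5), algebraMap ℂ A (d2 5)]]

theorem hS_d {O : Set E6} (M s : ℝ) (k : Fin 6) (f : Sm (on O)) :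
    (hS O s).d k f = ∑ b, cfm (hO O M) k b * lx O M s b f := by
  have e0 : (hS O s).d 0 f = Ibp.rl _ s * (hp _).d 0 f := rfl
  have e1 : (hS O s).d 1 f = Ibp.rl _ s * (hp _).d 1 f := rfl
  have e2 : (hS O s).d 2 f = _ := hp_d 2 f
  have e3 : (hS O s).d 3 f = _ := hp_d 3 f
  have e4 : (hS O s).d 4 f = _ := hp_d 4 f
  have e5 : (hS O s).d 5 f = _ := hp_d 5 f
  have a2 : lx O M s 2 f = pd (v1 2) f := rfl
  have a3 : lx O M s 3 f = pd (v2 2) f := rfl
  have a4 : lx O M s 4 f = pd (v1 3) f := rfl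
  have a5 : lx O M s 5 f = pd (v2 3) f := rfl
  rw [Fin.sum_univ_six, lx0, lx1, a2, a3, a4, a5]
  fin_cases k <;> simp only [Fin.reduceFinMk, cfm, Matrix.cons_val, e0, e1, e2, e3, e4, e5,
    show v1 4 = v1 2 from rfl, show v1 5 = v1 3 from rfl, show v2 4 = v2 2 from rfl,
    show v2 5 = v2 3 from rfl] <;> ring

section fam
variable {M0 R κ : ℝ} {I : Type} {O P : I → Set E6} {l : I → ℝ} (h : Fm M0 R κ O P l)
include h

theorem fm_ne (i : I) : l i ≠ 0 := (one_pos.trans_le (h.one i)).ne'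

theorem fm_r (j : Σ i, P i) : (max κ 1)⁻¹ ≤ (l j.1)⁻¹ * j.2.1.2.1 ∧
    (l j.1)⁻¹ * j.2.1.2.1 ≤ κ := by
  have p := one_pos.trans_le (h.one j.1)
  have r := ((h.co _).pos _ (h.sub _ j.2.2)).1
  obtain ⟨a, b⟩ := h.rr _ _ j.2.2
  rw [le_inv_mul_iff₀ p, inv_mul_le_iff₀ p, mul_inv_le_iff₀ (one_pos.trans_le (le_max_right _ _))]
  exact ⟨by nlinarith [le_max_left κ 1], by linarith⟩

theorem fm_z1 (j : Σ i, P i) :
    fv ((hS (O j.1) (l j.1)).z 1) j.2.1 = ((l j.1)⁻¹ * j.2.1.2.1 : ℝ) := by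
  have m := h.sub _ j.2.2
  refine (fv_mul _ _ _).trans ?_
  rw [Ibp.rl, fv_alg _ m, fv_z 1 m, ofReal_mul]
  rfl

theorem fm_zk (n : ℕ) (i : Fin 4) :
    Oq (lX M0 O P l) (pX P) n 1 fun j => (hp (on (O j.1))).z i.succ.succ :=
  Oq.stab (F := fun (i : Fin 4) (j : Σ i, P i) => (hp (on (O j.1))).z i.succ.succ)
    (fun i => .of1 (B := 2) fun j => by
      have := (h.an _ _ j.2.2).2
      have a1 := sq_nonneg ‖j.2.1.2.2.1‖
      have a2 := sq_nonneg ‖j.2.1.2.2.2‖
      rw [q2, fv_z _ (h.sub _ j.2.2)]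
      simp only [nq, normSq_eq_norm_sq] at this
      fin_cases i <;> simp [zc] <;> linarith)
    (fun n _ i b => (Oq.cst _).congr fun j => lx_z (h.co _) b i) n i

theorem fm_zr (n : ℕ) : Oq (lX M0 O P l) (pX P) n 1 fun j => (hS (O j.1) (l j.1)).z 1 :=
  Oq.stab (F := fun (_ : Unit) (j : Σ i, P i) => (hS (O j.1) (l j.1)).z 1)
    (fun _ => .of1 (B := κ ^ 2) fun j => by
      rw [q2, fm_z1 h, norm_real, Real.norm_eq_abs, sq_abs]
      exact pow_le_pow_left₀ ((inv_pos.2 (one_pos.trans_le (le_max_right _ _))).le.trans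
        (fm_r h j).1) (fm_r h j).2 2)
    (fun n _ _ b => Oq.congr (f := fun _ => ![0, 1, 0, 0, 0, 0] b) (by
      fin_cases b
      exacts [.zero, .one, .zero, .zero, .zero, .zero])
      fun j => (lx_s (h.co _) (fm_ne h _) b).2) n ()

theorem fm_gz (n : ℕ) : Gz (lX M0 O P l) (pX P) n fun j => hS (O j.1) (l j.1) := by
  have k := fun i => cone_hp (h.co i)
  have z2 : Oq (lX M0 O P l) (pX P) n 1 fun j => (hp (on (O j.1))).z 2 := fm_zk h n 0
  have z3 : Oq (lX M0 O P l) (pX P) n 1 fun j => (hp (on (O j.1))).z 3 := fm_zk h n 1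
  have z4 : Oq (lX M0 O P l) (pX P) n 1 fun j => (hp (on (O j.1))).z 4 := fm_zk h n 2
  have z5 : Oq (lX M0 O P l) (pX P) n 1 fun j => (hp (on (O j.1))).z 5 := fm_zk h n 3
  have N : Oq (lX M0 O P l) (pX P) n 1 fun j => (hp (on (O j.1))).Ni :=
    .inv (u := fun j => (hp (on (O j.1))).N) one_half_pos (fun j => by
      rw [fv_rs rs_N (h.sub _ j.2.2), norm_real]
      exact (h.an _ _ j.2.2).1.trans (le_abs_self _)) ((z2.mul z4).add (z3.mul z5))
      fun j => (k _).hN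
  have r : Oq (lX M0 O P l) (pX P) n 1 fun j => Ibp.rl _ (l j.1) * (hp (on (O j.1))).ri :=
    .inv (inv_pos.2 (one_pos.trans_le (le_max_right κ 1))) (fun j => by
      rw [fm_z1 h, norm_real]
      exact (fm_r h j).1.trans (le_abs_self _)) (fm_zr h n) fun j =>
      show Ibp.rl _ (l j.1)⁻¹ * (hp _).z 1 * _ = _ by
        linear_combination (hp _).z 1 * (hp _).ri * rl_inv (fm_ne h j.1) + (k j.1).hr
  exact ⟨fm_zr h n, z2, z3, z4, z5, N, r⟩

theorem fm_h (n : ℕ) : Os M0 O P l n 1 fun i => hO (O i) M0 :=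
  ((Oq.alg (B := 4 * M0 ^ 2) fun j => by
    have := h.one j.1
    rw [norm_real, norm_neg, Real.norm_of_nonneg (by positivity)]
    exact div_le_self (by positivity) (one_le_pow₀ this)).mul
    ((fm_gz h n).ri.mul (fm_gz h n).ri)).congr fun j => hO_eq (h.co _) (fm_ne h _)

theorem fm_gp {M a : I → ℝ} {B : ℝ} (hB : ∀ i, |M i| ≤ B ∧ |a i| ≤ B) (n : ℕ) :
    Gp (lX M0 O P l) (pX P) n fun j => pS (O j.1) M0 (M j.1) (a j.1) (l j.1) := by
  have z := fm_gz h n
  have p := inv_pos.2 (one_pos.trans_le (le_max_right κ 1))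
  have i : Oq (lX M0 O P l) (pX P) n 1 fun j => Ibp.rl _ (l j.1)⁻¹ := .alg (B := 1) fun j => by
    have := h.one j.1
    rw [norm_real, Real.norm_of_nonneg (by positivity)]
    exact inv_le_one_of_one_le₀ this
  have a1 : Oq (lX M0 O P l) (pX P) n 1 fun j => (pS (O j.1) M0 (M j.1) (a j.1) (l j.1)).a :=
    i.mul (.alg (c := fun j : Σ i, P i => a j.1) fun j => (norm_real _).le.trans (hB _).2)
  refine ⟨a1, i.mul (.alg (c := fun j : Σ i, P i => M j.1) fun j =>
      (norm_real _).le.trans (hB _).1),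
    .inv (mul_pos p p) (fun j => ?_) ((z.z1.mul z.z1).add (((a1.mul a1).mul z.kc.1).mul z.kc.1))
      fun j => ?_, fm_h h n, Oq.zero.congr fun j => mul_zero _⟩
  · have m := h.sub _ j.2.2
    have e1 : fv (pS (O j.1) M0 (M j.1) (a j.1) (l j.1)).a j.2.1 = ((l j.1)⁻¹ * a j.1 : ℝ) :=
      (fv_mul _ _ _).trans ((congrArg₂ (· * ·) (fv_alg _ m) (fv_alg _ m)).trans
        (ofReal_mul _ _).symm)
    have e2 : fv (hS (O j.1) (l j.1)).kc.x j.2.1 = oc j.2.1 3 :=
      fv_rs (rs_om (cone_pos (h.co _)).off 3) m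
    simp only [fv_add, fv_mul, fm_z1 h, e1, e2, ← ofReal_mul, ← ofReal_add, norm_real]
    refine le_trans ?_ (le_abs_self _)
    nlinarith [(fm_r h j).1, mul_self_nonneg ((l j.1)⁻¹ * a j.1 * oc j.2.1 3)]
  · have g := (pO_is (h.co j.1) M0 (M j.1) (a j.1)).hg
    have u := rl_inv (O := O j.1) (fm_ne h j.1)
    show (_ * _ * (_ * _) + _ * _ * (_ * _) * (hp _).kc.x * (hp _).kc.x) * (_ * _ * _) = _
    linear_combination g + (Ibp.rl _ (l j.1) * Ibp.rl _ (l j.1)⁻¹ + 1) *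
      ((pO (O j.1) M0 (M j.1) (a j.1)).sg * ((hp _).z 1 * (hp _).z 1 +
        (pO (O j.1) M0 (M j.1) (a j.1)).a * (pO (O j.1) M0 (M j.1) (a j.1)).a * (hp _).kc.x *
          (hp _).kc.x)) * u

theorem fm_co (n : ℕ) (a : Fin 4) (b : Fin 6) :
    Os M0 O P l n 1 fun i => lx (O i) M0 (l i) b ((hS (O i) (l i)).co a) := by
  have z := fm_gz h (n + 1)
  have t : Oq (lX M0 O P l) (pX P) n 1 fun j => ![1, -hO (O j.1) M0, 0, 0, 0, 0] b := by
    fin_cases b
    exacts [.one, (fm_h h n).neg, .zero, .zero, .zero, .zero]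
  exact (((oq_e0 a).mul t).add ((z.z1.mul (z.om a).1).der b)).congr fun j => by
    beta_reduce
    rw [Hp.co, D_add, D_mul, Hp.D_e0, (lx_s (h.co _) (fm_ne h _) b).1, mul_zero, zero_add]

theorem fm_pb {μ : I → ℝ} : ∀ (n : ℕ) (f : I → R4 → ℝ),
    (∀ i, ∀ x ∈ O i, ContDiffAt ℝ ∞ (f i) (pj x)) →
    (∀ i, ∀ x ∈ P i, ∀ k ≤ n, ‖iteratedFDeriv ℝ k (f i) (pj x)‖ ≤ μ i / l i ^ k) →
    Os M0 O P l n μ fun i => pb _ fun _ => f i
  | 0, f, s, b => .of (B := 1) fun j => by
    have := b _ _ j.2.2 0 le_rfl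
    rw [norm_iteratedFDeriv_zero, pow_zero, div_one] at this
    rw [q2, fv_rs (rs_pb (cone_pos (h.co _)).off (on_of (h.co _).op (s _))) (h.sub _ j.2.2),
      norm_real, one_mul]
    exact pow_le_pow_left₀ (norm_nonneg _) this 2
  | n + 1, f, s, b => (fm_pb n f s fun i x hx k hk => b i x hx k (hk.trans n.le_succ)).succ fun d =>
    (Oq.sum Finset.univ fun a => (fm_pb n (fun i y => fderiv ℝ (f i) y (l i • bs a))
      (fun i x hx => (P354RC.at_fd (s i x hx)).clm_apply contDiffAt_const) fun i x hx k hk => by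
        have p := one_pos.trans_le (h.one i)
        refine (norm_fd (s i x (h.sub i hx)) k _).trans ?_
        rw [norm_smul, norm_bs, mul_one, Real.norm_of_nonneg p.le]
        refine (mul_le_mul_of_nonneg_left (b i x hx (k + 1) (Nat.succ_le_succ hk)) p.le).trans_eq ?_
        rw [pow_succ]
        field_simp).mull (fm_co h n a d)).congr fun j =>
      lx_pb (h.co _) (fm_ne h _) (on_of (h.co _).op (s _)) d

end fam

/-- KB. -/
theorem kb : KB := by
  refine ⟨fun M0 M a A B O h0 ha hM c hr t => ⟨fun x hx => vac_kE h0 t (c.pos x hx),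
    (kE_on h0 t c).trans (kb_met c h0 ha hM hr)⟩, fun M0 R κ I O P l h =>
    ⟨fun M a B n hB => ⟨fm_gz h n, fm_gp h hB n⟩, fun k => ⟨fun b i => cfm (hO (O i) M0) k b,
      fun b n => ?_, fun i f => hS_d M0 (l i) k f⟩, fun n μ f ⟨C, c0, hC⟩ =>
      ⟨C, c0, fun j => (q2_cj _ _ (lx_cj (h.co _)) n _).trans_le (hC j)⟩,
      fun g g' n μ v w a b => ?_⟩⟩
  · have := fm_h h n
    fin_cases k <;> fin_cases b <;> first
      | exact Oq.zero | exact Oq.one | exact Oq.cst _ | exact this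
  · exact ((Oq.cst _).mul (fm_pb h n (fun i => gc (g i - g' i) a b)
      (fun i x hx => ((v i x hx).1.sm_g a b).sub ((v i x hx).2.sm_g a b)) fun i x hx k hk =>
        (w i x hx k hk (bs a) (bs b)).trans_eq (by simp only [norm_bs, mul_one]))).congr fun j =>
      geo_sub (cone_pos (h.co _)).off (g := fun _ => g j.1) (g' := fun _ => g' j.1)
        (on_of (h.co _).op fun x hx => (v _ x hx).1) (on_of (h.co _).op fun x hx => (v _ x hx).2) a b

end Vale.Agent.P354XD
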