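import Vale.Agent.P354XD.Kb
import Vale.Agent.P354RI.Core

/-!
From the letters of the scale to the letters of the state, and the two families of segments.
-/

set_option linter.all false

open scoped ContDiff
open Set Filter Topology Complex

noncomputable section

namespace Vale.Agent.P354XD

open Vale.Agent.P354n (R4)
open Vale.Agent.P354XE (Tw rd)
open Vale.Agent.P354XG Vale.Agent.P354XG.Geo Vale.Agent.P354XI Vale.Agent.P354XR
open Vale.Agent.P354Z (pO Cone An q2 lt ll uu)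
open Vale.Agent.P354F2 Vale.Agent.P354RI
open Vale.Agent.P354BO (Oq q2_smul)

section alg
variable {A : Type} [CommRing A] [Algebra ℂ A] (K : Hp A) (p : Pm A)

/-- The letters s T, s R and the rotations, and their components. -/
def lg (s : A) : Fin 5 → Der A := ![s • K.d 0, s • (kk K p).R, Om K 0, Om K 1, Om K 2]
def lgc (t h : A) : Fin 5 → Fin 6 → A :=
  ![![t, 0, 0, 0, 0, 0], ![-(t * h), t, 0, 0, 0, 0],
    ![0, 0, -(hf A * ii A * K.z 3), -(hf A * ii A * K.z 2), hf A * ii A * K.z 5,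
      hf A * ii A * K.z 4],
    ![0, 0, -(hf A * K.z 3), hf A * K.z 2, -(hf A * K.z 5), hf A * K.z 4],
    ![0, 0, -(hf A * ii A * K.z 2), hf A * ii A * K.z 3, hf A * ii A * K.z 4,
      -(hf A * ii A * K.z 5)]]

theorem lg_eq (e : p.j1 = 0) {c ci : A} (u : c * ci = 1) (s : A) (b : Fin 5) (f : A) :
    lg K p s b f = ∑ k, lgc K (ci * s) p.h1 b k * (sK K c ci).d k f := by
  fin_cases b <;> simp [lg, Om, lgc, sK, Fin.sum_univ_six, R_ap e]
  · linear_combination -(s * K.d 0 f) * u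
  · linear_combination -(s * (K.d 1 f - p.h1 * K.d 0 f)) * u
  all_goals ring

end alg

/-- A power of the scale goes into the weight. -/
theorem oq_pw {J ι : Type} [Fintype ι] {O : J → Set E6} {X : ∀ j, ι → Der (Sm (on (O j)))}
    {x : J → E6} {n : ℕ} {μ l : J → ℝ} {f : ∀ j, Sm (on (O j))} (hl : ∀ j, l j ≠ 0) (w : ℕ)
    (h : Oq X x n μ fun j => Ibp.rl _ (l j) ^ w * f j) : Oq X x n (fun j => μ j / l j ^ w) f := by
  obtain ⟨C, -, hC⟩ := h
  refine .of (B := C) fun j => ?_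
  have := hC j
  beta_reduce at this
  rw [Ibp.rl, ← map_pow, ← Algebra.smul_def, q2_smul, norm_pow, norm_real, Real.norm_eq_abs,
    ← pow_mul, mul_comm w, pow_mul, sq_abs, ← pow_mul, mul_comm 2] at this
  rw [div_pow, ← pow_mul, ← mul_div_assoc, le_div_iff₀' (by
    rw [mul_comm, pow_mul]; exact pow_pos (sq_pos_of_ne_zero (hl j)) w)]
  exact this

section fam
variable {M0 R κ : ℝ} {I : Type} {O P : I → Set E6} {l : I → ℝ} (h : Fm M0 R κ O P l)
include h

theorem fm_inv (n : ℕ) : Os M0 O P l n 1 fun i => Ibp.rl _ (l i)⁻¹ := .alg (B := 1) fun j => by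
  have := h.one j.1
  rw [norm_real, Real.norm_of_nonneg (by positivity)]
  exact inv_le_one_of_one_le₀ this

/-- The coordinate fields of the scale as letters. -/
theorem fm_d {n : ℕ} {μ : I → ℝ} {f : ∀ i, Sm (on (O i))} (hf : Os M0 O P l n μ f) :
    Oq (fun j : Σ i, P i => (hS (O j.1) (l j.1)).d) (pX P) n (fun j => μ j.1) fun j => f j.1 :=
  Oq.chg (c := fun k b j => cfm (hO (O j.1) M0) k b) (fun j k f => hS_d M0 _ k f) (fun k b => by
    have := fm_h h n
    fin_cases k <;> fin_cases b <;> first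
      | exact Oq.zero | exact Oq.one | exact Oq.cst _ | exact this) hf

/-- The letters s T, s R and the rotations, for s / l bounded. -/
theorem fm_lg {n : ℕ} {μ : I → ℝ} {f s : ∀ i, Sm (on (O i))} (M a : I → ℝ)
    (hs : Os M0 O P l n 1 fun i => Ibp.rl _ (l i)⁻¹ * s i) (hf : Os M0 O P l n μ f) :
    Oq (fun j : Σ i, P i => lg (hp _) (pO (O j.1) M0 (M j.1) (a j.1)) (s j.1))
      (pX P) n (fun j => μ j.1) fun j => f j.1 := by
  have z2 : Oq _ _ n 1 _ := fm_d h (f := fun i => (hp _).z 2) (μ := 1) (fm_zk h n 0)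
  have z3 : Oq _ _ n 1 _ := fm_d h (f := fun i => (hp _).z 3) (μ := 1) (fm_zk h n 1)
  have z4 : Oq _ _ n 1 _ := fm_d h (f := fun i => (hp _).z 4) (μ := 1) (fm_zk h n 2)
  have z5 : Oq _ _ n 1 _ := fm_d h (f := fun i => (hp _).z 5) (μ := 1) (fm_zk h n 3)
  have a1 : Oq _ _ n 1 _ := fm_d h (μ := 1) hs
  have a2 : Oq _ _ n 1 _ := fm_d h (μ := 1) (fm_h h n)
  refine Oq.chg (X := fun j : Σ i, P i => (hS (O j.1) (l j.1)).d) (c := fun b k j =>
    lgc (hp _) (Ibp.rl _ (l j.1)⁻¹ * s j.1) (hO (O j.1) M0) b k)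
    (fun j b f => lg_eq _ _ rfl (rl_inv (fm_ne h j.1)) _ b f) (fun b k => ?_) (fm_d h hf)
  generalize (fun j : Σ i, P i => (hS (O j.1) (l j.1)).d) = X at *
  fin_cases b <;> fin_cases k <;> simp only [lgc, Fin.reduceFinMk, Matrix.cons_val] <;>
    with_reducible repeat' first
      | assumption | exact Oq.zero | exact Oq.ii | exact Oq.hf | apply Oq.neg | apply Oq.mul

theorem fm_lt {n : ℕ} {μ : I → ℝ} {f : ∀ i, Sm (on (O i))} (M a : I → ℝ)
    (hf : Os M0 O P l n μ f) : Oq (fun j : Σ i, P i => lt (hp _) (pO (O j.1) M0 (M j.1) (a j.1)))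
      (pX P) n (fun j => μ j.1) fun j => f j.1 := by
  simpa only [lg, lt, one_smul] using
    fm_lg h (s := fun _ => 1) M a ((fm_inv h n).congr fun _ => mul_one _) hf

theorem fm_ll {n : ℕ} {μ : I → ℝ} {f : ∀ i, Sm (on (O i))} (M a : I → ℝ)
    (hf : Os M0 O P l n μ f) : Oq (fun j : Σ i, P i => ll (hp _) (pO (O j.1) M0 (M j.1) (a j.1)))
      (pX P) n (fun j => μ j.1) fun j => f j.1 :=
  fm_lg h (s := fun _ => (hp _).z 1) M a (fm_zr h n) hf

end fam

section two
variable {M R : ℝ} {I : Type} {O : I → Set E6} {x : I → E6} (R1 : 1 ≤ R) (co : ∀ i, Cone (O i))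
  (st : ∀ i, ∀ y ∈ O i, Seg M R y ⊆ O i) (hx : ∀ i, x i ∈ O i) (an : ∀ i, An (x i))
  (b : ∀ i, 0 ≤ uu M (x i) + (x i).2.1)
include R1 co st hx an b

/-- The family of the segments on r ≤ ρ. -/
theorem fm_near {ρ : ℝ} (r : ∀ i, R ≤ (x i).2.1 ∧ (x i).2.1 ≤ ρ) :
    Fm M R (max ρ 1) O (fun i => Seg M R (x i)) fun _ => 1 where
  co := co
  star := st
  sub i := st i _ (hx i)
  seg _ _ := seg_sub
  an i y hy := by simpa only [An, nq, (seg_uu hy).2.1] using an i
  one _ := le_rfl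
  rr i y hy := by
    obtain ⟨-, a1, a2, -⟩ := seg_fa (r i).1 (b i) hy
    exact ⟨by nlinarith [le_max_right ρ 1], by linarith [le_max_left ρ 1, (r i).2]⟩
  flat _ := .inl rfl

/-- The family of the segments in the layer. -/
theorem fm_lay (r : ∀ i, 2 * R ≤ (x i).2.1) (l : ∀ i, uu M (x i) + (x i).2.1 ≤ (x i).2.1 / 10) :
    Fm M R 2 O (fun i => Seg M R (x i)) fun i => (x i).2.1 where
  co := co
  star := st
  sub i := st i _ (hx i)
  seg _ _ := seg_sub
  an i y hy := by simpa only [An, nq, (seg_uu hy).2.1] using an i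
  one i := by linarith [r i]
  rr i y hy := by
    obtain ⟨a1, a2, -⟩ := (seg_lay R1 (r i) (b i) (l i)).2 y hy
    exact ⟨by linarith [r i], by linarith [r i]⟩
  flat i := .inr fun y hy => by rw [(seg_uu hy).1]; linarith [r i, l i]

end two

theorem jw_bd {m : ℕ} {h : Tw} {p : R4} {d : ℝ} (b : P354XE.Bd m h p d) : Jw m 1 h p d :=
  fun k hk v w => by simpa only [one_pow, div_one] using b k hk v w

theorem jw_sm {m : ℕ} {h : Tw} {p : R4} {d c : ℝ} (b : P354YI.Sm m d h p) (hd : 0 ≤ d) (c0 : 0 < c)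
    (e : c ≤ 2 * rd p) : Jw m c h p (2 ^ (m + 1) * d / c) := fun k hk v w => by
  refine (b k hk v w).trans (mul_le_mul_of_nonneg_right ?_ (by positivity))
  have r : 0 < rd p := by linarith
  rw [div_div, ← pow_succ', div_le_div_iff₀ (by positivity) (by positivity), mul_comm _ d,
    mul_assoc]
  refine mul_le_mul_of_nonneg_left ((pow_le_pow_left₀ c0.le (e.trans (by linarith :
    2 * rd p ≤ 2 * (1 + rd p))) _).trans ?_) hd
  rw [mul_pow]
  exact mul_le_mul_of_nonneg_right (pow_le_pow_right₀ one_le_two (by omega)) (by positivity)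

end Vale.Agent.P354XD
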