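import Vale.Agent.P354XG.GHP

/-!
The Bianchi identities and the weights of the Weyl scalars follow from the commutators and the
Ricci identities.
-/

set_option linter.all false

namespace Vale.Agent.P354XD

open Vale.Agent.P354XG

variable {A : Type*} [CommRing A] [Algebra ℂ A]

/-- The commutators, the weights of the spin coefficients and the Ricci identities. -/
structure Pre (G : GHP A) : Prop where
  cc : ∀ f, G.c (G.c f) = f
  calg : ∀ z : ℂ, G.c (algebraMap ℂ A z) = algebraMap ℂ A (starRingEnd ℂ z)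
  c_th : ∀ f, G.c (G.th f) = G.th (G.c f)
  c_et : ∀ f, G.c (G.et f) = G.ep (G.c f)
  c_H : ∀ f, G.c (G.H f) = G.Hb (G.c f)
  H_Hb : ∀ f, G.H (G.Hb f) = G.Hb (G.H f)
  H_th : ∀ f, G.H (G.th f) = G.th (G.H f) + G.th f
  H_et : ∀ f, G.H (G.et f) = G.et (G.H f) + G.et f
  H_ka : G.H G.ka = 3 * G.ka
  Hb_ka : G.Hb G.ka = G.ka
  H_si : G.H G.si = 3 * G.si
  Hb_si : G.Hb G.si = -G.si
  H_rh : G.H G.rh = G.rh
  Hb_rh : G.Hb G.rh = G.rh
  H_ta : G.H G.ta = G.ta
  Hb_ta : G.Hb G.ta = -G.ta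
  th_tp : ∀ f, G.th (G.tp f) = G.tp (G.th f) + (G.c G.ta - G.ta') * G.et f +
    (G.ta - G.c G.ta') * G.ep f - (G.ka * G.ka' - G.ta * G.ta' + G.P2) * G.H f -
    (G.c G.ka * G.c G.ka' - G.c G.ta * G.c G.ta' + G.c G.P2) * G.Hb f
  th_et : ∀ f, G.th (G.et f) = G.et (G.th f) + G.c G.rh * G.et f + G.si * G.ep f -
    G.c G.ta' * G.th f - G.ka * G.tp f - (G.rh' * G.ka - G.ta' * G.si + G.P1) * G.H f -
    (G.c G.si' * G.c G.ka - G.c G.rh * G.c G.ta') * G.Hb f
  et_ep : ∀ f, G.et (G.ep f) = G.ep (G.et f) + (G.c G.rh' - G.rh') * G.th f +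
    (G.rh - G.c G.rh) * G.tp f + (G.rh * G.rh' - G.si * G.si' + G.P2) * G.H f -
    (G.c G.rh * G.c G.rh' - G.c G.si * G.c G.si' + G.c G.P2) * G.Hb f
  r1 : G.th G.rh = G.ep G.ka + G.rh ^ 2 + G.si * G.c G.si - G.c G.ka * G.ta - G.ta' * G.ka
  r2 : G.th G.si = G.et G.ka + (G.rh + G.c G.rh) * G.si - (G.ta + G.c G.ta') * G.ka + G.P0
  r3 : G.th G.ta = G.tp G.ka + (G.ta - G.c G.ta') * G.rh + (G.c G.ta - G.ta') * G.si + G.P1
  r4 : G.et G.rh = G.ep G.si + (G.rh - G.c G.rh) * G.ta + (G.c G.rh' - G.rh') * G.ka - G.P1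
  r5 : G.et G.ta = G.tp G.si - G.rh' * G.si - G.c G.si' * G.rh + G.ta ^ 2 + G.ka * G.c G.ka'
  r6 : G.ep G.ta = G.tp G.rh - G.rh * G.c G.rh' - G.si * G.si' + G.ta * G.c G.ta +
    G.ka * G.ka' + G.P2

variable {G : GHP A}

section
variable (h : Pre G) (p : Pre G.pr)
include h p

theorem cHb (f : A) : G.c (G.Hb f) = G.H (G.c f) := by
  have := congrArg G.c (h.c_H (G.c f))
  rw [h.cc, h.cc] at this
  exact this.symm

theorem weights : G.H G.P0 = 4 * G.P0 ∧ G.Hb G.P0 = 0 ∧ G.H G.P1 = 2 * G.P1 ∧ G.Hb G.P1 = 0 ∧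
    G.H G.P2 = 0 ∧ G.Hb G.P2 = 0 := by
  have c_tp : ∀ f, G.c (G.tp f) = G.tp (G.c f) := p.c_th
  have c_ep : ∀ f, G.c (G.ep f) = G.et (G.c f) := p.c_et
  have H_tp : ∀ f, G.H (G.tp f) = G.tp (G.H f) - G.tp f := fun f => by
    have := p.H_th f
    simp only [GHP.pr, Derivation.neg_apply, D_neg] at this
    linear_combination -this
  have H_ep : ∀ f, G.H (G.ep f) = G.ep (G.H f) - G.ep f := fun f => by
    have := p.H_et f
    simp only [GHP.pr, Derivation.neg_apply, D_neg] at this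
    linear_combination -this
  have b1 : ∀ f, G.Hb (G.th f) = G.th (G.Hb f) + G.th f := fun f => by
    simpa only [map_add, h.c_H, h.c_th, h.cc] using congrArg G.c (h.H_th (G.c f))
  have b2 : ∀ f, G.Hb (G.tp f) = G.tp (G.Hb f) - G.tp f := fun f => by
    simpa only [map_sub, h.c_H, c_tp, h.cc] using congrArg G.c (H_tp (G.c f))
  have b3 : ∀ f, G.Hb (G.et f) = G.et (G.Hb f) - G.et f := fun f => by
    simpa only [map_sub, h.c_H, c_ep, h.cc] using congrArg G.c (H_ep (G.c f))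
  have b4 : ∀ f, G.Hb (G.ep f) = G.ep (G.Hb f) + G.ep f := fun f => by
    simpa only [map_add, h.c_H, h.c_et, h.cc] using congrArg G.c (h.H_et (G.c f))
  have q1 : G.H G.ka' = -(3 * G.ka') := neg_eq_iff_eq_neg.1 p.H_ka
  have q2 : G.Hb G.ka' = -G.ka' := neg_eq_iff_eq_neg.1 p.Hb_ka
  have q3 : G.H G.si' = -(3 * G.si') := neg_eq_iff_eq_neg.1 p.H_si
  have q4 : G.Hb G.si' = G.si' := neg_injective p.Hb_si
  have q5 : G.H G.rh' = -G.rh' := neg_eq_iff_eq_neg.1 p.H_rh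
  have q6 : G.Hb G.rh' = -G.rh' := neg_eq_iff_eq_neg.1 p.Hb_rh
  have q7 : G.H G.ta' = -G.ta' := neg_eq_iff_eq_neg.1 p.H_ta
  have q8 : G.Hb G.ta' = G.ta' := neg_injective p.Hb_ta
  have e0 := h.r2
  have e1 := h.r3
  have e2 := h.r6
  refine ⟨?_, ?_, ?_, ?_, ?_, ?_⟩
  · have := congrArg G.H e0
    simp only [D_add, D_sub, D_mul, D_neg, D_num, h.H_th, h.H_et, ← cHb h p, h.H_si, h.H_ka, h.H_rh,
      h.H_ta, h.Hb_rh, q8] at this
    linear_combination 4 * e0 - this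
  · have := congrArg G.Hb e0
    simp only [D_add, D_sub, D_mul, D_neg, D_num, b1, b3, ← h.c_H, h.Hb_si, h.Hb_ka, h.Hb_rh,
      h.Hb_ta, h.H_rh, q7, map_neg] at this
    linear_combination -this
  · have := congrArg G.H e1
    simp only [D_add, D_sub, D_mul, D_neg, D_num, h.H_th, H_tp, ← cHb h p, h.H_si, h.H_ka, h.H_rh,
      h.H_ta, h.Hb_ta, q7, q8, map_neg] at this
    linear_combination 2 * e1 - this
  · have := congrArg G.Hb e1
    simp only [D_add, D_sub, D_mul, D_neg, D_num, b1, b2, ← h.c_H, h.Hb_si, h.Hb_ka, h.Hb_rh,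
      h.Hb_ta, h.H_ta, q7, q8, map_neg] at this
    linear_combination -this
  · have := congrArg G.H e2
    simp only [D_add, D_sub, D_mul, D_neg, D_num, H_ep, H_tp, ← cHb h p, h.H_si, h.H_ka, h.H_rh,
      h.H_ta, h.Hb_ta, q1, q3, q6, map_neg] at this
    linear_combination -this
  · have := congrArg G.Hb e2
    simp only [D_add, D_sub, D_mul, D_neg, D_num, b4, b2, ← h.c_H, h.Hb_si, h.Hb_ka, h.Hb_rh,
      h.Hb_ta, h.H_ta, q2, q4, q5, map_neg] at this
    linear_combination -this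

theorem bian :
    (G.th G.P1 = G.ep G.P0 - G.ta' * G.P0 + 4 * G.rh * G.P1 - 3 * G.ka * G.P2) ∧
    (G.th G.P2 = G.ep G.P1 + G.si' * G.P0 - 2 * G.ta' * G.P1 + 3 * G.rh * G.P2 -
      2 * G.ka * G.P3) ∧
    (G.tp G.P1 = G.et G.P2 + 2 * G.si * G.P3 - 3 * G.ta * G.P2 + 2 * G.rh' * G.P1 -
      G.ka' * G.P0) ∧
    G.tp G.P0 = G.et G.P1 + 3 * G.si * G.P2 - 4 * G.ta * G.P1 + G.rh' * G.P0 := by
  have c_tp : ∀ f, G.c (G.tp f) = G.tp (G.c f) := p.c_th
  have c_ep : ∀ f, G.c (G.ep f) = G.et (G.c f) := p.c_et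
  have c_Hb := cHb h p
  have th_ep : ∀ f, G.th (G.ep f) = G.ep (G.th f) + G.rh * G.ep f + G.c G.si * G.et f -
      G.ta' * G.th f - G.c G.ka * G.tp f -
      (G.c G.rh' * G.c G.ka - G.c G.ta' * G.c G.si + G.c G.P1) * G.Hb f -
      (G.si' * G.ka - G.rh * G.ta') * G.H f := fun f => by
    simpa only [map_add, map_sub, map_mul, h.c_H, c_Hb, h.c_th, c_tp, h.c_et, c_ep, h.cc]
      using congrArg G.c (h.th_et (G.c f))
  have tp_ep : ∀ f, G.tp (G.ep f) = G.ep (G.tp f) + G.c G.rh' * G.ep f + G.si' * G.et f -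
      G.c G.ta * G.tp f - G.ka' * G.th f + (G.rh * G.ka' - G.ta * G.si' + G.P3) * G.H f +
      (G.c G.si * G.c G.ka' - G.c G.rh' * G.c G.ta) * G.Hb f := fun f => by
    have := p.th_et f
    simp only [GHP.pr, Derivation.neg_apply] at this
    linear_combination this
  have tp_et : ∀ f, G.tp (G.et f) = G.et (G.tp f) + G.rh' * G.et f + G.c G.si' * G.ep f -
      G.ta * G.tp f - G.c G.ka' * G.th f +
      (G.c G.rh * G.c G.ka' - G.c G.ta * G.c G.si' + G.c G.P3) * G.Hb f +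
      (G.si * G.ka' - G.rh' * G.ta) * G.H f := fun f => by
    simpa only [map_add, map_sub, map_mul, h.c_H, c_Hb, h.c_th, c_tp, h.c_et, c_ep, h.cc]
      using congrArg G.c (tp_ep (G.c f))
  have r1 := h.r1
  have r2 := h.r2
  have r3 := h.r3
  have r4 := h.r4
  have r5 := h.r5
  have r6 := h.r6
  have s1 := p.r1
  have s2 := p.r2
  have s3 := p.r3
  have s4 := p.r4
  have s5 := p.r5
  have s6 := p.r6
  simp only [GHP.pr] at s1 s2 s3 s4 s5 s6
  have k1 := congrArg G.c r1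
  have k2 := congrArg G.c r2
  have k3 := congrArg G.c r3
  have k4 := congrArg G.c r4
  have k5 := congrArg G.c r5
  have k6 := congrArg G.c r6
  have l1 := congrArg G.c s1
  have l2 := congrArg G.c s2
  have l3 := congrArg G.c s3
  have l4 := congrArg G.c s4
  have l5 := congrArg G.c s5
  have l6 := congrArg G.c s6
  simp only [map_add, map_sub, map_mul, map_pow, h.c_th, c_tp, h.c_et, c_ep, h.cc]
    at k1 k2 k3 k4 k5 k6 l1 l2 l3 l4 l5 l6
  refine ⟨?_, ?_, ?_, ?_⟩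
  · have e1 := congrArg G.th r4
    have e2 := congrArg G.et r1
    have e3 := congrArg G.ep r2
    have c1 := h.th_et G.rh
    have c2 := th_ep G.si
    have c3 := h.et_ep G.ka
    simp only [D_add, D_sub, D_mul, D_sq] at e1 e2 e3
    generalize G.th (G.et G.rh) = x0 at *
    generalize G.th (G.ep G.si) = x1 at *
    generalize G.et (G.th G.rh) = x2 at *
    generalize G.et (G.ep G.ka) = x3 at *
    generalize G.ep (G.th G.si) = x4 at *
    generalize G.ep (G.et G.ka) = x5 at *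
    simp only [r1, r2, r3, r4, r5, r6, s1, s2, s3, s4, s5, s6, k1, k2, k3, k4, k5, k6, l1, l2, l3,
      l4, l5, l6, h.H_ka, h.Hb_ka, h.H_si, h.Hb_si, h.H_rh, h.Hb_rh, h.H_ta, h.Hb_ta]
      at e1 e2 e3 c1 c2 c3
    linear_combination e1 - e2 + e3 - c1 + c2 - c3
  · have e1 := congrArg G.th r6
    have e2 := congrArg G.ep r3
    have e3 := congrArg G.tp r1
    have c1 := th_ep G.ta
    have c2 := h.th_tp G.rh
    have c3 := tp_ep G.ka
    simp only [D_add, D_sub, D_mul, D_sq] at e1 e2 e3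
    generalize G.th (G.ep G.ta) = x0 at *
    generalize G.th (G.tp G.rh) = x1 at *
    generalize G.ep (G.th G.ta) = x2 at *
    generalize G.ep (G.tp G.ka) = x3 at *
    generalize G.tp (G.th G.rh) = x4 at *
    generalize G.tp (G.ep G.ka) = x5 at *
    simp only [r1, r2, r3, r4, r5, r6, s1, s2, s3, s4, s5, s6, k1, k2, k3, k4, k5, k6, l1, l2, l3,
      l4, l5, l6, h.H_ka, h.Hb_ka, h.H_si, h.Hb_si, h.H_rh, h.Hb_rh, h.H_ta, h.Hb_ta]
      at e1 e2 e3 c1 c2 c3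
    linear_combination -e1 + e2 - e3 + c1 - c2 - c3
  · have e1 := congrArg G.et r6
    have e2 := congrArg G.ep r5
    have e3 := congrArg G.tp r4
    have c1 := h.et_ep G.ta
    have c2 := tp_et G.rh
    have c3 := tp_ep G.si
    simp only [D_add, D_sub, D_mul, D_sq] at e1 e2 e3
    generalize G.et (G.ep G.ta) = x0 at *
    generalize G.et (G.tp G.rh) = x1 at *
    generalize G.ep (G.et G.ta) = x2 at *
    generalize G.ep (G.tp G.si) = x3 at *
    generalize G.tp (G.et G.rh) = x4 at *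
    generalize G.tp (G.ep G.si) = x5 at *
    simp only [r1, r2, r3, r4, r5, r6, s1, s2, s3, s4, s5, s6, k1, k2, k3, k4, k5, k6, l1, l2, l3,
      l4, l5, l6, h.H_ka, h.Hb_ka, h.H_si, h.Hb_si, h.H_rh, h.Hb_rh, h.H_ta, h.Hb_ta]
      at e1 e2 e3 c1 c2 c3
    linear_combination e1 - e2 + e3 - c1 - c2 + c3
  · have e1 := congrArg G.th r5
    have e2 := congrArg G.et r3
    have e3 := congrArg G.tp r2
    have c1 := h.th_et G.ta
    have c2 := h.th_tp G.si
    have c3 := tp_et G.ka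
    simp only [D_add, D_sub, D_mul, D_sq] at e1 e2 e3
    generalize G.th (G.et G.ta) = x0 at *
    generalize G.th (G.tp G.si) = x1 at *
    generalize G.et (G.th G.ta) = x2 at *
    generalize G.et (G.tp G.ka) = x3 at *
    generalize G.tp (G.th G.si) = x4 at *
    generalize G.tp (G.et G.ka) = x5 at *
    simp only [r1, r2, r3, r4, r5, r6, s1, s2, s3, s4, s5, s6, k1, k2, k3, k4, k5, k6, l1, l2, l3,
      l4, l5, l6, h.H_ka, h.Hb_ka, h.H_si, h.Hb_si, h.H_rh, h.Hb_rh, h.H_ta, h.Hb_ta]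
      at e1 e2 e3 c1 c2 c3
    linear_combination -e1 + e2 - e3 + c1 - c2 - c3

end

theorem half (h : Pre G) (p : Pre G.pr) : G.Half :=
  have w := weights h p
  { h with
    H_P0 := w.1
    Hb_P0 := w.2.1
    H_P1 := w.2.2.1
    Hb_P1 := w.2.2.2.1
    H_P2 := w.2.2.2.2.1
    Hb_P2 := w.2.2.2.2.2
    b1 := (bian h p).1
    b2 := (bian h p).2.1
    b3 := (bian p (G.pr_pr.symm ▸ h)).2.2.1
    b4 := (bian p (G.pr_pr.symm ▸ h)).2.2.2 }

/-- All the equations follow from the commutators and the Ricci identities. -/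
theorem is_of_pre (h : Pre G) (p : Pre G.pr) : G.Is :=
  ⟨half h p, half p (G.pr_pr.symm ▸ h)⟩

end Vale.Agent.P354XD
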