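import Vale.Agent.P354XD.Hen

/-!
The normalised transverse frame as an explicit expression in one root map and in inverses.
-/

set_option linter.all false

namespace Vale.Agent.P354XD

open Vale.Agent.P354XG Vale.Agent.P354XG.Geo Ring

variable {A : Type*} [CommRing A] [Algebra ℂ A]

/-- A root map with its domain. -/
structure Ops (c : A →+* A) where
  rt : A → A → A
  ok : A → A → Prop
  eq : ∀ {a b}, ok a b → 1 + rt a b + a * rt a b ^ 2 + b * rt a b ^ 3 = 0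
  cj : ∀ {a b}, ok a b → c (rt a b) = rt (c a) (c b)

theorem Hen.Cg.rinv {c : A →+* A} {N : Hen c} {a b b' : A} (h : N.Cg a b) (e : b * b' = 1)
    (hb : b' ∈ N.B) : IsUnit a ∧ N.Cg (inverse a) b' := by
  obtain ⟨u, hu, cu⟩ := h.inv e hb
  have := IsUnit.of_mul_eq_one u hu
  exact ⟨this, cu.of (by linear_combination u * mul_inverse_cancel a this - inverse a * hu)⟩

theorem nine : (9 : A) * algebraMap ℂ A (1 / 9) = 1 := by
  rw [← map_ofNat (algebraMap ℂ A) 9, ← map_mul]; norm_num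

namespace Ops

variable {c : A →+* A} (O : Ops c)

def hs (c0 c2 c3 : A) : A := O.rt (c2 * c0) (c3 * c0 * c0) * c0
def hok (c0 c2 c3 : A) : Prop := O.ok (c2 * c0) (c3 * c0 * c0)
noncomputable def sq (a : A) : A := 1 + O.hs (hf A * (1 - a)) (hf A) 0
def sok (a : A) : Prop := O.hok (hf A * (1 - a)) (hf A) 0

/-- The root map keeps the bounded elements. -/
def Fit (N : Hen c) : Prop := ∀ a ∈ N.I, ∀ b ∈ N.I, O.ok a b ∧ O.rt a b ∈ N.B

section
variable (u v w : A)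
noncomputable def te : A := inverse (9 - u + 4 * v)
noncomputable def tn : A := 3 + O.hs (te u v * (12 * v - 2 * w)) (6 * te u v) (te u v)
noncomputable def tD : A := inverse (O.tn u v w ^ 2 - u)
noncomputable def tq : A :=
  1 - 4 * (u * v - O.tn u v w * w + O.tn u v w ^ 2 * v) * O.tD u v w ^ 2
noncomputable def ty : A := inverse (O.sq (O.tq u v w))
noncomputable def tw : A := inverse (1 + O.ty u v w)

structure OkT : Prop where
  e : IsUnit (9 - u + 4 * v)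
  n : O.hok (te u v * (12 * v - 2 * w)) (6 * te u v) (te u v)
  D : IsUnit (O.tn u v w ^ 2 - u)
  q : O.sok (O.tq u v w)
  y : IsUnit (O.sq (O.tq u v w))
  w' : IsUnit (1 + O.ty u v w)
  d : IsUnit (2 * O.tn u v w * (3 - O.tn u v w) - (O.tn u v w ^ 2 - u) - 4 * v)
end

variable {O} {N : Hen c} {a c0 c2 c3 u v w : A}

theorem hs_eq (h : O.hok c0 c2 c3) :
    c0 + O.hs c0 c2 c3 + c2 * O.hs c0 c2 c3 ^ 2 + c3 * O.hs c0 c2 c3 ^ 3 = 0 := by
  rw [hs]; linear_combination c0 * O.eq h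

theorem sq_sq (h : O.sok a) : O.sq a ^ 2 = a := by
  rw [sq]
  linear_combination 2 * hs_eq h - (1 - a + O.hs (hf A * (1 - a)) (hf A) 0 ^ 2) * two_hf (A := A)

theorem sq_c (hc : c (hf A) = hf A) (h : O.sok a) (e : c a = a) : c (O.sq a) = O.sq a := by
  simp only [sq, hs, map_add, map_mul, O.cj h, map_sub, map_one, map_zero, hc, e]

theorem sq_one : O.sq 1 = 1 := by simp [sq, hs]

theorem Fit.hs (f : O.Fit N) (h0 : N.Cg c0 0) (h2 : c2 ∈ N.B) (h3 : c3 ∈ N.B) :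
    O.hok c0 c2 c3 ∧ N.Cg (O.hs c0 c2 c3) 0 :=
  have h := Hen.cg_zero.1 h0
  have e := f _ (N.mul _ h2 _ h) _ (N.mul _ (mul_mem h3 (N.le _ h)) _ h)
  ⟨e.1, Hen.cg_zero.2 (N.mul _ e.2 _ h)⟩

theorem Fit.sq (f : O.Fit N) (h : N.Cg a 1) : O.sok a ∧ N.Cg (O.sq a) 1 :=
  have e := f.hs ((Hen.cg_hf.mul (Hen.cg_one.sub h)).to (by ring)) Hen.cg_hf.1 (zero_mem _)
  ⟨e.1, (Hen.cg_one.add e.2).to (add_zero _)⟩

theorem Fit.okT (f : O.Fit N) (hu : N.Cg u 0) (hv : N.Cg v 0) (hw : N.Cg w 0) :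
    O.OkT u v w ∧ N.Cg (O.tn u v w) 3 ∧ N.Cg (O.tD u v w) (algebraMap ℂ A (1 / 9)) ∧
      N.Cg (O.ty u v w) 1 ∧ N.Cg (O.tw u v w) (hf A) := by
  have n9 := nine (A := A)
  have e := (((Hen.cg_num 9).sub hu).add ((Hen.cg_num 4).mul hv)).rinv
    (b' := algebraMap ℂ A (1 / 9)) (by linear_combination n9) (Hen.cg_alg _).1
  have z := f.hs ((e.2.mul (((Hen.cg_num 12).mul hv).sub ((Hen.cg_num 2).mul hw))).to (by ring))
    (mul_mem (Hen.cg_num 6).1 e.2.mem) e.2.mem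
  have n : N.Cg (O.tn u v w) 3 := ((Hen.cg_num 3).add z.2).to (add_zero _)
  have D := ((n.pow 2).sub hu).rinv (b' := algebraMap ℂ A (1 / 9)) (by linear_combination n9)
    (Hen.cg_alg _).1
  have s := f.sq (a := O.tq u v w) ((Hen.cg_one.sub (((Hen.cg_num 4).mul (((hu.mul hv).sub
    (n.mul hw)).add ((n.pow 2).mul hv))).mul (D.2.pow 2))).to (by ring))
  have y := s.2.rinv (one_mul 1) (one_mem _)
  have i := (Hen.cg_one.add y.2).rinv (b' := hf A) (by linear_combination two_hf (A := A))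
    Hen.cg_hf.1
  exact ⟨⟨e.1, z.1, D.1, s.1, y.1, i.1, (((((Hen.cg_num 2).mul n).mul ((Hen.cg_num 3).sub n)).sub
    ((n.pow 2).sub hu)).sub ((Hen.cg_num 4).mul hv)).unit (b' := -algebraMap ℂ A (1 / 9))
    (by linear_combination n9) (neg_mem (Hen.cg_alg _).1)⟩, n, D.2, y.2, i.2⟩

theorem OkT.tr {x0 x1 x2 x3 x4 pi : A} (h2 : x2 * pi = 1) (eu : x0 * x4 * pi ^ 2 = u)
    (ev : x1 * x3 * pi ^ 2 = v) (ew : (x1 ^ 2 * x4 + x3 ^ 2 * x0) * pi ^ 3 = w)
    (k : O.OkT u v w) :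
    Fr.Tr x0 x1 x2 x3 x4 (x2 * O.tn u v w) (pi ^ 2 * O.tD u v w) (O.ty u v w) (O.tw u v w) ∧
      IsUnit (2 * (x2 * O.tn u v w) * (3 * x2 - x2 * O.tn u v w) -
        ((x2 * O.tn u v w) ^ 2 - x0 * x4) - 4 * x1 * x3) := by
  have he : (9 - u + 4 * v) * te u v = 1 := mul_inverse_cancel _ k.e
  have ez := hs_eq k.n
  have hD : (O.tn u v w ^ 2 - u) * O.tD u v w = 1 := mul_inverse_cancel _ k.D
  have hs := sq_sq k.q
  have hy : O.sq (O.tq u v w) * O.ty u v w = 1 := mul_inverse_cancel _ k.y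
  have hi : (1 + O.ty u v w) * O.tw u v w = 1 := mul_inverse_cancel _ k.w'
  have d := k.d
  have en : (3 - O.tn u v w) * (O.tn u v w ^ 2 - u) + 2 * w - 4 * O.tn u v w * v = 0 := by
    rw [tn]
    generalize O.hs (te u v * (12 * v - 2 * w)) (6 * te u v) (te u v) = z at ez
    linear_combination -(9 - u + 4 * v) * ez + (12 * v - 2 * w + 6 * z ^ 2 + z ^ 3) * he
  generalize O.sq (O.tq u v w) = s at hs hy
  rw [tq] at hs
  generalize O.tn u v w = n, O.tD u v w = D, O.ty u v w = y, O.tw u v w = wi at *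
  subst eu ev ew
  have p2 : x2 ^ 2 * pi ^ 2 = 1 := by rw [← mul_pow, h2, one_pow]
  have p3 : x2 ^ 3 * pi ^ 3 = 1 := by rw [← mul_pow, h2, one_pow]
  refine ⟨⟨?_, ?_, ?_, hi⟩, ?_⟩
  · rw [Fr.cub]
    linear_combination x2 ^ 3 * en + ((3 - n) * x2 * x0 * x4 + 4 * n * x2 * x1 * x3) * p2 -
      2 * (x1 ^ 2 * x4 + x3 ^ 2 * x0) * p3
  · linear_combination hD + n ^ 2 * D * p2
  · have : 1 - 4 * (x1 * x4 - x2 * n * x3) * (x0 * x3 - x2 * n * x1) * (pi ^ 2 * D) ^ 2 = s ^ 2 := by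
      rw [hs]
      linear_combination 4 * n * (x1 ^ 2 * x4 + x3 ^ 2 * x0) * pi ^ 3 * D ^ 2 * h2 -
        4 * n ^ 2 * x1 * x3 * pi ^ 2 * D ^ 2 * p2
    rw [this]
    linear_combination (s * y + 1) * hy
  · convert ((IsUnit.of_mul_eq_one pi h2).pow 2).mul d using 1
    linear_combination (4 * x1 * x3 - x0 * x4) * p2

end Ops

/-- The curvature form of a tensor R. -/
def Wr (S : Geo A) (R : Fin 4 → Fin 4 → Fin 4 → Fin 4 → A) (X Y Z U : Vec A) : A :=
  S.dot (fun d => ∑ a, ∑ b, ∑ c, R a b c d * X a * Y b * Z c) U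

namespace Fr

variable {S : Geo A} (O : Ops S.c) (R : Fin 4 → Fin 4 → Fin 4 → Fin 4 → A) (F : Fr A)

noncomputable def s1 : A := O.sq (S.dot F.l F.n ^ 2 - S.dot F.l F.l * S.dot F.n F.n)
noncomputable def f1 : Fr A :=
  F.g1 S (F.s1 O) (inverse (F.s1 O - S.dot F.l F.n)) (inverse (F.s1 O))
noncomputable def s2 : A := O.sq (S.dot F.m F.mb ^ 2 - S.dot F.m F.m * S.dot F.mb F.mb)
noncomputable def f2 : Fr A := F.g2 S (inverse (S.dot F.m F.mb + F.s2 O))
  (O.sq (hf A * (S.dot F.m F.mb + F.s2 O) * inverse (F.s2 O) ^ 2))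

structure Ok1 : Prop where
  s : O.sok (S.dot F.l F.n ^ 2 - S.dot F.l F.l * S.dot F.n F.n)
  u : IsUnit (F.s1 O - S.dot F.l F.n)
  i : IsUnit (F.s1 O)

structure Ok2 : Prop where
  s : O.sok (S.dot F.m F.mb ^ 2 - S.dot F.m F.m * S.dot F.mb F.mb)
  u : IsUnit (S.dot F.m F.mb + F.s2 O)
  i : IsUnit (F.s2 O)
  k : O.sok (hf A * (S.dot F.m F.mb + F.s2 O) * inverse (F.s2 O) ^ 2)

section
variable (S)
def x0 : A := -Wr S R F.l F.m F.l F.m
def x1 : A := -Wr S R F.l F.n F.l F.m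
def x2 : A := Wr S R F.n F.mb F.l F.m
def x3 : A := -Wr S R F.n F.l F.n F.mb
def x4 : A := -Wr S R F.n F.mb F.n F.mb
noncomputable def iu : A := x0 S R F * x4 S R F * inverse (x2 S R F) ^ 2
noncomputable def iv : A := x1 S R F * x3 S R F * inverse (x2 S R F) ^ 2
noncomputable def iw : A :=
  (x1 S R F ^ 2 * x4 S R F + x3 S R F ^ 2 * x0 S R F) * inverse (x2 S R F) ^ 3
end

noncomputable def nu : A := x2 S R F * O.tn (iu S R F) (iv S R F) (iw S R F)
noncomputable def Di : A := inverse (x2 S R F) ^ 2 * O.tD (iu S R F) (iv S R F) (iw S R F)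
noncomputable def yy : A := O.ty (iu S R F) (iv S R F) (iw S R F)
noncomputable def wi : A := O.tw (iu S R F) (iv S R F) (iw S R F)
noncomputable def ra : A :=
  ta (x0 S R F) (x1 S R F) (x3 S R F) (nu O R F) (Di O R F) (yy O R F) (wi O R F)
noncomputable def rb : A := tb (x1 S R F) (x3 S R F) (x4 S R F) (nu O R F) (Di O R F) (yy O R F)

/-- The transverse frame of a null frame. -/
noncomputable def f3 : Fr A := (F.rn S (ra O R F)).rl S (rb O R F)

structure Ok3 : Prop where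
  u : IsUnit (x2 S R F)
  t : O.OkT (iu S R F) (iv S R F) (iw S R F)

/-- The normalised frame and the normalised transverse frame. -/
noncomputable def gsF : Fr A := (F.f1 O).f2 O
noncomputable def full : Fr A := f3 O R (F.gsF O)

structure Ok : Prop where
  o1 : F.Ok1 O
  o2 : (F.f1 O).Ok2 O
  o3 : Ok3 O R (F.gsF O)

variable {O R F} {N : Hen S.c} {F' : Fr A}

theorem f3_eq : f3 O S.R F = F.tr S (nu O S.R F) (Di O S.R F) (yy O S.R F) (wi O S.R F) := rfl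

theorem Ok1.e (h : S.Is) (r : F.RW S) (k : F.Ok1 O) :
    F.E1 S (F.s1 O) (inverse (F.s1 O - S.dot F.l F.n)) (inverse (F.s1 O)) :=
  ⟨Ops.sq_sq k.s, Ops.sq_c (c_hf h) k.s (by
    simp only [map_sub, map_mul, map_pow, h.c_dot, r.c_l, r.c_n]), mul_inverse_cancel _ k.u,
    mul_inverse_cancel _ k.i⟩

theorem Ok2.e (h : S.Is) (r : F.RW S) (k : F.Ok2 O) :
    F.E2 S (F.s2 O) (inverse (S.dot F.m F.mb + F.s2 O))
      (O.sq (hf A * (S.dot F.m F.mb + F.s2 O) * inverse (F.s2 O) ^ 2)) := by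
  have cq : S.c (S.dot F.m F.mb) = S.dot F.m F.mb := by
    rw [h.c_dot, r.c_m, r.c_mb h, h.dot_comm]
  have r4 : S.c (F.s2 O) = F.s2 O := Ops.sq_c (c_hf h) k.s (by
    simp only [map_sub, map_mul, map_pow, cq]
    rw [h.c_dot, h.c_dot, r.c_m, r.c_mb h]; ring)
  have j1 := mul_inverse_cancel _ k.i
  refine ⟨Ops.sq_sq k.s, r4, Ops.sq_c (c_hf h) k.k (by
    simp only [map_mul, map_add, map_pow, c_hf h, cq, r4, c_inv h j1 r4]),
    mul_inverse_cancel _ k.u, ?_⟩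
  rw [Ops.sq_sq k.k]
  linear_combination (S.dot F.m F.mb + F.s2 O) * (F.s2 O ^ 2 * inverse (F.s2 O) ^ 2 *
    two_hf (A := A) + (F.s2 O * inverse (F.s2 O) + 1) * j1)

theorem gsF_wn (h : S.Is) (r : F.RW S) (k1 : F.Ok1 O) (k2 : (F.f1 O).Ok2 O) : (F.gsF O).WN S :=
  r.gs h (k1.e h r) (k2.e h (r.g1 h (k1.e h r)).1)

theorem Ok3.tr (k : Ok3 O R F) :
    Tr (x0 S R F) (x1 S R F) (x2 S R F) (x3 S R F) (x4 S R F) (nu O R F) (Di O R F) (yy O R F)
      (wi O R F) ∧ IsUnit (2 * nu O R F * (3 * x2 S R F - nu O R F) -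
        (nu O R F ^ 2 - x0 S R F * x4 S R F) - 4 * x1 S R F * x3 S R F) :=
  k.t.tr (mul_inverse_cancel _ k.u) rfl rfl rfl

theorem f3_wn (h : S.Is) (W : F.WN S) (k : Ok3 O S.R F) :
    (f3 O S.R F).WN S ∧ (f3 O S.R F).p1 S = 0 ∧ (f3 O S.R F).p3 S = 0 :=
  ⟨W.tr h k.tr.1 k.tr.2, (W.nl.tr h k.tr.1).2.1, (W.nl.tr h k.tr.1).2.2.1⟩

/-- The frame is a weighted null frame, and it is transverse. -/
theorem full_wn (h : S.Is) (r : F.RW S) (k : Ok O S.R F) :
    (full O S.R F).WN S ∧ (full O S.R F).p1 S = 0 ∧ (full O S.R F).p3 S = 0 :=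
  f3_wn h (gsF_wn h r k.o1 k.o2) k.o3

theorem gsF_self (h : S.Is) (n : F.Nl S) : F.gsF O = F := by
  have n : Null S F.l F.n F.m F.mb := n
  have t := two_hf (A := A)
  have e1 : F.s1 O = 1 := by rw [s1, n.ln, n.ll, zero_mul, sub_zero, neg_one_sq, Ops.sq_one]
  have e2 : F.s2 O = 1 := by rw [s2, n.mmb, n.mm, zero_mul, sub_zero, one_pow, Ops.sq_one]
  have l1 : ∀ u, F.gl S u = F.l := fun u => by rw [gl, n.ll, zero_mul, zero_smul, add_zero]
  have n1 : ∀ u, F.gn S 1 u 1 = F.n := fun u => by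
    rw [gn, n.ln, n.nn]; match_scalars
    · linear_combination t
    · ring
  have e3 : F.f1 O = F := by
    simp only [f1, g1, e1, inverse_one, l1, n1, n.ml h, n.mn h, n.mbl h, n.mbn h, zero_smul,
      add_zero]
  have e4 : hf A * (1 + 1) * 1 ^ 2 = 1 := by linear_combination t
  simp only [gsF, e3, f2, g2, e2, n.mmb, n.mm, n.mbmb h, inverse_one, e4, Ops.sq_one, zero_mul,
    neg_zero, zero_smul, add_zero, one_smul]

theorem f3_self (e1 : x1 S R F = 0) (e3 : x3 S R F = 0) : f3 O R F = F := by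
  have a : ra O R F = 0 := by rw [ra, ta, e1, e3]; ring
  have b : rb O R F = 0 := by rw [rb, tb, e1, e3]; ring
  rw [f3, a, b, rn_zero, rl_zero]

/-- A null frame which is transverse is not changed. -/
theorem full_self (h : S.Is) (n : F.Nl S) (e1 : F.p1 S = 0) (e3 : F.p3 S = 0) :
    full O S.R F = F := by
  rw [full, gsF_self h n]; exact f3_self e1 e3

theorem gsF_cl (h : S.Is) (f : O.Fit N) (hg : ∀ a b, S.g a b ∈ N.B) (r : F.RW S) (b : Cl N F F)
    (a : AN N F) : F.Ok1 O ∧ (F.f1 O).Ok2 O ∧ Cl N (F.gsF O) F := by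
  have t := two_hf (A := A)
  have mbl : N.Cg (S.dot F.mb F.l) 0 := by
    simpa only [h.c_dot, r.c_m, r.c_l, map_zero] using a.ml.cj
  have mbn : N.Cg (S.dot F.mb F.n) 0 := by
    simpa only [h.c_dot, r.c_m, r.c_n, map_zero] using a.mn.cj
  have mbb : N.Cg (S.dot F.mb F.mb) 0 := by
    simpa only [h.c_dot, r.c_m, map_zero] using a.mm.cj
  have s := f.sq (((a.ln.pow 2).sub (a.ll.mul a.nn)).to (b' := 1) (by ring))
  have u := (s.2.sub a.ln).rinv (b' := hf A) (by linear_combination t) Hen.cg_hf.1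
  have i := s.2.rinv (one_mul 1) (one_mem _)
  have cl : N.Cv (F.f1 O).l F.l := (b.l.add (.smul (a.ll.mul u.2) b.n)).to (by module)
  have cn : N.Cv (F.f1 O).n F.n :=
    (Hen.Cv.smul ((Hen.cg_hf.mul (s.2.sub a.ln)).mul (i.2.pow 2))
      (b.n.add (.smul (a.nn.mul u.2) b.l))).to (by
        match_scalars
        · linear_combination t
        · ring)
  have b1 : Cl N (F.f1 O) F := ⟨cl, cn,
    ((b.m.add (.smul ((cg_dot hg b.m cn).trans a.mn) cl)).add
      (.smul ((cg_dot hg b.m cl).trans a.ml) cn)).to (by module),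
    ((b.mb.add (.smul ((cg_dot hg b.mb cn).trans mbn) cl)).add
      (.smul ((cg_dot hg b.mb cl).trans mbl) cn)).to (by module)⟩
  have d1 := (cg_dot hg b1.m b1.mb).trans a.mmb
  have d2 := (cg_dot hg b1.m b1.m).trans a.mm
  have d3 := (cg_dot hg b1.mb b1.mb).trans mbb
  have q := f.sq (((d1.pow 2).sub (d2.mul d3)).to (b' := 1) (by ring))
  have v := (d1.add q.2).rinv (b' := hf A) (by linear_combination t) Hen.cg_hf.1
  have j := q.2.rinv (one_mul 1) (one_mem _)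
  have k := f.sq (((Hen.cg_hf.mul (d1.add q.2)).mul (j.2.pow 2)).to (b' := 1)
    (by linear_combination t))
  exact ⟨⟨s.1, u.1, i.1⟩, ⟨q.1, v.1, j.1, k.1⟩, b1.l, b1.n,
    (Hen.Cv.smul k.2 (b1.m.add (.smul (d2.mul v.2).neg b1.mb))).to (by module),
    (Hen.Cv.smul k.2 (b1.mb.add (.smul (d3.mul v.2).neg b1.m))).to (by module)⟩

theorem f3_cl (f : O.Fit N) (b : Cl N F F') {pi : A} (h2 : N.Cg (x2 S R F * pi) 1)
    (h0 : N.Cg (x0 S R F * pi) 0) (h1 : N.Cg (x1 S R F * pi) 0) (h3 : N.Cg (x3 S R F * pi) 0)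
    (h4 : N.Cg (x4 S R F * pi) 0) :
    Ok3 O R F ∧ N.Cg (ra O R F) 0 ∧ N.Cg (rb O R F) 0 ∧ Cl N (f3 O R F) F' := by
  obtain ⟨t, e, ct⟩ := h2.inv (one_mul 1) (one_mem _)
  have u : IsUnit (x2 S R F) := IsUnit.of_mul_eq_one (pi * t) (by rw [← mul_assoc, e])
  have i := mul_inverse_cancel _ u
  have ei : inverse (x2 S R F) = pi * t := by
    linear_combination pi * t * i - inverse (x2 S R F) * e
  have z : ∀ {x}, N.Cg (x * pi) 0 → N.Cg (x * inverse (x2 S R F)) 0 := fun h =>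
    ((h.mul ct).of (by rw [ei, mul_assoc])).to (zero_mul _)
  have h0 := z h0
  have h1 := z h1
  have h3 := z h3
  have h4 := z h4
  obtain ⟨k, c1, c2, c3, c4⟩ := f.okT (u := iu S R F) (v := iv S R F) (w := iw S R F)
    (((h0.mul h4).of (by rw [iu]; ring)).to (by ring))
    (((h1.mul h3).of (by rw [iv]; ring)).to (by ring))
    (((((h1.pow 2).mul h4).add ((h3.pow 2).mul h0)).of (by rw [iw]; ring)).to (by ring))
  have ca : N.Cg (ra O R F) 0 :=
    (((((((Hen.cg_num 2).mul c3).mul ((h0.mul h3).sub (c1.mul h1))).mul c2).mul c4).of (by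
      rw [ra, ta, nu, Di, yy, wi]
      linear_combination -2 * O.ty (iu S R F) (iv S R F) (iw S R F) *
        O.tn (iu S R F) (iv S R F) (iw S R F) * x1 S R F * inverse (x2 S R F) *
        O.tD (iu S R F) (iv S R F) (iw S R F) * O.tw (iu S R F) (iv S R F) (iw S R F) * i)).to
      (by ring))
  have cb : N.Cg (rb O R F) 0 :=
    ((((c3.mul ((h1.mul h4).sub (c1.mul h3))).mul c2).of (by
      rw [rb, tb, nu, Di, yy]
      linear_combination -O.ty (iu S R F) (iv S R F) (iw S R F) *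
        O.tn (iu S R F) (iv S R F) (iw S R F) * x3 S R F * inverse (x2 S R F) *
        O.tD (iu S R F) (iv S R F) (iw S R F) * i)).to (by ring))
  exact ⟨⟨u, k⟩, ca, cb, (b.rn ca).rl cb⟩

theorem cg_Wr (hg : ∀ a b, S.g a b ∈ N.B) {pi : A} (hR : ∀ a b e d, R a b e d * pi ∈ N.B)
    {X Y Z U X' Y' Z' U' : Vec A} (h1 : N.Cv X X') (h2 : N.Cv Y Y') (h3 : N.Cv Z Z')
    (h4 : N.Cv U U') : N.Cg (Wr S R X Y Z U * pi) (Wr S R X' Y' Z' U' * pi) := by
  have e : ∀ X Y Z U, Wr S R X Y Z U * pi = Wr S (fun a b e d => R a b e d * pi) X Y Z U := by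
    intro X Y Z U
    rw [Wr, Wr, mul_comm, ← dot_smul_left]
    congr 1
    funext d
    simp only [Pi.smul_apply, smul_eq_mul, Finset.mul_sum]
    exact Finset.sum_congr rfl fun _ _ => Finset.sum_congr rfl fun _ _ =>
      Finset.sum_congr rfl fun _ _ => by ring
  rw [e, e]
  exact cg_dot hg (fun d => .sum _ fun a _ => .sum _ fun b _ => .sum _ fun e _ =>
    (((Hen.Cg.refl (hR a b e d)).mul (h1 a)).mul (h2 b)).mul (h3 e)) h4

/-- For a frame which is almost null and almost principal the construction is defined and gives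
a close frame. -/
theorem full_cl (h : S.Is) (f : O.Fit N) (hg : ∀ a b, S.g a b ∈ N.B) {pi : A}
    (hR : ∀ a b e d, R a b e d * pi ∈ N.B) (r : F.RW S) (b : Cl N F F) (a : AN N F)
    (h2 : N.Cg (x2 S R F * pi) 1) (h0 : N.Cg (x0 S R F * pi) 0) (h1 : N.Cg (x1 S R F * pi) 0)
    (h3 : N.Cg (x3 S R F * pi) 0) (h4 : N.Cg (x4 S R F * pi) 0) :
    Ok O R F ∧ Cl N (full O R F) F := by
  obtain ⟨k1, k2, c⟩ := gsF_cl h f hg r b a
  have n : ∀ {x y : A}, N.Cg (x * pi) (y * pi) → N.Cg (-x * pi) (-y * pi) := fun h => by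
    simpa only [neg_mul] using h.neg
  obtain ⟨k3, -, -, d⟩ := f3_cl (R := R) f c ((cg_Wr hg hR c.n c.mb c.l c.m).trans h2)
    ((n (cg_Wr hg hR c.l c.m c.l c.m)).trans h0) ((n (cg_Wr hg hR c.l c.n c.l c.m)).trans h1)
    ((n (cg_Wr hg hR c.n c.l c.n c.mb)).trans h3) ((n (cg_Wr hg hR c.n c.mb c.n c.mb)).trans h4)
  exact ⟨⟨k1, k2, k3⟩, d⟩

end Fr
end Vale.Agent.P354XD
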